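import Vale.Agent.Lib.Helper2.P302.PiB

/-!
Bridges from the bound on placements of pairs into bins to families indexed by an arbitrary
type: first for families given by three index functions, then for families of three element
sets each containing exactly one marked element.
-/

namespace Vale.Agent.Lib.Helper2.PiB

open Finset

/-- A family `b ↦ (k b, i b, j b)` of bins with pairs of items, pairwise disjoint, is a
placement; so its size is bounded by any bound on placements. -/
theorem family_le (w c : ℕ → ℕ) (I B : Finset ℕ) (t : ℕ)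
    (hPl : ∀ (S : Finset ℕ) (f g : ℕ → ℕ), Placed w c I B S f g → S.card ≤ t)
    {β : Type*} (Bs : Finset β) (k i j : β → ℕ)
    (hk : ∀ b ∈ Bs, k b ∈ B) (hi : ∀ b ∈ Bs, i b ∈ I) (hj : ∀ b ∈ Bs, j b ∈ I)
    (hij : ∀ b ∈ Bs, i b ≠ j b)
    (hfit : ∀ b ∈ Bs, w (i b) + w (j b) ≤ c (k b))
    (hdisj : ∀ b ∈ Bs, ∀ b' ∈ Bs, b ≠ b' →
      k b ≠ k b' ∧ i b ≠ i b' ∧ i b ≠ j b' ∧ j b ≠ i b' ∧ j b ≠ j b') :
    Bs.card ≤ t := by
  classical
  have hkinj : Set.InjOn k Bs := by
    intro b hb b' hb' hbb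
    by_contra hne
    exact (hdisj b hb b' hb' hne).1 hbb
  -- for a bin number `s` used by the family, the member using it
  have hex : ∀ s ∈ Bs.image k, ∃ b, b ∈ Bs ∧ k b = s := by
    intro s hs
    rw [Finset.mem_image] at hs
    obtain ⟨b, hb, rfl⟩ := hs
    exact ⟨b, hb, rfl⟩
  by_cases hne : Bs.Nonempty
  · obtain ⟨b0, _⟩ := hne
    let sel : ℕ → β := fun s => if h : s ∈ Bs.image k then Classical.choose (hex s h) else b0
    have hsel : ∀ s ∈ Bs.image k, sel s ∈ Bs ∧ k (sel s) = s := by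
      intro s hs
      simp only [sel, dif_pos hs]
      exact Classical.choose_spec (hex s hs)
    have hP : Placed w c I B (Bs.image k) (fun s => i (sel s)) (fun s => j (sel s)) := by
      refine ⟨?_, ?_, ?_, ?_, ?_, ?_⟩
      · intro s hs
        obtain ⟨h1, h2⟩ := hsel s hs
        rw [← h2]
        exact hk _ h1
      · intro s hs
        exact hi _ (hsel s hs).1
      · intro s hs
        exact hj _ (hsel s hs).1
      · intro s hs
        exact hij _ (hsel s hs).1
      · intro s hs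
        obtain ⟨h1, h2⟩ := hsel s hs
        have := hfit _ h1
        rw [h2] at this
        exact this
      · intro s hs s' hs' hss
        obtain ⟨h1, h2⟩ := hsel s hs
        obtain ⟨h1', h2'⟩ := hsel s' hs'
        have hbb : sel s ≠ sel s' := by
          intro h
          apply hss
          rw [← h2, ← h2', h]
        exact (hdisj _ h1 _ h1' hbb).2
    have h := hPl _ _ _ hP
    rwa [Finset.card_image_of_injOn hkinj] at h
  · rw [Finset.not_nonempty_iff_eq_empty] at hne
    rw [hne]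
    simp

/-- A family of pairwise disjoint three element sets, each with exactly one marked element (the
bin, decoded by `kb`) and two unmarked elements (the items, decoded by `ki`) which fit into the
bin, has at most `t` members whenever placements have at most `t` bins. -/
theorem sets_le (w c : ℕ → ℕ) (I B : Finset ℕ) (t : ℕ)
    (hPl : ∀ (S : Finset ℕ) (f g : ℕ → ℕ), Placed w c I B S f g → S.card ≤ t)
    {β : Type*} (Bs : Finset β) (T : β → Finset ℕ)
    (isBig : ℕ → Prop) (kb ki : ℕ → ℕ)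
    (hcard : ∀ b ∈ Bs, (T b).card = 3)
    (hbig : ∀ b ∈ Bs, ∃ x ∈ T b, isBig x ∧ ∀ y ∈ T b, isBig y → y = x)
    (hkb : ∀ b ∈ Bs, ∀ x ∈ T b, isBig x → kb x ∈ B)
    (hki : ∀ b ∈ Bs, ∀ x ∈ T b, ¬ isBig x → ki x ∈ I)
    (hkbinj : ∀ b ∈ Bs, ∀ b' ∈ Bs, ∀ x ∈ T b, ∀ y ∈ T b', isBig x → isBig y →
      kb x = kb y → x = y)
    (hkiinj : ∀ b ∈ Bs, ∀ b' ∈ Bs, ∀ x ∈ T b, ∀ y ∈ T b', ¬ isBig x → ¬ isBig y →
      ki x = ki y → x = y)
    (hfit : ∀ b ∈ Bs, ∀ x ∈ T b, ∀ y ∈ T b, ∀ z ∈ T b, isBig x → ¬ isBig y → ¬ isBig z →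
      y ≠ z → w (ki y) + w (ki z) ≤ c (kb x))
    (hdisj : ∀ b ∈ Bs, ∀ b' ∈ Bs, b ≠ b' → Disjoint (T b) (T b')) :
    Bs.card ≤ t := by
  classical
  -- decompose every member
  have hdec : ∀ b ∈ Bs, ∃ x y z, x ∈ T b ∧ y ∈ T b ∧ z ∈ T b ∧ isBig x ∧ ¬ isBig y ∧
      ¬ isBig z ∧ y ≠ z := by
    intro b hb
    obtain ⟨x, hx, hxb, huniq⟩ := hbig b hb
    have h2 : ((T b).erase x).card = 2 := by
      rw [Finset.card_erase_of_mem hx, hcard b hb]
    obtain ⟨y, z, hyz, hyz'⟩ := Finset.card_eq_two.1 h2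
    have hy : y ∈ (T b).erase x := by rw [hyz']; simp
    have hz : z ∈ (T b).erase x := by rw [hyz']; simp
    rw [Finset.mem_erase] at hy hz
    refine ⟨x, y, z, hx, hy.2, hz.2, hxb, ?_, ?_, hyz⟩
    · intro h
      exact hy.1 (huniq y hy.2 h)
    · intro h
      exact hz.1 (huniq z hz.2 h)
  by_cases hne : Bs.Nonempty
  · let X : β → ℕ := fun b => if h : b ∈ Bs then Classical.choose (hdec b h) else 0
    let Y : β → ℕ := fun b =>
      if h : b ∈ Bs then Classical.choose (Classical.choose_spec (hdec b h)) else 0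
    let Z : β → ℕ := fun b =>
      if h : b ∈ Bs then
        Classical.choose (Classical.choose_spec (Classical.choose_spec (hdec b h)))
      else 0
    have hXYZ : ∀ b ∈ Bs, X b ∈ T b ∧ Y b ∈ T b ∧ Z b ∈ T b ∧ isBig (X b) ∧ ¬ isBig (Y b) ∧
        ¬ isBig (Z b) ∧ Y b ≠ Z b := by
      intro b hb
      simp only [X, Y, Z, dif_pos hb]
      exact Classical.choose_spec (Classical.choose_spec (Classical.choose_spec (hdec b hb)))
    refine family_le w c I B t hPl Bs (fun b => kb (X b)) (fun b => ki (Y b))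
      (fun b => ki (Z b)) ?_ ?_ ?_ ?_ ?_ ?_
    · intro b hb
      obtain ⟨h1, h2, h3, h4, h5, h6, h7⟩ := hXYZ b hb
      exact hkb b hb _ h1 h4
    · intro b hb
      obtain ⟨h1, h2, h3, h4, h5, h6, h7⟩ := hXYZ b hb
      exact hki b hb _ h2 h5
    · intro b hb
      obtain ⟨h1, h2, h3, h4, h5, h6, h7⟩ := hXYZ b hb
      exact hki b hb _ h3 h6
    · intro b hb
      obtain ⟨h1, h2, h3, h4, h5, h6, h7⟩ := hXYZ b hb
      intro h
      exact h7 (hkiinj b hb b hb _ h2 _ h3 h5 h6 h)
    · intro b hb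
      obtain ⟨h1, h2, h3, h4, h5, h6, h7⟩ := hXYZ b hb
      exact hfit b hb _ h1 _ h2 _ h3 h4 h5 h6 h7
    · intro b hb b' hb' hbb
      obtain ⟨h1, h2, h3, h4, h5, h6, h7⟩ := hXYZ b hb
      obtain ⟨h1', h2', h3', h4', h5', h6', h7'⟩ := hXYZ b' hb'
      have hd := Finset.disjoint_left.1 (hdisj b hb b' hb' hbb)
      refine ⟨?_, ?_, ?_, ?_, ?_⟩
      · intro h
        have := hkbinj b hb b' hb' _ h1 _ h1' h4 h4' h
        exact hd h1 (this ▸ h1')
      · intro h
        have := hkiinj b hb b' hb' _ h2 _ h2' h5 h5' h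
        exact hd h2 (this ▸ h2')
      · intro h
        have := hkiinj b hb b' hb' _ h2 _ h3' h5 h6' h
        exact hd h2 (this ▸ h3')
      · intro h
        have := hkiinj b hb b' hb' _ h3 _ h2' h6 h5' h
        exact hd h3 (this ▸ h2')
      · intro h
        have := hkiinj b hb b' hb' _ h3 _ h3' h6 h6' h
        exact hd h3 (this ▸ h3')
  · rw [Finset.not_nonempty_iff_eq_empty] at hne
    rw [hne]
    simp

/-- The same bound for an auxiliary weight list: indices below `nb` are the bins in the order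
of decreasing capacity (`xw j + c (nb - 1 - j) = M1`), the next `ni` indices are the items
(`xw j = M2 + w (j - nb)`), and the capacity is `M1 + 2 * M2`.  A family of pairwise disjoint
three element sets of indices, each with exactly one index below `nb` and of total weight at
most the capacity, has at most `t` members. -/
theorem xsets_le (w c : ℕ → ℕ) (ni nb t : ℕ)
    (hPl : ∀ (S : Finset ℕ) (f g : ℕ → ℕ),
      Placed w c (Finset.range ni) (Finset.range nb) S f g → S.card ≤ t)
    (xw : ℕ → ℕ) (xcap M1 M2 : ℕ) (hcap : xcap = M1 + 2 * M2)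
    (hlight : ∀ j, j < nb → xw j + c (nb - 1 - j) = M1)
    (hheavy : ∀ j, nb ≤ j → j < nb + ni → xw j = M2 + w (j - nb))
    {β : Type*} (Bs : Finset β) (T : β → Finset ℕ)
    (hcard : ∀ b ∈ Bs, (T b).card = 3)
    (hsub : ∀ b ∈ Bs, ∀ j ∈ T b, j < nb + ni)
    (hone : ∀ b ∈ Bs, ((T b).filter (fun j => j < nb)).card = 1)
    (hsum : ∀ b ∈ Bs, ∑ j ∈ T b, xw j ≤ xcap)
    (hdisj : ∀ b ∈ Bs, ∀ b' ∈ Bs, b ≠ b' → Disjoint (T b) (T b')) :
    Bs.card ≤ t := by
  classical
  refine sets_le w c (Finset.range ni) (Finset.range nb) t hPl Bs T (fun j => j < nb)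
    (fun j => nb - 1 - j) (fun j => j - nb) hcard ?_ ?_ ?_ ?_ ?_ ?_ hdisj
  · intro b hb
    obtain ⟨x, hx⟩ := Finset.card_eq_one.1 (hone b hb)
    have hxm : x ∈ (T b).filter (fun j => j < nb) := by rw [hx]; simp
    rw [Finset.mem_filter] at hxm
    refine ⟨x, hxm.1, hxm.2, ?_⟩
    intro y hy hyb
    have hym : y ∈ (T b).filter (fun j => j < nb) := Finset.mem_filter.2 ⟨hy, hyb⟩
    rw [hx, Finset.mem_singleton] at hym
    exact hym
  · intro b hb x hx hxb
    rw [Finset.mem_range]
    omega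
  · intro b hb x hx hxb
    have := hsub b hb x hx
    rw [Finset.mem_range]
    omega
  · intro b hb b' hb' x hx y hy hxb hyb h
    omega
  · intro b hb b' hb' x hx y hy hxb hyb h
    omega
  · intro b hb x hx y hy z hz hxb hyb hzb hyz
    have hxy : x ≠ y := fun h => hyb (h ▸ hxb)
    have hxz : x ≠ z := fun h => hzb (h ▸ hxb)
    have hsubset : ({x, y, z} : Finset ℕ) ⊆ T b := by
      intro u hu
      rw [Finset.mem_insert, Finset.mem_insert, Finset.mem_singleton] at hu
      rcases hu with rfl | rfl | rfl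
      · exact hx
      · exact hy
      · exact hz
    have h1 : ∑ j ∈ ({x, y, z} : Finset ℕ), xw j ≤ ∑ j ∈ T b, xw j :=
      Finset.sum_le_sum_of_subset hsubset
    have h2 : ∑ j ∈ ({x, y, z} : Finset ℕ), xw j = xw x + (xw y + xw z) := by
      rw [Finset.sum_insert (by simp [hxy, hxz]), Finset.sum_insert (by simp [hyz]),
        Finset.sum_singleton]
    have h3 := hsum b hb
    have h4 := hlight x hxb
    have h5 := hheavy y (by omega) (hsub b hb y hy)
    have h6 := hheavy z (by omega) (hsub b hb z hz)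
    show w (y - nb) + w (z - nb) ≤ c (nb - 1 - x)
    omega

end Vale.Agent.Lib.Helper2.PiB
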