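import Vale.Agent.Lib.Helper9.P302.InfMain7

/-!
Levels built from one fixed pairs in bins gadget, with the number of items made explicit.

This is the development of the file `InfMain7` of `Helper9` with the number of items exposed:
after `j` levels with a gadget `G` of `2 t + 4` items and `G.m` bins the instance has exactly
`7 + 3 j (G.m + 1)` items.
-/

namespace Vale.Agent.Lib.Helper2.Inf7N

open Finset
open Vale.Agent.Lib.Helper3.BinPacking
open Vale.Agent.Lib.Helper2.Inf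
open Vale.Agent.Lib.Helper9.P302Inf

/-- There is an instance with exactly `n = 3 ν + 7` items and bounded charges which has at most
`ν` pairwise disjoint triples and a fractional family of triples of total weight `ν + D`. -/
def Good7N (D : ℝ) (n : ℕ) : Prop :=
  ∃ (d : ℕ → ℤ) (ν : ℕ) (ρ : ℕ → ℝ) (v : ℝ) (B : ℤ),
    n = 3 * ν + 7 ∧ TB d n ν ∧ FS d n ρ v ∧ (∀ i, i < n → -B ≤ d i ∧ d i ≤ B) ∧ 0 ≤ B ∧
      v - ν = D

theorem Good7N.good7 {D : ℝ} {n : ℕ} (h : Good7N D n) : Good7 D := by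
  obtain ⟨d, ν, ρ, v, B, hn, hTB, hFS, hB, hB0, hD⟩ := h
  exact ⟨d, n, ν, ρ, v, B, hn, hTB, hFS, hB, hB0, hD⟩

/-- The start: seven items with charges `0, 1, 1, 1, 1, 1, 1`. -/
theorem good7N_base : Good7N (1 / 3) 7 := by
  refine ⟨fun i => if i = 0 then 0 else 1, 0, fun i => if i = 0 then 0 else 1, 1 / 3, 1,
    rfl, ?_, ?_, ?_, by norm_num, by norm_num⟩
  · intro P hP hdisj
    by_contra hcon
    have hne : P.Nonempty := by
      rw [Finset.nonempty_iff_ne_empty]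
      intro h
      rw [h] at hcon
      simp at hcon
    obtain ⟨T, hT⟩ := hne
    obtain ⟨hc, hsub, hsum⟩ := hP T hT
    obtain ⟨x, y, z, hxy, hxz, hyz, rfl⟩ := Finset.card_eq_three.1 hc
    rw [Finset.sum_insert (by simp [hxy, hxz]), Finset.sum_pair hyz] at hsum
    split_ifs at hsum <;> omega
  · refine ⟨Fin 1, inferInstance, fun _ => 0, fun _ => 0, fun _ => 0, fun _ => 1 / 3,
      ?_, ?_, ?_, ?_, ?_⟩
    · intro j
      norm_num
    · intro j
      simp
    · intro i hi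
      simp only [Fin.sum_univ_one]
      by_cases h0 : i = 0
      · subst h0
        simp [ind]
        norm_num
      · have h0' : ¬ (0 = i) := fun h => h0 h.symm
        simp [ind, h0, h0']
    · intro i
      beta_reduce
      split_ifs <;> norm_num
    · simp
  · intro i hi
    beta_reduce
    split_ifs <;> constructor <;> norm_num

/-- One level with the gadget `G`: from `D` to a quarter of `D + 3 + g`, with `3 (G.m + 1)`
further items. -/
theorem good7N_step (G : Gadget) (t jk : ℕ) (H : ℤ) (g r : ℝ)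
    (hN : G.N = 2 * t + 4) (hm : t + 4 ≤ G.m)
    (hc : ∀ b, b < G.m → (G.c b : ℤ) ≤ H) (hw : ∀ i, i < G.N → (G.w i : ℤ) ≤ H)
    (hInt : G.IntBound t) (hFP : G.FracPairs (t + g) r jk) (hr : 0 ≤ r)
    (hg0 : 0 ≤ g) (hg2 : g ≤ 2) (D : ℝ) (n : ℕ) (h : Good7N D n) (h1 : 1 / 3 ≤ D)
    (h2 : 3 * D ≤ 3 + g) : Good7N ((D + 3 + g) / 4) (n + 3 * (G.m + 1)) := by
  obtain ⟨d, ν, ρ, v, B, hn, hTB, hFS, hB, hB0, hD⟩ := h
  obtain ⟨B1, hB1⟩ : ∃ B1 : ℤ, B1 = max B H := ⟨_, rfl⟩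
  have hB1a : B ≤ B1 := by
    rw [hB1]
    exact le_max_left _ _
  have hB1b : H ≤ B1 := by
    rw [hB1]
    exact le_max_right _ _
  have hB10 : 0 ≤ B1 := le_trans hB0 hB1a
  obtain ⟨s, hs⟩ : ∃ s : ℤ, s = 2 * B1 + 1 := ⟨_, rfl⟩
  obtain ⟨q, hq⟩ : ∃ q : ℕ, q = G.m - t - 4 := ⟨_, rfl⟩
  obtain ⟨p5, hp5⟩ : ∃ p5 : ℕ, p5 = G.m - t + 1 := ⟨_, rfl⟩
  have TB1 := TB_addOnes d n ν q B s (fun i hi => (hB i hi).1) hB0 (by omega) hTB
  have FS1 := FS_addOnes d n q s ρ v hFS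
  have hd1 : ∀ i, i < n + q → -B1 ≤ addOnes d n s i ∧ addOnes d n s i ≤ s := by
    intro i hi
    unfold addOnes
    split_ifs with hin
    · have := hB i hin
      constructor <;> omega
    · constructor <;> omega
  have TB2 := level_TB (addOnes d n s) (n + q) ν (ν + G.m + 1) t p5 G B1 s
    (fun i hi => (hd1 i hi).1) hB10
    (fun b hb => le_trans (hc b hb) hB1b)
    (by omega) hInt TB1 (by omega)
  have hslack := FS_slack_sum _ _ _ _ FS1
  obtain ⟨β, hβ⟩ : ∃ β : ℝ, β = (1 + 3 * D - g) / 4 := ⟨_, rfl⟩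
  have hnq : ((n + q : ℕ) : ℝ) + (t : ℝ) = 3 * (ν : ℝ) + 3 + (G.m : ℝ) := by
    have e : n + q + t = 3 * ν + 3 + G.m := by omega
    exact_mod_cast e
  have hp5c : (p5 : ℝ) + (t : ℝ) = (G.m : ℝ) + 1 := by
    have e : p5 + t = G.m + 1 := by omega
    exact_mod_cast e
  have hmt : (t : ℝ) + 4 ≤ (G.m : ℝ) := by exact_mod_cast hm
  obtain ⟨ρ2, FS2⟩ := level_FS (addOnes d n s) (n + q) G s p5
    (fun i => if i < n then ρ i else 1) v (t + g) r β jk
    (fun i hi => (hd1 i hi).2) (by omega) hr hFP FS1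
    (by rw [hβ]; linarith) (by rw [hβ]; linarith)
    (by rw [hslack, hβ]; linarith)
    (by rw [hβ]; linarith)
    (by omega)
    (by rw [hslack]; linarith)
  have hcount : n + 3 * (G.m + 1) = n + q + G.m + 2 + G.N + p5 := by omega
  rw [hcount]
  refine ⟨addLevel (addOnes d n s) (n + q) G s, ν + G.m + 1, ρ2,
    v + G.m + 2 - β, 9 * s, ?_, TB2, FS2, ?_, by omega, ?_⟩
  · omega
  · intro i hi
    unfold addLevel
    split_ifs with c1 c2 c3 c4
    · have := hd1 i c1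
      constructor <;> omega
    · have h5 := hc (i - (n + q)) (by omega)
      have h6 : (0 : ℤ) ≤ (G.c (i - (n + q)) : ℤ) := Int.natCast_nonneg _
      constructor <;> omega
    · constructor <;> omega
    · have h5 := hw (i - (n + q + G.m + 2)) (by omega)
      have h6 : (0 : ℤ) ≤ (G.w (i - (n + q + G.m + 2)) : ℤ) := Int.natCast_nonneg _
      constructor <;> omega
    · constructor <;> omega
  · rw [hβ]
    push_cast
    linarith

/-- The sequence of levels with one fixed gadget: after `j` levels there are exactly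
`7 + 3 j (G.m + 1)` items. -/
theorem good7N_seq (G : Gadget) (t jk : ℕ) (H : ℤ) (g r : ℝ)
    (hN : G.N = 2 * t + 4) (hm : t + 4 ≤ G.m)
    (hc : ∀ b, b < G.m → (G.c b : ℤ) ≤ H) (hw : ∀ i, i < G.N → (G.w i : ℤ) ≤ H)
    (hInt : G.IntBound t) (hFP : G.FracPairs (t + g) r jk) (hr : 0 ≤ r)
    (hg0 : 0 ≤ g) (hg2 : g ≤ 2) (j : ℕ) :
    ∃ D : ℝ, Good7N D (7 + 3 * j * (G.m + 1)) ∧ 1 / 3 ≤ D ∧ D ≤ 1 + g / 3 ∧
      1 + g / 3 - D ≤ 4 / 3 * (1 / 4) ^ j := by
  induction j with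
  | zero =>
    refine ⟨1 / 3, ?_, le_refl _, by linarith, by norm_num; linarith⟩
    have e : 7 + 3 * 0 * (G.m + 1) = 7 := by omega
    rw [e]
    exact good7N_base
  | succ j ih =>
    obtain ⟨D, hG, hD1, hD2, hD3⟩ := ih
    have hstep := good7N_step G t jk H g r hN hm hc hw hInt hFP hr hg0 hg2 D _ hG hD1
      (by linarith)
    have e : 7 + 3 * (j + 1) * (G.m + 1) = 7 + 3 * j * (G.m + 1) + 3 * (G.m + 1) := by ring
    rw [e]
    refine ⟨(D + 3 + g) / 4, hstep, by linarith, by linarith, ?_⟩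
    rw [pow_succ]
    linarith

/-- After `j` levels: an instance with exactly `7 + 3 j (G.m + 1)` items, all sizes larger than
`1/4` and at most `1/2`, whose gap between the optimum and the value of the configuration
linear program is at least `1 + g / 6 - (2/3) (1/4)^j`. -/
theorem gap_limit7N (G : Gadget) (t jk : ℕ) (H : ℤ) (g r : ℝ)
    (hN : G.N = 2 * t + 4) (hm : t + 4 ≤ G.m)
    (hc : ∀ b, b < G.m → (G.c b : ℤ) ≤ H) (hw : ∀ i, i < G.N → (G.w i : ℤ) ≤ H)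
    (hInt : G.IntBound t) (hFP : G.FracPairs (t + g) r jk) (hr : 0 ≤ r)
    (hg0 : 0 ≤ g) (hg2 : g ≤ 2) (j : ℕ) :
    ∃ a : Fin (7 + 3 * j * (G.m + 1)) → ℚ,
      (∀ i, 1 / 4 < a i ∧ a i ≤ 1 / 2) ∧
        1 + g / 6 - 2 / 3 * (1 / 4) ^ j ≤ (opt a : ℝ) - lp a := by
  obtain ⟨D, hG, hD1, hD2, hD3⟩ := good7N_seq G t jk H g r hN hm hc hw hInt hFP hr hg0 hg2 j
  obtain ⟨d, ν, ρ, v, B, hn, hTB, hFS, hB, hB0, hD⟩ := hG
  obtain ⟨x, hx, hgap⟩ := gap_of_thirds7 d _ ν ρ v hn hTB hFS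
  refine ⟨x, hx, ?_⟩
  linarith

end Vale.Agent.Lib.Helper2.Inf7N
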