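import Vale.Agent.Lib.Helper4.P302.Doubling
import Vale.Agent.Lib.Helper2.P302.InfMain7N

/-!
Doubling with explicit sizes: the `j`-th doubled gadget has `25 * 2 ^ (j + 1) - 2` bins, and
`j` levels of thirds instances built from it give a bin packing instance with
`7 + 75 j 2 ^ (j + 1) - 3 j` items whose optimum exceeds the value of the configuration linear
program by at least `4/3 - (2/3) ^ j`.
-/

namespace Vale.Agent.Lib.Helper2.DoublingM

open Finset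
open Vale.Agent.Lib.Helper2.Inf
open Vale.Agent.Lib.Helper3.BinPacking
open Vale.Agent.Lib.Helper4.P302

/-- The gadgets of the doubling construction, with the number `M` of bins exposed. -/
def NiceM (g : ℝ) (M : ℕ) : Prop :=
  ∃ (G : Gadget) (t jk H : ℕ) (ts r : ℝ),
    G.m = M ∧ G.IntBound t ∧ G.FracPairs ts r jk ∧ jk < G.N ∧ 0 ≤ r ∧ r ≤ 1 ∧
      (∀ i, i < G.N → G.w i ≤ H) ∧ (∀ b, b < G.m → G.c b ≤ H) ∧
      ts + 3 ≤ G.m ∧ ts - t = g

/-- The start: the gadget of level four of the earlier family has `23` bins. -/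
theorem niceM_base : NiceM (3 / 2 - 1 / 162) 23 := by
  have hm := gdata_m 4
  have hfrac := gdata_frac 4
  refine ⟨(gdata 4).G, 18, (gdata 4).jk, (gdata 4).H,
    4 * ((4 : ℕ) : ℝ) + 2 + 3 / 2 - 1 / (2 * 3 ^ 4), 1 / 3 ^ 4, hm,
    gdata_int 4, hfrac, gdata_jk 4, by norm_num, by norm_num,
    fun i hi => gdata_w_le 4 i hi, fun b hb => gdata_c_le 4 b hb, ?_, ?_⟩
  · rw [hm]
    norm_num
  · norm_num

/-- The doubling step: the join of a gadget with `M` bins with itself has `2 M + 2` bins. -/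
theorem niceM_step (g : ℝ) (M : ℕ) (h : NiceM g M) (hg1 : 5 / 4 < g) (hg2 : g < 2) :
    NiceM ((2 * g + 2) / 3) (2 * M + 2) := by
  obtain ⟨G, t, jk, H, ts, r, hM, hInt, hFP, hjk, hr0, hr1, hw, hc, hsp, hg⟩ := h
  have hcount := fracPairs_count G ts r jk hjk hFP
  have htm : t ≤ G.m := by
    have : (t : ℝ) ≤ (G.m : ℝ) := by linarith
    exact_mod_cast this
  have hNle : G.N ≤ t + G.m + 2 := by
    have : (G.N : ℝ) ≤ ((t + G.m + 2 : ℕ) : ℝ) := by
      push_cast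
      linarith
    exact_mod_cast this
  obtain ⟨eb, heb⟩ : ∃ eb : ℕ, G.N + eb = t + G.m + 2 := ⟨t + G.m + 2 - G.N, by omega⟩
  have hebR : (eb : ℝ) = (t : ℝ) + G.m + 2 - G.N := by
    have : ((G.N + eb : ℕ) : ℝ) = ((t + G.m + 2 : ℕ) : ℝ) := by rw [heb]
    push_cast at this
    linarith
  obtain ⟨y, hy⟩ : ∃ y : ℝ, y = (2 - g) / 3 := ⟨_, rfl⟩
  have hy0 : 0 ≤ y := by rw [hy]; linarith
  have hy1 : y ≤ 1 := by rw [hy]; linarith
  obtain ⟨x, hx⟩ : ∃ x : ℝ, x = 1 - y + ((G.m : ℝ) - ts) - r := ⟨_, rfl⟩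
  have hx0 : 0 ≤ x := by rw [hx]; linarith
  obtain ⟨ec, hec⟩ : ∃ ec : ℕ, ec = ⌊x⌋₊ + 1 := ⟨_, rfl⟩
  have hfl1 : (⌊x⌋₊ : ℝ) ≤ x := Nat.floor_le hx0
  have hfl2 : x < (⌊x⌋₊ : ℝ) + 1 := Nat.lt_floor_add_one x
  have hecR : (ec : ℝ) = (⌊x⌋₊ : ℝ) + 1 := by
    rw [hec]
    push_cast
    ring
  obtain ⟨r', hr'⟩ : ∃ r' : ℝ, r' = r + ec - (1 - y) - ((G.m : ℝ) - ts) := ⟨_, rfl⟩
  have hI := join_int G G H eb ec t t hw hc hw hc hInt hInt htm (by omega)
  have hF := join_frac G G H eb ec jk jk ts r ts r y r' hw hc hw hc hjk hjk hFP hFP hr0 hr0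
    (by omega) hy0 hy1 (by rw [hy, hebR]; linarith) (by rw [hebR]; linarith)
    (by linarith) hr' (by rw [hr', hecR]; linarith) (by rw [hr', hecR]; linarith)
  refine ⟨join G G H eb ec, t + G.m + 1, G.N + eb + G.N + ec - 1, 13 * (H + 1),
    ts + G.m + 1 + y, r', ?_, hI, hF, ?_, by rw [hr', hecR]; linarith,
    by rw [hr', hecR]; linarith,
    join_w_le G G H eb ec hw hw, join_c_le G G H eb ec hc hc, ?_, ?_⟩
  · rw [join_m]
    omega
  · rw [join_N]
    omega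
  · rw [join_m]
    push_cast
    linarith
  · push_cast
    rw [hy]
    linarith

/-- The sequence of doubled gadgets: the `j`-th one has `25 * 2 ^ (j + 1) - 2` bins and its gap
is at least `2 - (2/3) ^ j`. -/
theorem niceM_seq (j : ℕ) : ∃ (g : ℝ) (M : ℕ), NiceM g M ∧ M + 2 = 25 * 2 ^ (j + 1) ∧
    3 / 2 < g ∧ g < 2 ∧ 2 - g ≤ (2 / 3) ^ j := by
  induction j with
  | zero =>
    refine ⟨(2 * (3 / 2 - 1 / 162) + 2) / 3, 2 * 23 + 2,
      niceM_step _ _ niceM_base (by norm_num) (by norm_num),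
      by norm_num, by norm_num, by norm_num, by norm_num⟩
  | succ j ih =>
    obtain ⟨g, M, hN, hM, h1, h2, h3⟩ := ih
    refine ⟨(2 * g + 2) / 3, 2 * M + 2, niceM_step g M hN (by linarith) h2, ?_, by linarith,
      by linarith, ?_⟩
    · rw [pow_succ]
      omega
    · rw [pow_succ]
      linarith

/-- The doubled gadgets in the form needed by the levels of thirds instances, with the number of
bins exposed. -/
theorem ready_seqM (j : ℕ) : ∃ (G : Gadget) (t jk : ℕ) (H : ℤ) (g r : ℝ),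
    G.m + 2 = 25 * 2 ^ (j + 1) ∧
    G.N = 2 * t + 4 ∧ t + 4 ≤ G.m ∧ (∀ b, b < G.m → (G.c b : ℤ) ≤ H) ∧
      (∀ i, i < G.N → (G.w i : ℤ) ≤ H) ∧ G.IntBound t ∧ G.FracPairs (t + g) r jk ∧ 0 ≤ r ∧
      0 ≤ g ∧ g ≤ 2 ∧ 2 - g ≤ (2 / 3) ^ j := by
  obtain ⟨g, M, hN, hMeq, hg1, hg2, hg3⟩ := niceM_seq j
  obtain ⟨G, t, jk, H, ts, r, hM, hInt, hFP, hjk, hr0, hr1, hw, hc, hsp, hg⟩ := hN
  have hcount := fracPairs_count G ts r jk hjk hFP
  have hNeq : G.N = 2 * t + 4 := by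
    have h1 : ((2 * t + 3 : ℕ) : ℝ) < (G.N : ℝ) := by
      push_cast
      linarith
    have h2 : (G.N : ℝ) < ((2 * t + 5 : ℕ) : ℝ) := by
      push_cast
      linarith
    have h1' : 2 * t + 3 < G.N := by exact_mod_cast h1
    have h2' : G.N < 2 * t + 5 := by exact_mod_cast h2
    omega
  have hm : t + 4 ≤ G.m := by
    have h1 : ((t + 4 : ℕ) : ℝ) ≤ (G.m : ℝ) := by
      push_cast
      linarith
    exact_mod_cast h1
  have hts : ts = (t : ℝ) + g := by linarith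
  rw [hts] at hFP
  exact ⟨G, t, jk, (H : ℤ), g, r, by rw [hM]; exact hMeq, hNeq, hm,
    fun b hb => by exact_mod_cast hc b hb,
    fun i hi => by exact_mod_cast hw i hi, hInt, hFP, hr0, by linarith, by linarith, hg3⟩

/-- For every `j` there is a bin packing instance with `n` items, `n + 3 j = 7 + 75 j 2^(j+1)`,
all sizes larger than `1/4` and at most `1/2`, whose optimum exceeds the value of the
configuration linear program by at least `4/3 - (2/3)^j`. -/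
theorem four_thirds_size (j : ℕ) : ∃ (n : ℕ) (a : Fin n → ℚ),
    n + 3 * j = 7 + 75 * j * 2 ^ (j + 1) ∧ (∀ i, 1 / 4 < a i ∧ a i ≤ 1 / 2) ∧
      4 / 3 - (2 / 3) ^ j ≤ (opt a : ℝ) - lp a := by
  obtain ⟨G, t, jk, H, g, r, hMeq, hNeq, hm, hc, hw, hInt, hFP, hr0, hg0, hg2, hg3⟩ :=
    ready_seqM j
  obtain ⟨a, ha, hgap⟩ := Vale.Agent.Lib.Helper2.Inf7N.gap_limit7N G t jk H g r hNeq hm
    hc hw hInt hFP hr0 hg0 hg2 j
  refine ⟨7 + 3 * j * (G.m + 1), a, ?_, ha, ?_⟩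
  · have e : G.m + 1 + 1 = 25 * 2 ^ (j + 1) := by omega
    calc 7 + 3 * j * (G.m + 1) + 3 * j = 7 + 3 * j * (G.m + 1 + 1) := by ring
      _ = 7 + 3 * j * (25 * 2 ^ (j + 1)) := by rw [e]
      _ = 7 + 75 * j * 2 ^ (j + 1) := by ring
  · have h4 : (1 / 4 : ℝ) ^ j ≤ (2 / 3) ^ j :=
      pow_le_pow_left₀ (by norm_num) (by norm_num) j
    have h5 : (0 : ℝ) ≤ (2 / 3) ^ j := by positivity
    linarith

end Vale.Agent.Lib.Helper2.DoublingM
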