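import Vale.Agent.Lib.Helper3.BinPacking

/-!
Items of size at most `1/2` can be packed in pairs: `n` such items need at most `(n + 1) / 2`
bins.
-/

namespace Vale.Agent.Lib.Helper2.OptHalf

open Finset
open Vale.Agent.Lib.Helper3.BinPacking

/-- `n` items of size at most `1/2` fit into `(n + 1) / 2` bins (rounded down). -/
theorem packing_half {n : ℕ} (a : Fin n → ℚ) (ha : ∀ i, a i ≤ 1 / 2) :
    ∃ f : Fin n → Fin ((n + 1) / 2), IsPacking a ((n + 1) / 2) f := by
  refine ⟨fun i => ⟨(i : ℕ) / 2, by have := i.2; omega⟩, ?_⟩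
  intro b
  have e : univ.filter (fun i : Fin n =>
      (⟨(i : ℕ) / 2, by have := i.2; omega⟩ : Fin ((n + 1) / 2)) = b) =
      univ.filter (fun i : Fin n => (i : ℕ) / 2 = (b : ℕ)) := by
    ext i
    simp [Fin.ext_iff]
  rw [e]
  have hsub : ∀ i ∈ univ.filter (fun i : Fin n => (i : ℕ) / 2 = (b : ℕ)),
      (i : ℕ) ∈ ({2 * (b : ℕ), 2 * (b : ℕ) + 1} : Finset ℕ) := by
    intro i hi
    rw [Finset.mem_filter] at hi
    rw [Finset.mem_insert, Finset.mem_singleton]
    omega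
  have hcard : (univ.filter (fun i : Fin n => (i : ℕ) / 2 = (b : ℕ))).card ≤ 2 :=
    le_trans (Finset.card_le_card_of_injOn (fun i : Fin n => (i : ℕ)) hsub
      (fun i _ j _ h => Fin.ext h)) Finset.card_le_two
  calc ∑ i ∈ univ.filter (fun i : Fin n => (i : ℕ) / 2 = (b : ℕ)), a i
      ≤ ∑ _i ∈ univ.filter (fun i : Fin n => (i : ℕ) / 2 = (b : ℕ)), (1 / 2 : ℚ) :=
        Finset.sum_le_sum (fun i _ => ha i)
    _ = ((univ.filter (fun i : Fin n => (i : ℕ) / 2 = (b : ℕ))).card : ℚ) * (1 / 2) := by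
        rw [Finset.sum_const, nsmul_eq_mul]
    _ ≤ 1 := by
        have h2 : ((univ.filter (fun i : Fin n => (i : ℕ) / 2 = (b : ℕ))).card : ℚ) ≤ 2 := by
          exact_mod_cast hcard
        linarith

/-- The optimum of `n` items of size at most `1/2` is at most `(n + 1) / 2`. -/
theorem opt_le_half {n : ℕ} (a : Fin n → ℚ) (ha : ∀ i, a i ≤ 1 / 2) :
    opt a ≤ (n + 1) / 2 := by
  unfold opt
  exact Nat.sInf_le (packing_half a ha)

end Vale.Agent.Lib.Helper2.OptHalf
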