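import Vale.Agent.Lib.Helper2.P302.DoublingM
import Vale.Agent.Lib.Helper2.P302.OptHalf

/-!
Assembly of the `every value of the optimum` statement from the size statement
`four_thirds_size`, the pairing bound `opt_le_half` and a padding step that is taken as a
hypothesis here (one more bin for the optimum, at most one more unit for the linear program).
-/

namespace Vale.Agent.Lib.Helper2.EveryOptAsm

open Vale.Agent.Lib.Helper3.BinPacking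

/-- Iterating a padding step `d` times. -/
theorem pad_iter
    (pad : ∀ (n : ℕ) (a : Fin n → ℚ), (∀ i, 1 / 4 < a i ∧ a i ≤ 1 / 2) →
      ∃ (n' : ℕ) (a' : Fin n' → ℚ), (∀ i, 1 / 4 < a' i ∧ a' i ≤ 1 / 2) ∧
        opt a' = opt a + 1 ∧ lp a' ≤ lp a + 1)
    (d : ℕ) : ∀ (n : ℕ) (a : Fin n → ℚ), (∀ i, 1 / 4 < a i ∧ a i ≤ 1 / 2) →
      ∃ (n' : ℕ) (a' : Fin n' → ℚ), (∀ i, 1 / 4 < a' i ∧ a' i ≤ 1 / 2) ∧
        opt a' = opt a + d ∧ lp a' ≤ lp a + d := by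
  induction d with
  | zero =>
    intro n a ha
    exact ⟨n, a, ha, by simp, by simp⟩
  | succ d ih =>
    intro n a ha
    obtain ⟨n1, a1, ha1, ho1, hl1⟩ := ih n a ha
    obtain ⟨n2, a2, ha2, ho2, hl2⟩ := pad n1 a1 ha1
    refine ⟨n2, a2, ha2, by omega, ?_⟩
    push_cast
    linarith

/-- The rate statement: from the `j`-th instance on, every value of the optimum occurs. -/
theorem rate
    (pad : ∀ (n : ℕ) (a : Fin n → ℚ), (∀ i, 1 / 4 < a i ∧ a i ≤ 1 / 2) →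
      ∃ (n' : ℕ) (a' : Fin n' → ℚ), (∀ i, 1 / 4 < a' i ∧ a' i ≤ 1 / 2) ∧
        opt a' = opt a + 1 ∧ lp a' ≤ lp a + 1)
    (j K : ℕ) (hK : 4 + 75 * j * 2 ^ j ≤ K) :
    ∃ (n : ℕ) (a : Fin n → ℚ), (∀ i, 1 / 4 < a i ∧ a i ≤ 1 / 2) ∧ opt a = K ∧
      4 / 3 - (2 / 3 : ℝ) ^ j ≤ (opt a : ℝ) - lp a := by
  obtain ⟨n, a, hn, ha, hgap⟩ := Vale.Agent.Lib.Helper2.DoublingM.four_thirds_size j
  have ho : opt a ≤ (n + 1) / 2 :=
    Vale.Agent.Lib.Helper2.OptHalf.opt_le_half a (fun i => (ha i).2)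
  have hp : 2 ^ (j + 1) = 2 * 2 ^ j := by ring
  have hoK : opt a ≤ K := by
    have h1 : n ≤ 7 + 150 * (j * 2 ^ j) := by
      have : 75 * j * 2 ^ (j + 1) = 150 * (j * 2 ^ j) := by rw [hp]; ring
      omega
    have h2 : 75 * j * 2 ^ j = 75 * (j * 2 ^ j) := by ring
    omega
  obtain ⟨n', a', ha', ho', hl'⟩ := pad_iter pad (K - opt a) n a ha
  refine ⟨n', a', ha', by omega, ?_⟩
  have e : ((opt a' : ℕ) : ℝ) = (opt a : ℝ) + ((K - opt a : ℕ) : ℝ) := by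
    rw [ho']; push_cast; ring
  rw [e]
  linarith

/-- The rate statement together with its qualitative consequence. -/
theorem every_opt
    (pad : ∀ (n : ℕ) (a : Fin n → ℚ), (∀ i, 1 / 4 < a i ∧ a i ≤ 1 / 2) →
      ∃ (n' : ℕ) (a' : Fin n' → ℚ), (∀ i, 1 / 4 < a' i ∧ a' i ≤ 1 / 2) ∧
        opt a' = opt a + 1 ∧ lp a' ≤ lp a + 1) :
    (∀ j K : ℕ, 4 + 75 * j * 2 ^ j ≤ K →
      ∃ (n : ℕ) (a : Fin n → ℚ), (∀ i, 1 / 4 < a i ∧ a i ≤ 1 / 2) ∧ opt a = K ∧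
        4 / 3 - (2 / 3 : ℝ) ^ j ≤ (opt a : ℝ) - lp a) ∧
    (∀ ε : ℝ, 0 < ε → ∃ K₀ : ℕ, ∀ K : ℕ, K₀ ≤ K →
      ∃ (n : ℕ) (a : Fin n → ℚ), (∀ i, 1 / 4 < a i ∧ a i ≤ 1 / 2) ∧ opt a = K ∧
        4 / 3 - ε ≤ (opt a : ℝ) - lp a) := by
  refine ⟨fun j K hK => rate pad j K hK, ?_⟩
  intro ε hε
  obtain ⟨j, hj⟩ := exists_pow_lt_of_lt_one hε (by norm_num : (2 / 3 : ℝ) < 1)
  refine ⟨4 + 75 * j * 2 ^ j, fun K hK => ?_⟩
  obtain ⟨n, a, ha, ho, hgap⟩ := rate pad j K hK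
  exact ⟨n, a, ha, ho, by linarith⟩

end Vale.Agent.Lib.Helper2.EveryOptAsm
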