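import Vale.Agent.Lib.Helper2.P302.PiB

/-!
The pairs in bins instance with 13 bins and 23 items, and the proof that at most 10 of its
bins can receive pairs at the same time.  The instance is built in 2 levels around a base
instance with 3 bins and 7 items; the bound follows by 2 applications of the level step.
-/

namespace Vale.Agent.Lib.Helper2.PiB

/-- The 13 capacities in increasing order. -/
def caps13 : List ℕ := [
  137, 170, 180, 183, 188, 209, 246, 258, 263, 279,
  530, 542, 547]

/-- The 23 item weights in increasing order. -/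
def items13 : List ℕ := [
  0, 72, 88, 90, 91, 92, 94, 95, 95, 122,
  123, 124, 129, 130, 136, 137, 264, 265, 266, 271,
  272, 278, 279]

/-- The weight of item `i`. -/
def w13 (i : ℕ) : ℕ := items13.getD i 0

/-- The capacity of bin `b`. -/
def c13 (b : ℕ) : ℕ := caps13.getD b 0

theorem lev13_0 (S : Finset ℕ) (f g : ℕ → ℕ)
    (hP : Placed w13 c13 (Finset.Ico 2 9) (Finset.Ico 2 5) S f g) : S.card + 1 ≤ 3 :=
  base_step w13 c13 (Finset.Ico 2 9) (Finset.Ico 2 5) 2 3 4 (by decide) (by decide)
    (by decide) (by decide) (by decide +kernel) S f g hP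

theorem lev13_1 (S : Finset ℕ) (f g : ℕ → ℕ)
    (hP : Placed w13 c13 (Finset.Ico 1 16) (Finset.Ico 1 9) S f g) : S.card + 1 ≤ 7 :=
  level_step w13 c13 (Finset.Ico 2 9) (Finset.Ico 2 5) (Finset.Ico 9 16)
    (Finset.Ico 1 16) (Finset.Ico 1 9) 1 1 5 6 7 8 3
    (by decide +kernel) (by decide +kernel) (by decide +kernel) (by decide +kernel) (by decide)
    (by decide) (by decide) (by decide)
    (by decide +kernel) (by decide +kernel) (by decide +kernel) (by decide +kernel)
    lev13_0 S f g hP

theorem lev13_2 (S : Finset ℕ) (f g : ℕ → ℕ)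
    (hP : Placed w13 c13 (Finset.Ico 0 23) (Finset.Ico 0 13) S f g) : S.card + 1 ≤ 11 :=
  level_step w13 c13 (Finset.Ico 1 16) (Finset.Ico 1 9) (Finset.Ico 16 23)
    (Finset.Ico 0 23) (Finset.Ico 0 13) 0 0 9 10 11 12 7
    (by decide +kernel) (by decide +kernel) (by decide +kernel) (by decide +kernel) (by decide)
    (by decide) (by decide) (by decide)
    (by decide +kernel) (by decide +kernel) (by decide +kernel) (by decide +kernel)
    lev13_1 S f g hP

/-- At most 10 of the 13 bins can receive pairs of the 23 items at the same time. -/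
theorem pairs13_le (S : Finset ℕ) (f g : ℕ → ℕ)
    (hP : Placed w13 c13 (Finset.range 23) (Finset.range 13) S f g) : S.card ≤ 10 := by
  have h := lev13_2 S f g (by rw [← Nat.Ico_zero_eq_range, ← Nat.Ico_zero_eq_range] at hP; exact hP)
  omega

end Vale.Agent.Lib.Helper2.PiB
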