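import Vale.Agent.Lib.Helper2.P302.PiB

/-!
The pairs in bins instance with 18 bins and 31 items, and the proof that at most 14 of its
bins can receive pairs at the same time.  The instance is built in 3 levels around a base
instance with 3 bins and 7 items; the bound follows by 3 applications of the level step.
-/

namespace Vale.Agent.Lib.Helper2.PiB

/-- The 18 capacities in increasing order. -/
def caps18 : List ℕ := [
  563, 705, 738, 748, 751, 756, 777, 814, 826, 831,
  847, 1098, 1110, 1115, 1131, 2234, 2246, 2251]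

/-- The 31 item weights in increasing order. -/
def items18 : List ℕ := [
  0, 284, 356, 372, 374, 375, 376, 378, 379, 379,
  406, 407, 408, 413, 414, 420, 421, 548, 549, 550,
  555, 556, 562, 563, 1116, 1117, 1118, 1123, 1124, 1130,
  1131]

/-- The weight of item `i`. -/
def w18 (i : ℕ) : ℕ := items18.getD i 0

/-- The capacity of bin `b`. -/
def c18 (b : ℕ) : ℕ := caps18.getD b 0

theorem lev18_0 (S : Finset ℕ) (f g : ℕ → ℕ)
    (hP : Placed w18 c18 (Finset.Ico 3 10) (Finset.Ico 3 6) S f g) : S.card + 1 ≤ 3 :=
  base_step w18 c18 (Finset.Ico 3 10) (Finset.Ico 3 6) 3 4 5 (by decide) (by decide)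
    (by decide) (by decide) (by decide +kernel) S f g hP

theorem lev18_1 (S : Finset ℕ) (f g : ℕ → ℕ)
    (hP : Placed w18 c18 (Finset.Ico 2 17) (Finset.Ico 2 10) S f g) : S.card + 1 ≤ 7 :=
  level_step w18 c18 (Finset.Ico 3 10) (Finset.Ico 3 6) (Finset.Ico 10 17)
    (Finset.Ico 2 17) (Finset.Ico 2 10) 2 2 6 7 8 9 3
    (by decide +kernel) (by decide +kernel) (by decide +kernel) (by decide +kernel) (by decide)
    (by decide) (by decide) (by decide)
    (by decide +kernel) (by decide +kernel) (by decide +kernel) (by decide +kernel)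
    lev18_0 S f g hP

theorem lev18_2 (S : Finset ℕ) (f g : ℕ → ℕ)
    (hP : Placed w18 c18 (Finset.Ico 1 24) (Finset.Ico 1 14) S f g) : S.card + 1 ≤ 11 :=
  level_step w18 c18 (Finset.Ico 2 17) (Finset.Ico 2 10) (Finset.Ico 17 24)
    (Finset.Ico 1 24) (Finset.Ico 1 14) 1 1 10 11 12 13 7
    (by decide +kernel) (by decide +kernel) (by decide +kernel) (by decide +kernel) (by decide)
    (by decide) (by decide) (by decide)
    (by decide +kernel) (by decide +kernel) (by decide +kernel) (by decide +kernel)
    lev18_1 S f g hP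

theorem lev18_3 (S : Finset ℕ) (f g : ℕ → ℕ)
    (hP : Placed w18 c18 (Finset.Ico 0 31) (Finset.Ico 0 18) S f g) : S.card + 1 ≤ 15 :=
  level_step w18 c18 (Finset.Ico 1 24) (Finset.Ico 1 14) (Finset.Ico 24 31)
    (Finset.Ico 0 31) (Finset.Ico 0 18) 0 0 14 15 16 17 11
    (by decide +kernel) (by decide +kernel) (by decide +kernel) (by decide +kernel) (by decide)
    (by decide) (by decide) (by decide)
    (by decide +kernel) (by decide +kernel) (by decide +kernel) (by decide +kernel)
    lev18_2 S f g hP

/-- At most 14 of the 18 bins can receive pairs of the 31 items at the same time. -/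
theorem pairs18_le (S : Finset ℕ) (f g : ℕ → ℕ)
    (hP : Placed w18 c18 (Finset.range 31) (Finset.range 18) S f g) : S.card ≤ 14 := by
  have h := lev18_3 S f g (by rw [← Nat.Ico_zero_eq_range, ← Nat.Ico_zero_eq_range] at hP; exact hP)
  omega

end Vale.Agent.Lib.Helper2.PiB
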