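import Vale.Agent.Lib.Helper2.P302.PiB

/-!
The pairs in bins instance with 23 bins and 39 items, and the proof that at most 18 of its
bins can receive pairs at the same time.  The instance is built in 4 levels around a base
instance with 3 bins and 7 items; the bound follows by 4 applications of the level step.
-/

namespace Vale.Agent.Lib.Helper2.PiB

/-- The 23 capacities in increasing order. -/
def caps23 : List ℕ := [
  2267, 2835, 2977, 3010, 3020, 3023, 3028, 3049, 3086, 3098,
  3103, 3119, 3370, 3382, 3387, 3403, 4506, 4518, 4523, 4539,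
  9050, 9062, 9067]

/-- The 39 item weights in increasing order. -/
def items23 : List ℕ := [
  0, 1136, 1420, 1492, 1508, 1510, 1511, 1512, 1514, 1515,
  1515, 1542, 1543, 1544, 1549, 1550, 1556, 1557, 1684, 1685,
  1686, 1691, 1692, 1698, 1699, 2252, 2253, 2254, 2259, 2260,
  2266, 2267, 4524, 4525, 4526, 4531, 4532, 4538, 4539]

/-- The weight of item `i`. -/
def w23 (i : ℕ) : ℕ := items23.getD i 0

/-- The capacity of bin `b`. -/
def c23 (b : ℕ) : ℕ := caps23.getD b 0

theorem lev23_0 (S : Finset ℕ) (f g : ℕ → ℕ)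
    (hP : Placed w23 c23 (Finset.Ico 4 11) (Finset.Ico 4 7) S f g) : S.card + 1 ≤ 3 :=
  base_step w23 c23 (Finset.Ico 4 11) (Finset.Ico 4 7) 4 5 6 (by decide) (by decide)
    (by decide) (by decide) (by decide +kernel) S f g hP

theorem lev23_1 (S : Finset ℕ) (f g : ℕ → ℕ)
    (hP : Placed w23 c23 (Finset.Ico 3 18) (Finset.Ico 3 11) S f g) : S.card + 1 ≤ 7 :=
  level_step w23 c23 (Finset.Ico 4 11) (Finset.Ico 4 7) (Finset.Ico 11 18)
    (Finset.Ico 3 18) (Finset.Ico 3 11) 3 3 7 8 9 10 3
    (by decide +kernel) (by decide +kernel) (by decide +kernel) (by decide +kernel) (by decide)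
    (by decide) (by decide) (by decide)
    (by decide +kernel) (by decide +kernel) (by decide +kernel) (by decide +kernel)
    lev23_0 S f g hP

theorem lev23_2 (S : Finset ℕ) (f g : ℕ → ℕ)
    (hP : Placed w23 c23 (Finset.Ico 2 25) (Finset.Ico 2 15) S f g) : S.card + 1 ≤ 11 :=
  level_step w23 c23 (Finset.Ico 3 18) (Finset.Ico 3 11) (Finset.Ico 18 25)
    (Finset.Ico 2 25) (Finset.Ico 2 15) 2 2 11 12 13 14 7
    (by decide +kernel) (by decide +kernel) (by decide +kernel) (by decide +kernel) (by decide)
    (by decide) (by decide) (by decide)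
    (by decide +kernel) (by decide +kernel) (by decide +kernel) (by decide +kernel)
    lev23_1 S f g hP

theorem lev23_3 (S : Finset ℕ) (f g : ℕ → ℕ)
    (hP : Placed w23 c23 (Finset.Ico 1 32) (Finset.Ico 1 19) S f g) : S.card + 1 ≤ 15 :=
  level_step w23 c23 (Finset.Ico 2 25) (Finset.Ico 2 15) (Finset.Ico 25 32)
    (Finset.Ico 1 32) (Finset.Ico 1 19) 1 1 15 16 17 18 11
    (by decide +kernel) (by decide +kernel) (by decide +kernel) (by decide +kernel) (by decide)
    (by decide) (by decide) (by decide)
    (by decide +kernel) (by decide +kernel) (by decide +kernel) (by decide +kernel)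
    lev23_2 S f g hP

theorem lev23_4 (S : Finset ℕ) (f g : ℕ → ℕ)
    (hP : Placed w23 c23 (Finset.Ico 0 39) (Finset.Ico 0 23) S f g) : S.card + 1 ≤ 19 :=
  level_step w23 c23 (Finset.Ico 1 32) (Finset.Ico 1 19) (Finset.Ico 32 39)
    (Finset.Ico 0 39) (Finset.Ico 0 23) 0 0 19 20 21 22 15
    (by decide +kernel) (by decide +kernel) (by decide +kernel) (by decide +kernel) (by decide)
    (by decide) (by decide) (by decide)
    (by decide +kernel) (by decide +kernel) (by decide +kernel) (by decide +kernel)
    lev23_3 S f g hP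

/-- At most 18 of the 23 bins can receive pairs of the 39 items at the same time. -/
theorem pairs23_le (S : Finset ℕ) (f g : ℕ → ℕ)
    (hP : Placed w23 c23 (Finset.range 39) (Finset.range 23) S f g) : S.card ≤ 18 := by
  have h := lev23_4 S f g (by rw [← Nat.Ico_zero_eq_range, ← Nat.Ico_zero_eq_range] at hP; exact hP)
  omega

end Vale.Agent.Lib.Helper2.PiB
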