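import Vale.Agent.Lib.Helper2.P302.PiB

/-!
The pairs in bins instance with 28 bins and 47 items, and the proof that at most 22 of its
bins can receive pairs at the same time.  The instance is built in 5 levels around a base
instance with 3 bins and 7 items; the bound follows by 5 applications of the level step.
-/

namespace Vale.Agent.Lib.Helper2.PiB

/-- The 28 capacities in increasing order. -/
def caps28 : List ℕ := [
  9083, 11355, 11923, 12065, 12098, 12108, 12111, 12116, 12137, 12174,
  12186, 12191, 12207, 12458, 12470, 12475, 12491, 13594, 13606, 13611,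
  13627, 18138, 18150, 18155, 18171, 36314, 36326, 36331]

/-- The 47 item weights in increasing order. -/
def items28 : List ℕ := [
  0, 4544, 5680, 5964, 6036, 6052, 6054, 6055, 6056, 6058,
  6059, 6059, 6086, 6087, 6088, 6093, 6094, 6100, 6101, 6228,
  6229, 6230, 6235, 6236, 6242, 6243, 6796, 6797, 6798, 6803,
  6804, 6810, 6811, 9068, 9069, 9070, 9075, 9076, 9082, 9083,
  18156, 18157, 18158, 18163, 18164, 18170, 18171]

/-- The weight of item `i`. -/
def w28 (i : ℕ) : ℕ := items28.getD i 0

/-- The capacity of bin `b`. -/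
def c28 (b : ℕ) : ℕ := caps28.getD b 0

theorem lev28_0 (S : Finset ℕ) (f g : ℕ → ℕ)
    (hP : Placed w28 c28 (Finset.Ico 5 12) (Finset.Ico 5 8) S f g) : S.card + 1 ≤ 3 :=
  base_step w28 c28 (Finset.Ico 5 12) (Finset.Ico 5 8) 5 6 7 (by decide) (by decide)
    (by decide) (by decide) (by decide +kernel) S f g hP

theorem lev28_1 (S : Finset ℕ) (f g : ℕ → ℕ)
    (hP : Placed w28 c28 (Finset.Ico 4 19) (Finset.Ico 4 12) S f g) : S.card + 1 ≤ 7 :=
  level_step w28 c28 (Finset.Ico 5 12) (Finset.Ico 5 8) (Finset.Ico 12 19)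
    (Finset.Ico 4 19) (Finset.Ico 4 12) 4 4 8 9 10 11 3
    (by decide +kernel) (by decide +kernel) (by decide +kernel) (by decide +kernel) (by decide)
    (by decide) (by decide) (by decide)
    (by decide +kernel) (by decide +kernel) (by decide +kernel) (by decide +kernel)
    lev28_0 S f g hP

theorem lev28_2 (S : Finset ℕ) (f g : ℕ → ℕ)
    (hP : Placed w28 c28 (Finset.Ico 3 26) (Finset.Ico 3 16) S f g) : S.card + 1 ≤ 11 :=
  level_step w28 c28 (Finset.Ico 4 19) (Finset.Ico 4 12) (Finset.Ico 19 26)
    (Finset.Ico 3 26) (Finset.Ico 3 16) 3 3 12 13 14 15 7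
    (by decide +kernel) (by decide +kernel) (by decide +kernel) (by decide +kernel) (by decide)
    (by decide) (by decide) (by decide)
    (by decide +kernel) (by decide +kernel) (by decide +kernel) (by decide +kernel)
    lev28_1 S f g hP

theorem lev28_3 (S : Finset ℕ) (f g : ℕ → ℕ)
    (hP : Placed w28 c28 (Finset.Ico 2 33) (Finset.Ico 2 20) S f g) : S.card + 1 ≤ 15 :=
  level_step w28 c28 (Finset.Ico 3 26) (Finset.Ico 3 16) (Finset.Ico 26 33)
    (Finset.Ico 2 33) (Finset.Ico 2 20) 2 2 16 17 18 19 11
    (by decide +kernel) (by decide +kernel) (by decide +kernel) (by decide +kernel) (by decide)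
    (by decide) (by decide) (by decide)
    (by decide +kernel) (by decide +kernel) (by decide +kernel) (by decide +kernel)
    lev28_2 S f g hP

theorem lev28_4 (S : Finset ℕ) (f g : ℕ → ℕ)
    (hP : Placed w28 c28 (Finset.Ico 1 40) (Finset.Ico 1 24) S f g) : S.card + 1 ≤ 19 :=
  level_step w28 c28 (Finset.Ico 2 33) (Finset.Ico 2 20) (Finset.Ico 33 40)
    (Finset.Ico 1 40) (Finset.Ico 1 24) 1 1 20 21 22 23 15
    (by decide +kernel) (by decide +kernel) (by decide +kernel) (by decide +kernel) (by decide)
    (by decide) (by decide) (by decide)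
    (by decide +kernel) (by decide +kernel) (by decide +kernel) (by decide +kernel)
    lev28_3 S f g hP

theorem lev28_5 (S : Finset ℕ) (f g : ℕ → ℕ)
    (hP : Placed w28 c28 (Finset.Ico 0 47) (Finset.Ico 0 28) S f g) : S.card + 1 ≤ 23 :=
  level_step w28 c28 (Finset.Ico 1 40) (Finset.Ico 1 24) (Finset.Ico 40 47)
    (Finset.Ico 0 47) (Finset.Ico 0 28) 0 0 24 25 26 27 19
    (by decide +kernel) (by decide +kernel) (by decide +kernel) (by decide +kernel) (by decide)
    (by decide) (by decide) (by decide)
    (by decide +kernel) (by decide +kernel) (by decide +kernel) (by decide +kernel)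
    lev28_4 S f g hP

/-- At most 22 of the 28 bins can receive pairs of the 47 items at the same time. -/
theorem pairs28_le (S : Finset ℕ) (f g : ℕ → ℕ)
    (hP : Placed w28 c28 (Finset.range 47) (Finset.range 28) S f g) : S.card ≤ 22 := by
  have h := lev28_5 S f g (by rw [← Nat.Ico_zero_eq_range, ← Nat.Ico_zero_eq_range] at hP; exact hP)
  omega

end Vale.Agent.Lib.Helper2.PiB
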