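import Vale.Agent.Lib.Helper2.P302.PiB

/-!
The pairs in bins instance with 33 bins and 55 items, and the proof that at most 26 of its
bins can receive pairs at the same time.  The instance is built in 6 levels around a base
instance with 3 bins and 7 items; the bound follows by 6 applications of the level step.
-/

namespace Vale.Agent.Lib.Helper2.PiB

/-- The 33 capacities in increasing order. -/
def caps33 : List ℕ := [
  36347, 45435, 47707, 48275, 48417, 48450, 48460, 48463, 48468, 48489,
  48526, 48538, 48543, 48559, 48810, 48822, 48827, 48843, 49946, 49958,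
  49963, 49979, 54490, 54502, 54507, 54523, 72666, 72678, 72683, 72699,
  145370, 145382, 145387]

/-- The 55 item weights in increasing order. -/
def items33 : List ℕ := [
  0, 18176, 22720, 23856, 24140, 24212, 24228, 24230, 24231, 24232,
  24234, 24235, 24235, 24262, 24263, 24264, 24269, 24270, 24276, 24277,
  24404, 24405, 24406, 24411, 24412, 24418, 24419, 24972, 24973, 24974,
  24979, 24980, 24986, 24987, 27244, 27245, 27246, 27251, 27252, 27258,
  27259, 36332, 36333, 36334, 36339, 36340, 36346, 36347, 72684, 72685,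
  72686, 72691, 72692, 72698, 72699]

/-- The weight of item `i`. -/
def w33 (i : ℕ) : ℕ := items33.getD i 0

/-- The capacity of bin `b`. -/
def c33 (b : ℕ) : ℕ := caps33.getD b 0

theorem lev33_0 (S : Finset ℕ) (f g : ℕ → ℕ)
    (hP : Placed w33 c33 (Finset.Ico 6 13) (Finset.Ico 6 9) S f g) : S.card + 1 ≤ 3 :=
  base_step w33 c33 (Finset.Ico 6 13) (Finset.Ico 6 9) 6 7 8 (by decide) (by decide)
    (by decide) (by decide) (by decide +kernel) S f g hP

theorem lev33_1 (S : Finset ℕ) (f g : ℕ → ℕ)
    (hP : Placed w33 c33 (Finset.Ico 5 20) (Finset.Ico 5 13) S f g) : S.card + 1 ≤ 7 :=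
  level_step w33 c33 (Finset.Ico 6 13) (Finset.Ico 6 9) (Finset.Ico 13 20)
    (Finset.Ico 5 20) (Finset.Ico 5 13) 5 5 9 10 11 12 3
    (by decide +kernel) (by decide +kernel) (by decide +kernel) (by decide +kernel) (by decide)
    (by decide) (by decide) (by decide)
    (by decide +kernel) (by decide +kernel) (by decide +kernel) (by decide +kernel)
    lev33_0 S f g hP

theorem lev33_2 (S : Finset ℕ) (f g : ℕ → ℕ)
    (hP : Placed w33 c33 (Finset.Ico 4 27) (Finset.Ico 4 17) S f g) : S.card + 1 ≤ 11 :=
  level_step w33 c33 (Finset.Ico 5 20) (Finset.Ico 5 13) (Finset.Ico 20 27)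
    (Finset.Ico 4 27) (Finset.Ico 4 17) 4 4 13 14 15 16 7
    (by decide +kernel) (by decide +kernel) (by decide +kernel) (by decide +kernel) (by decide)
    (by decide) (by decide) (by decide)
    (by decide +kernel) (by decide +kernel) (by decide +kernel) (by decide +kernel)
    lev33_1 S f g hP

theorem lev33_3 (S : Finset ℕ) (f g : ℕ → ℕ)
    (hP : Placed w33 c33 (Finset.Ico 3 34) (Finset.Ico 3 21) S f g) : S.card + 1 ≤ 15 :=
  level_step w33 c33 (Finset.Ico 4 27) (Finset.Ico 4 17) (Finset.Ico 27 34)
    (Finset.Ico 3 34) (Finset.Ico 3 21) 3 3 17 18 19 20 11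
    (by decide +kernel) (by decide +kernel) (by decide +kernel) (by decide +kernel) (by decide)
    (by decide) (by decide) (by decide)
    (by decide +kernel) (by decide +kernel) (by decide +kernel) (by decide +kernel)
    lev33_2 S f g hP

theorem lev33_4 (S : Finset ℕ) (f g : ℕ → ℕ)
    (hP : Placed w33 c33 (Finset.Ico 2 41) (Finset.Ico 2 25) S f g) : S.card + 1 ≤ 19 :=
  level_step w33 c33 (Finset.Ico 3 34) (Finset.Ico 3 21) (Finset.Ico 34 41)
    (Finset.Ico 2 41) (Finset.Ico 2 25) 2 2 21 22 23 24 15
    (by decide +kernel) (by decide +kernel) (by decide +kernel) (by decide +kernel) (by decide)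
    (by decide) (by decide) (by decide)
    (by decide +kernel) (by decide +kernel) (by decide +kernel) (by decide +kernel)
    lev33_3 S f g hP

theorem lev33_5 (S : Finset ℕ) (f g : ℕ → ℕ)
    (hP : Placed w33 c33 (Finset.Ico 1 48) (Finset.Ico 1 29) S f g) : S.card + 1 ≤ 23 :=
  level_step w33 c33 (Finset.Ico 2 41) (Finset.Ico 2 25) (Finset.Ico 41 48)
    (Finset.Ico 1 48) (Finset.Ico 1 29) 1 1 25 26 27 28 19
    (by decide +kernel) (by decide +kernel) (by decide +kernel) (by decide +kernel) (by decide)
    (by decide) (by decide) (by decide)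
    (by decide +kernel) (by decide +kernel) (by decide +kernel) (by decide +kernel)
    lev33_4 S f g hP

theorem lev33_6 (S : Finset ℕ) (f g : ℕ → ℕ)
    (hP : Placed w33 c33 (Finset.Ico 0 55) (Finset.Ico 0 33) S f g) : S.card + 1 ≤ 27 :=
  level_step w33 c33 (Finset.Ico 1 48) (Finset.Ico 1 29) (Finset.Ico 48 55)
    (Finset.Ico 0 55) (Finset.Ico 0 33) 0 0 29 30 31 32 23
    (by decide +kernel) (by decide +kernel) (by decide +kernel) (by decide +kernel) (by decide)
    (by decide) (by decide) (by decide)
    (by decide +kernel) (by decide +kernel) (by decide +kernel) (by decide +kernel)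
    lev33_5 S f g hP

/-- At most 26 of the 33 bins can receive pairs of the 55 items at the same time. -/
theorem pairs33_le (S : Finset ℕ) (f g : ℕ → ℕ)
    (hP : Placed w33 c33 (Finset.range 55) (Finset.range 33) S f g) : S.card ≤ 26 := by
  have h := lev33_6 S f g (by rw [← Nat.Ico_zero_eq_range, ← Nat.Ico_zero_eq_range] at hP; exact hP)
  omega

end Vale.Agent.Lib.Helper2.PiB
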