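import Vale.Agent.Lib.Helper2.P302.PiB

/-!
The pairs in bins instance with 38 bins and 63 items, and the proof that at most 30 of its
bins can receive pairs at the same time.  The instance is built in 7 levels around a base
instance with 3 bins and 7 items; the bound follows by 7 applications of the level step.
-/

namespace Vale.Agent.Lib.Helper2.PiB

/-- The 38 capacities in increasing order. -/
def caps38 : List ℕ := [
  145403, 181755, 190843, 193115, 193683, 193825, 193858, 193868, 193871, 193876,
  193897, 193934, 193946, 193951, 193967, 194218, 194230, 194235, 194251, 195354,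
  195366, 195371, 195387, 199898, 199910, 199915, 199931, 218074, 218086, 218091,
  218107, 290778, 290790, 290795, 290811, 581594, 581606, 581611]

/-- The 63 item weights in increasing order. -/
def items38 : List ℕ := [
  0, 72704, 90880, 95424, 96560, 96844, 96916, 96932, 96934, 96935,
  96936, 96938, 96939, 96939, 96966, 96967, 96968, 96973, 96974, 96980,
  96981, 97108, 97109, 97110, 97115, 97116, 97122, 97123, 97676, 97677,
  97678, 97683, 97684, 97690, 97691, 99948, 99949, 99950, 99955, 99956,
  99962, 99963, 109036, 109037, 109038, 109043, 109044, 109050, 109051, 145388,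
  145389, 145390, 145395, 145396, 145402, 145403, 290796, 290797, 290798, 290803,
  290804, 290810, 290811]

/-- The weight of item `i`. -/
def w38 (i : ℕ) : ℕ := items38.getD i 0

/-- The capacity of bin `b`. -/
def c38 (b : ℕ) : ℕ := caps38.getD b 0

theorem lev38_0 (S : Finset ℕ) (f g : ℕ → ℕ)
    (hP : Placed w38 c38 (Finset.Ico 7 14) (Finset.Ico 7 10) S f g) : S.card + 1 ≤ 3 :=
  base_step w38 c38 (Finset.Ico 7 14) (Finset.Ico 7 10) 7 8 9 (by decide) (by decide)
    (by decide) (by decide) (by decide +kernel) S f g hP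

theorem lev38_1 (S : Finset ℕ) (f g : ℕ → ℕ)
    (hP : Placed w38 c38 (Finset.Ico 6 21) (Finset.Ico 6 14) S f g) : S.card + 1 ≤ 7 :=
  level_step w38 c38 (Finset.Ico 7 14) (Finset.Ico 7 10) (Finset.Ico 14 21)
    (Finset.Ico 6 21) (Finset.Ico 6 14) 6 6 10 11 12 13 3
    (by decide +kernel) (by decide +kernel) (by decide +kernel) (by decide +kernel) (by decide)
    (by decide) (by decide) (by decide)
    (by decide +kernel) (by decide +kernel) (by decide +kernel) (by decide +kernel)
    lev38_0 S f g hP

theorem lev38_2 (S : Finset ℕ) (f g : ℕ → ℕ)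
    (hP : Placed w38 c38 (Finset.Ico 5 28) (Finset.Ico 5 18) S f g) : S.card + 1 ≤ 11 :=
  level_step w38 c38 (Finset.Ico 6 21) (Finset.Ico 6 14) (Finset.Ico 21 28)
    (Finset.Ico 5 28) (Finset.Ico 5 18) 5 5 14 15 16 17 7
    (by decide +kernel) (by decide +kernel) (by decide +kernel) (by decide +kernel) (by decide)
    (by decide) (by decide) (by decide)
    (by decide +kernel) (by decide +kernel) (by decide +kernel) (by decide +kernel)
    lev38_1 S f g hP

theorem lev38_3 (S : Finset ℕ) (f g : ℕ → ℕ)
    (hP : Placed w38 c38 (Finset.Ico 4 35) (Finset.Ico 4 22) S f g) : S.card + 1 ≤ 15 :=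
  level_step w38 c38 (Finset.Ico 5 28) (Finset.Ico 5 18) (Finset.Ico 28 35)
    (Finset.Ico 4 35) (Finset.Ico 4 22) 4 4 18 19 20 21 11
    (by decide +kernel) (by decide +kernel) (by decide +kernel) (by decide +kernel) (by decide)
    (by decide) (by decide) (by decide)
    (by decide +kernel) (by decide +kernel) (by decide +kernel) (by decide +kernel)
    lev38_2 S f g hP

theorem lev38_4 (S : Finset ℕ) (f g : ℕ → ℕ)
    (hP : Placed w38 c38 (Finset.Ico 3 42) (Finset.Ico 3 26) S f g) : S.card + 1 ≤ 19 :=
  level_step w38 c38 (Finset.Ico 4 35) (Finset.Ico 4 22) (Finset.Ico 35 42)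
    (Finset.Ico 3 42) (Finset.Ico 3 26) 3 3 22 23 24 25 15
    (by decide +kernel) (by decide +kernel) (by decide +kernel) (by decide +kernel) (by decide)
    (by decide) (by decide) (by decide)
    (by decide +kernel) (by decide +kernel) (by decide +kernel) (by decide +kernel)
    lev38_3 S f g hP

theorem lev38_5 (S : Finset ℕ) (f g : ℕ → ℕ)
    (hP : Placed w38 c38 (Finset.Ico 2 49) (Finset.Ico 2 30) S f g) : S.card + 1 ≤ 23 :=
  level_step w38 c38 (Finset.Ico 3 42) (Finset.Ico 3 26) (Finset.Ico 42 49)
    (Finset.Ico 2 49) (Finset.Ico 2 30) 2 2 26 27 28 29 19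
    (by decide +kernel) (by decide +kernel) (by decide +kernel) (by decide +kernel) (by decide)
    (by decide) (by decide) (by decide)
    (by decide +kernel) (by decide +kernel) (by decide +kernel) (by decide +kernel)
    lev38_4 S f g hP

theorem lev38_6 (S : Finset ℕ) (f g : ℕ → ℕ)
    (hP : Placed w38 c38 (Finset.Ico 1 56) (Finset.Ico 1 34) S f g) : S.card + 1 ≤ 27 :=
  level_step w38 c38 (Finset.Ico 2 49) (Finset.Ico 2 30) (Finset.Ico 49 56)
    (Finset.Ico 1 56) (Finset.Ico 1 34) 1 1 30 31 32 33 23
    (by decide +kernel) (by decide +kernel) (by decide +kernel) (by decide +kernel) (by decide)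
    (by decide) (by decide) (by decide)
    (by decide +kernel) (by decide +kernel) (by decide +kernel) (by decide +kernel)
    lev38_5 S f g hP

theorem lev38_7 (S : Finset ℕ) (f g : ℕ → ℕ)
    (hP : Placed w38 c38 (Finset.Ico 0 63) (Finset.Ico 0 38) S f g) : S.card + 1 ≤ 31 :=
  level_step w38 c38 (Finset.Ico 1 56) (Finset.Ico 1 34) (Finset.Ico 56 63)
    (Finset.Ico 0 63) (Finset.Ico 0 38) 0 0 34 35 36 37 27
    (by decide +kernel) (by decide +kernel) (by decide +kernel) (by decide +kernel) (by decide)
    (by decide) (by decide) (by decide)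
    (by decide +kernel) (by decide +kernel) (by decide +kernel) (by decide +kernel)
    lev38_6 S f g hP

/-- At most 30 of the 38 bins can receive pairs of the 63 items at the same time. -/
theorem pairs38_le (S : Finset ℕ) (f g : ℕ → ℕ)
    (hP : Placed w38 c38 (Finset.range 63) (Finset.range 38) S f g) : S.card ≤ 30 := by
  have h := lev38_7 S f g (by rw [← Nat.Ico_zero_eq_range, ← Nat.Ico_zero_eq_range] at hP; exact hP)
  omega

end Vale.Agent.Lib.Helper2.PiB
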