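import Vale.Agent.Lib.Helper2.P302.PiB

/-!
The pairs in bins instance with 43 bins and 71 items, and the proof that at most 34 of its
bins can receive pairs at the same time.  The instance is built in 8 levels around a base
instance with 3 bins and 7 items; the bound follows by 8 applications of the level step.
-/

namespace Vale.Agent.Lib.Helper2.PiB

/-- The 43 capacities in increasing order. -/
def caps43 : List ℕ := [
  581627, 727035, 763387, 772475, 774747, 775315, 775457, 775490, 775500, 775503,
  775508, 775529, 775566, 775578, 775583, 775599, 775850, 775862, 775867, 775883,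
  776986, 776998, 777003, 777019, 781530, 781542, 781547, 781563, 799706, 799718,
  799723, 799739, 872410, 872422, 872427, 872443, 1163226, 1163238, 1163243, 1163259,
  2326490, 2326502, 2326507]

/-- The 71 item weights in increasing order. -/
def items43 : List ℕ := [
  0, 290816, 363520, 381696, 386240, 387376, 387660, 387732, 387748, 387750,
  387751, 387752, 387754, 387755, 387755, 387782, 387783, 387784, 387789, 387790,
  387796, 387797, 387924, 387925, 387926, 387931, 387932, 387938, 387939, 388492,
  388493, 388494, 388499, 388500, 388506, 388507, 390764, 390765, 390766, 390771,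
  390772, 390778, 390779, 399852, 399853, 399854, 399859, 399860, 399866, 399867,
  436204, 436205, 436206, 436211, 436212, 436218, 436219, 581612, 581613, 581614,
  581619, 581620, 581626, 581627, 1163244, 1163245, 1163246, 1163251, 1163252, 1163258,
  1163259]

/-- The weight of item `i`. -/
def w43 (i : ℕ) : ℕ := items43.getD i 0

/-- The capacity of bin `b`. -/
def c43 (b : ℕ) : ℕ := caps43.getD b 0

theorem lev43_0 (S : Finset ℕ) (f g : ℕ → ℕ)
    (hP : Placed w43 c43 (Finset.Ico 8 15) (Finset.Ico 8 11) S f g) : S.card + 1 ≤ 3 :=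
  base_step w43 c43 (Finset.Ico 8 15) (Finset.Ico 8 11) 8 9 10 (by decide) (by decide)
    (by decide) (by decide) (by decide +kernel) S f g hP

theorem lev43_1 (S : Finset ℕ) (f g : ℕ → ℕ)
    (hP : Placed w43 c43 (Finset.Ico 7 22) (Finset.Ico 7 15) S f g) : S.card + 1 ≤ 7 :=
  level_step w43 c43 (Finset.Ico 8 15) (Finset.Ico 8 11) (Finset.Ico 15 22)
    (Finset.Ico 7 22) (Finset.Ico 7 15) 7 7 11 12 13 14 3
    (by decide +kernel) (by decide +kernel) (by decide +kernel) (by decide +kernel) (by decide)
    (by decide) (by decide) (by decide)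
    (by decide +kernel) (by decide +kernel) (by decide +kernel) (by decide +kernel)
    lev43_0 S f g hP

theorem lev43_2 (S : Finset ℕ) (f g : ℕ → ℕ)
    (hP : Placed w43 c43 (Finset.Ico 6 29) (Finset.Ico 6 19) S f g) : S.card + 1 ≤ 11 :=
  level_step w43 c43 (Finset.Ico 7 22) (Finset.Ico 7 15) (Finset.Ico 22 29)
    (Finset.Ico 6 29) (Finset.Ico 6 19) 6 6 15 16 17 18 7
    (by decide +kernel) (by decide +kernel) (by decide +kernel) (by decide +kernel) (by decide)
    (by decide) (by decide) (by decide)
    (by decide +kernel) (by decide +kernel) (by decide +kernel) (by decide +kernel)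
    lev43_1 S f g hP

theorem lev43_3 (S : Finset ℕ) (f g : ℕ → ℕ)
    (hP : Placed w43 c43 (Finset.Ico 5 36) (Finset.Ico 5 23) S f g) : S.card + 1 ≤ 15 :=
  level_step w43 c43 (Finset.Ico 6 29) (Finset.Ico 6 19) (Finset.Ico 29 36)
    (Finset.Ico 5 36) (Finset.Ico 5 23) 5 5 19 20 21 22 11
    (by decide +kernel) (by decide +kernel) (by decide +kernel) (by decide +kernel) (by decide)
    (by decide) (by decide) (by decide)
    (by decide +kernel) (by decide +kernel) (by decide +kernel) (by decide +kernel)
    lev43_2 S f g hP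

theorem lev43_4 (S : Finset ℕ) (f g : ℕ → ℕ)
    (hP : Placed w43 c43 (Finset.Ico 4 43) (Finset.Ico 4 27) S f g) : S.card + 1 ≤ 19 :=
  level_step w43 c43 (Finset.Ico 5 36) (Finset.Ico 5 23) (Finset.Ico 36 43)
    (Finset.Ico 4 43) (Finset.Ico 4 27) 4 4 23 24 25 26 15
    (by decide +kernel) (by decide +kernel) (by decide +kernel) (by decide +kernel) (by decide)
    (by decide) (by decide) (by decide)
    (by decide +kernel) (by decide +kernel) (by decide +kernel) (by decide +kernel)
    lev43_3 S f g hP

theorem lev43_5 (S : Finset ℕ) (f g : ℕ → ℕ)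
    (hP : Placed w43 c43 (Finset.Ico 3 50) (Finset.Ico 3 31) S f g) : S.card + 1 ≤ 23 :=
  level_step w43 c43 (Finset.Ico 4 43) (Finset.Ico 4 27) (Finset.Ico 43 50)
    (Finset.Ico 3 50) (Finset.Ico 3 31) 3 3 27 28 29 30 19
    (by decide +kernel) (by decide +kernel) (by decide +kernel) (by decide +kernel) (by decide)
    (by decide) (by decide) (by decide)
    (by decide +kernel) (by decide +kernel) (by decide +kernel) (by decide +kernel)
    lev43_4 S f g hP

theorem lev43_6 (S : Finset ℕ) (f g : ℕ → ℕ)
    (hP : Placed w43 c43 (Finset.Ico 2 57) (Finset.Ico 2 35) S f g) : S.card + 1 ≤ 27 :=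
  level_step w43 c43 (Finset.Ico 3 50) (Finset.Ico 3 31) (Finset.Ico 50 57)
    (Finset.Ico 2 57) (Finset.Ico 2 35) 2 2 31 32 33 34 23
    (by decide +kernel) (by decide +kernel) (by decide +kernel) (by decide +kernel) (by decide)
    (by decide) (by decide) (by decide)
    (by decide +kernel) (by decide +kernel) (by decide +kernel) (by decide +kernel)
    lev43_5 S f g hP

theorem lev43_7 (S : Finset ℕ) (f g : ℕ → ℕ)
    (hP : Placed w43 c43 (Finset.Ico 1 64) (Finset.Ico 1 39) S f g) : S.card + 1 ≤ 31 :=
  level_step w43 c43 (Finset.Ico 2 57) (Finset.Ico 2 35) (Finset.Ico 57 64)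
    (Finset.Ico 1 64) (Finset.Ico 1 39) 1 1 35 36 37 38 27
    (by decide +kernel) (by decide +kernel) (by decide +kernel) (by decide +kernel) (by decide)
    (by decide) (by decide) (by decide)
    (by decide +kernel) (by decide +kernel) (by decide +kernel) (by decide +kernel)
    lev43_6 S f g hP

theorem lev43_8 (S : Finset ℕ) (f g : ℕ → ℕ)
    (hP : Placed w43 c43 (Finset.Ico 0 71) (Finset.Ico 0 43) S f g) : S.card + 1 ≤ 35 :=
  level_step w43 c43 (Finset.Ico 1 64) (Finset.Ico 1 39) (Finset.Ico 64 71)
    (Finset.Ico 0 71) (Finset.Ico 0 43) 0 0 39 40 41 42 31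
    (by decide +kernel) (by decide +kernel) (by decide +kernel) (by decide +kernel) (by decide)
    (by decide) (by decide) (by decide)
    (by decide +kernel) (by decide +kernel) (by decide +kernel) (by decide +kernel)
    lev43_7 S f g hP

/-- At most 34 of the 43 bins can receive pairs of the 71 items at the same time. -/
theorem pairs43_le (S : Finset ℕ) (f g : ℕ → ℕ)
    (hP : Placed w43 c43 (Finset.range 71) (Finset.range 43) S f g) : S.card ≤ 34 := by
  have h := lev43_8 S f g (by rw [← Nat.Ico_zero_eq_range, ← Nat.Ico_zero_eq_range] at hP; exact hP)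
  omega

end Vale.Agent.Lib.Helper2.PiB
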