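import Vale.Agent.Lib.Helper2.P302.PiB

/-!
The pairs in bins instance with 48 bins and 79 items, and the proof that at most 38 of its
bins can receive pairs at the same time.  The instance is built in 9 levels around a base
instance with 3 bins and 7 items; the bound follows by 9 applications of the level step.
-/

namespace Vale.Agent.Lib.Helper2.PiB

/-- The 48 capacities in increasing order. -/
def caps48 : List ℕ := [
  2326523, 2908155, 3053563, 3089915, 3099003, 3101275, 3101843, 3101985, 3102018, 3102028,
  3102031, 3102036, 3102057, 3102094, 3102106, 3102111, 3102127, 3102378, 3102390, 3102395,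
  3102411, 3103514, 3103526, 3103531, 3103547, 3108058, 3108070, 3108075, 3108091, 3126234,
  3126246, 3126251, 3126267, 3198938, 3198950, 3198955, 3198971, 3489754, 3489766, 3489771,
  3489787, 4653018, 4653030, 4653035, 4653051, 9306074, 9306086, 9306091]

/-- The 79 item weights in increasing order. -/
def items48 : List ℕ := [
  0, 1163264, 1454080, 1526784, 1544960, 1549504, 1550640, 1550924, 1550996, 1551012,
  1551014, 1551015, 1551016, 1551018, 1551019, 1551019, 1551046, 1551047, 1551048, 1551053,
  1551054, 1551060, 1551061, 1551188, 1551189, 1551190, 1551195, 1551196, 1551202, 1551203,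
  1551756, 1551757, 1551758, 1551763, 1551764, 1551770, 1551771, 1554028, 1554029, 1554030,
  1554035, 1554036, 1554042, 1554043, 1563116, 1563117, 1563118, 1563123, 1563124, 1563130,
  1563131, 1599468, 1599469, 1599470, 1599475, 1599476, 1599482, 1599483, 1744876, 1744877,
  1744878, 1744883, 1744884, 1744890, 1744891, 2326508, 2326509, 2326510, 2326515, 2326516,
  2326522, 2326523, 4653036, 4653037, 4653038, 4653043, 4653044, 4653050, 4653051]

/-- The weight of item `i`. -/
def w48 (i : ℕ) : ℕ := items48.getD i 0

/-- The capacity of bin `b`. -/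
def c48 (b : ℕ) : ℕ := caps48.getD b 0

theorem lev48_0 (S : Finset ℕ) (f g : ℕ → ℕ)
    (hP : Placed w48 c48 (Finset.Ico 9 16) (Finset.Ico 9 12) S f g) : S.card + 1 ≤ 3 :=
  base_step w48 c48 (Finset.Ico 9 16) (Finset.Ico 9 12) 9 10 11 (by decide) (by decide)
    (by decide) (by decide) (by decide +kernel) S f g hP

theorem lev48_1 (S : Finset ℕ) (f g : ℕ → ℕ)
    (hP : Placed w48 c48 (Finset.Ico 8 23) (Finset.Ico 8 16) S f g) : S.card + 1 ≤ 7 :=
  level_step w48 c48 (Finset.Ico 9 16) (Finset.Ico 9 12) (Finset.Ico 16 23)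
    (Finset.Ico 8 23) (Finset.Ico 8 16) 8 8 12 13 14 15 3
    (by decide +kernel) (by decide +kernel) (by decide +kernel) (by decide +kernel) (by decide)
    (by decide) (by decide) (by decide)
    (by decide +kernel) (by decide +kernel) (by decide +kernel) (by decide +kernel)
    lev48_0 S f g hP

theorem lev48_2 (S : Finset ℕ) (f g : ℕ → ℕ)
    (hP : Placed w48 c48 (Finset.Ico 7 30) (Finset.Ico 7 20) S f g) : S.card + 1 ≤ 11 :=
  level_step w48 c48 (Finset.Ico 8 23) (Finset.Ico 8 16) (Finset.Ico 23 30)
    (Finset.Ico 7 30) (Finset.Ico 7 20) 7 7 16 17 18 19 7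
    (by decide +kernel) (by decide +kernel) (by decide +kernel) (by decide +kernel) (by decide)
    (by decide) (by decide) (by decide)
    (by decide +kernel) (by decide +kernel) (by decide +kernel) (by decide +kernel)
    lev48_1 S f g hP

theorem lev48_3 (S : Finset ℕ) (f g : ℕ → ℕ)
    (hP : Placed w48 c48 (Finset.Ico 6 37) (Finset.Ico 6 24) S f g) : S.card + 1 ≤ 15 :=
  level_step w48 c48 (Finset.Ico 7 30) (Finset.Ico 7 20) (Finset.Ico 30 37)
    (Finset.Ico 6 37) (Finset.Ico 6 24) 6 6 20 21 22 23 11
    (by decide +kernel) (by decide +kernel) (by decide +kernel) (by decide +kernel) (by decide)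
    (by decide) (by decide) (by decide)
    (by decide +kernel) (by decide +kernel) (by decide +kernel) (by decide +kernel)
    lev48_2 S f g hP

theorem lev48_4 (S : Finset ℕ) (f g : ℕ → ℕ)
    (hP : Placed w48 c48 (Finset.Ico 5 44) (Finset.Ico 5 28) S f g) : S.card + 1 ≤ 19 :=
  level_step w48 c48 (Finset.Ico 6 37) (Finset.Ico 6 24) (Finset.Ico 37 44)
    (Finset.Ico 5 44) (Finset.Ico 5 28) 5 5 24 25 26 27 15
    (by decide +kernel) (by decide +kernel) (by decide +kernel) (by decide +kernel) (by decide)
    (by decide) (by decide) (by decide)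
    (by decide +kernel) (by decide +kernel) (by decide +kernel) (by decide +kernel)
    lev48_3 S f g hP

theorem lev48_5 (S : Finset ℕ) (f g : ℕ → ℕ)
    (hP : Placed w48 c48 (Finset.Ico 4 51) (Finset.Ico 4 32) S f g) : S.card + 1 ≤ 23 :=
  level_step w48 c48 (Finset.Ico 5 44) (Finset.Ico 5 28) (Finset.Ico 44 51)
    (Finset.Ico 4 51) (Finset.Ico 4 32) 4 4 28 29 30 31 19
    (by decide +kernel) (by decide +kernel) (by decide +kernel) (by decide +kernel) (by decide)
    (by decide) (by decide) (by decide)
    (by decide +kernel) (by decide +kernel) (by decide +kernel) (by decide +kernel)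
    lev48_4 S f g hP

theorem lev48_6 (S : Finset ℕ) (f g : ℕ → ℕ)
    (hP : Placed w48 c48 (Finset.Ico 3 58) (Finset.Ico 3 36) S f g) : S.card + 1 ≤ 27 :=
  level_step w48 c48 (Finset.Ico 4 51) (Finset.Ico 4 32) (Finset.Ico 51 58)
    (Finset.Ico 3 58) (Finset.Ico 3 36) 3 3 32 33 34 35 23
    (by decide +kernel) (by decide +kernel) (by decide +kernel) (by decide +kernel) (by decide)
    (by decide) (by decide) (by decide)
    (by decide +kernel) (by decide +kernel) (by decide +kernel) (by decide +kernel)
    lev48_5 S f g hP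

theorem lev48_7 (S : Finset ℕ) (f g : ℕ → ℕ)
    (hP : Placed w48 c48 (Finset.Ico 2 65) (Finset.Ico 2 40) S f g) : S.card + 1 ≤ 31 :=
  level_step w48 c48 (Finset.Ico 3 58) (Finset.Ico 3 36) (Finset.Ico 58 65)
    (Finset.Ico 2 65) (Finset.Ico 2 40) 2 2 36 37 38 39 27
    (by decide +kernel) (by decide +kernel) (by decide +kernel) (by decide +kernel) (by decide)
    (by decide) (by decide) (by decide)
    (by decide +kernel) (by decide +kernel) (by decide +kernel) (by decide +kernel)
    lev48_6 S f g hP

theorem lev48_8 (S : Finset ℕ) (f g : ℕ → ℕ)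
    (hP : Placed w48 c48 (Finset.Ico 1 72) (Finset.Ico 1 44) S f g) : S.card + 1 ≤ 35 :=
  level_step w48 c48 (Finset.Ico 2 65) (Finset.Ico 2 40) (Finset.Ico 65 72)
    (Finset.Ico 1 72) (Finset.Ico 1 44) 1 1 40 41 42 43 31
    (by decide +kernel) (by decide +kernel) (by decide +kernel) (by decide +kernel) (by decide)
    (by decide) (by decide) (by decide)
    (by decide +kernel) (by decide +kernel) (by decide +kernel) (by decide +kernel)
    lev48_7 S f g hP

theorem lev48_9 (S : Finset ℕ) (f g : ℕ → ℕ)
    (hP : Placed w48 c48 (Finset.Ico 0 79) (Finset.Ico 0 48) S f g) : S.card + 1 ≤ 39 :=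
  level_step w48 c48 (Finset.Ico 1 72) (Finset.Ico 1 44) (Finset.Ico 72 79)
    (Finset.Ico 0 79) (Finset.Ico 0 48) 0 0 44 45 46 47 35
    (by decide +kernel) (by decide +kernel) (by decide +kernel) (by decide +kernel) (by decide)
    (by decide) (by decide) (by decide)
    (by decide +kernel) (by decide +kernel) (by decide +kernel) (by decide +kernel)
    lev48_8 S f g hP

/-- At most 38 of the 48 bins can receive pairs of the 79 items at the same time. -/
theorem pairs48_le (S : Finset ℕ) (f g : ℕ → ℕ)
    (hP : Placed w48 c48 (Finset.range 79) (Finset.range 48) S f g) : S.card ≤ 38 := by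
  have h := lev48_9 S f g (by rw [← Nat.Ico_zero_eq_range, ← Nat.Ico_zero_eq_range] at hP; exact hP)
  omega

end Vale.Agent.Lib.Helper2.PiB
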