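import Vale.Agent.Lib.Helper2.P302.PiB

/-!
Definitions for a family of instances built in levels.

A thirds instance is a charge function `d : ℕ → ℤ` on the indices below `n`; three different
items fit into one bin exactly when their charges sum to at most `0`.  `TB` bounds the number
of pairwise disjoint fitting triples, `FS` describes a fractional family of fitting triples
(an item may be repeated inside a triple) together with the unused fraction `ρ` of every item.

A gadget is a pairs in bins instance; a level built from a gadget adds, at scale `s`, one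
very negative item per bin, two negative items, one positive item per gadget item, and further
positive items of charge `5 s`; items of charge `s` are added before.
-/

namespace Vale.Agent.Lib.Helper2.Inf

open Finset

/-- Every family of pairwise disjoint triples of indices below `n` with charge sum at most `0`
has at most `ν` members. -/
def TB (d : ℕ → ℤ) (n ν : ℕ) : Prop :=
  ∀ P : Finset (Finset ℕ),
    (∀ T ∈ P, T.card = 3 ∧ T ⊆ Finset.range n ∧ ∑ i ∈ T, d i ≤ 0) →
    (∀ T ∈ P, ∀ T' ∈ P, T ≠ T' → Disjoint T T') → P.card ≤ ν

/-- The indicator of `a = i` as a real number. -/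
def ind (a i : ℕ) : ℝ := if a = i then 1 else 0

/-- A fractional family of triples `(x j, y j, z j)` with weights `wgt j ≥ 0`: all entries are
indices below `n`, the charges of every triple sum to at most `0`, every index `i < n` is used
with total weight `1 - ρ i` where `ρ i ≥ 0`, and the total weight is `v`. -/
def FS (d : ℕ → ℤ) (n : ℕ) (ρ : ℕ → ℝ) (v : ℝ) : Prop :=
  ∃ (J : Type) (_ : Fintype J) (x y z : J → ℕ) (wgt : J → ℝ),
    (∀ j, 0 ≤ wgt j) ∧
    (∀ j, x j < n ∧ y j < n ∧ z j < n ∧ d (x j) + d (y j) + d (z j) ≤ 0) ∧
    (∀ i, i < n → ∑ j, (ind (x j) i + ind (y j) i + ind (z j) i) * wgt j + ρ i = 1) ∧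
    (∀ i, 0 ≤ ρ i) ∧
    ∑ j, wgt j = v

/-- A pairs in bins instance: `m` bins with capacities `c b` (`b < m`) and `N` items with
weights `w i` (`i < N`). -/
structure Gadget where
  m : ℕ
  N : ℕ
  w : ℕ → ℕ
  c : ℕ → ℕ

/-- At most `t` bins of the gadget can receive pairs of items at the same time. -/
def Gadget.IntBound (G : Gadget) (t : ℕ) : Prop :=
  ∀ (S : Finset ℕ) (f g : ℕ → ℕ),
    Vale.Agent.Lib.Helper2.PiB.Placed G.w G.c (Finset.range G.N) (Finset.range G.m) S f g →
      S.card ≤ t

/-- A fractional family of pairs in bins `(bin j, i1 j, i2 j)` with weights `wgt j ≥ 0` (the two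
items of a pair may coincide): every pair fits into its bin, every bin is used with total weight
at most `1`, every item is used with total weight exactly `1`, except the item `jk` which is
used with total weight `1 - r`; the total weight is `tstar`. -/
def Gadget.FracPairs (G : Gadget) (tstar r : ℝ) (jk : ℕ) : Prop :=
  ∃ (J : Type) (_ : Fintype J) (bin i1 i2 : J → ℕ) (wgt : J → ℝ),
    (∀ j, 0 ≤ wgt j) ∧
    (∀ j, bin j < G.m ∧ i1 j < G.N ∧ i2 j < G.N ∧ G.w (i1 j) + G.w (i2 j) ≤ G.c (bin j)) ∧
    (∀ b, b < G.m → ∑ j, ind (bin j) b * wgt j ≤ 1) ∧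
    (∀ i, i < G.N → ∑ j, (ind (i1 j) i + ind (i2 j) i) * wgt j = 1 - (if i = jk then r else 0)) ∧
    ∑ j, wgt j = tstar

/-- Append items of charge `s`: every index from `n` on gets the charge `s`. -/
def addOnes (d : ℕ → ℤ) (n : ℕ) (s : ℤ) : ℕ → ℤ := fun i => if i < n then d i else s

/-- The charges after adding a level built from the gadget `G` at scale `s` to the instance
`(d, n)`.  The new indices are, in this order: `G.m` items of charge `-8 s - c b`, two items of
charge `-3 s`, `G.N` items of charge `4 s + w i`, and then items of charge `5 s`. -/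
def addLevel (d : ℕ → ℤ) (n : ℕ) (G : Gadget) (s : ℤ) : ℕ → ℤ := fun i =>
  if i < n then d i
  else if i < n + G.m then -8 * s - (G.c (i - n) : ℤ)
  else if i < n + G.m + 2 then -3 * s
  else if i < n + G.m + 2 + G.N then 4 * s + (G.w (i - (n + G.m + 2)) : ℤ)
  else 5 * s

/-- The next gadget: the old items are shifted by `s = H + 16` and the old capacities by `2 s`;
with `T = 4 (H + s)` the new items are `0`, `T - 15`, `T - 14`, `T - 13`, `T - 8`, `T - 7`,
`T - 1`, `T` and the new capacities are the shifted weight of the old item `jk`, `T`,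
`2 T - 28`, `2 T - 16`, `2 T - 11`. -/
def Gadget.next (G : Gadget) (jk H : ℕ) : Gadget where
  m := G.m + 5
  N := G.N + 8
  w := fun i =>
    if i < G.N then G.w i + (H + 16)
    else if i = G.N then 0
    else if i = G.N + 1 then 4 * (H + (H + 16)) - 15
    else if i = G.N + 2 then 4 * (H + (H + 16)) - 14
    else if i = G.N + 3 then 4 * (H + (H + 16)) - 13
    else if i = G.N + 4 then 4 * (H + (H + 16)) - 8
    else if i = G.N + 5 then 4 * (H + (H + 16)) - 7
    else if i = G.N + 6 then 4 * (H + (H + 16)) - 1
    else 4 * (H + (H + 16))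
  c := fun b =>
    if b < G.m then G.c b + 2 * (H + 16)
    else if b = G.m then G.w jk + (H + 16)
    else if b = G.m + 1 then 4 * (H + (H + 16))
    else if b = G.m + 2 then 2 * (4 * (H + (H + 16))) - 28
    else if b = G.m + 3 then 2 * (4 * (H + (H + 16))) - 16
    else 2 * (4 * (H + (H + 16))) - 11

/-- A gadget together with the index `jk` of its distinguished item and a bound `H` for all
its weights and capacities. -/
structure GData where
  G : Gadget
  jk : ℕ
  H : ℕ

/-- The family of gadgets: level `0` has 3 bins and 7 items, every further level adds 5 bins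
and 8 items. -/
def gdata : ℕ → GData
  | 0 => ⟨⟨3, 7, fun i => [17, 19, 20, 21, 23, 24, 24].getD i 0,
      fun b => [38, 41, 46].getD b 0⟩, 6, 46⟩
  | k + 1 => ⟨(gdata k).G.next (gdata k).jk (gdata k).H, (gdata k).G.N + 7,
      8 * ((gdata k).H + ((gdata k).H + 16))⟩

end Vale.Agent.Lib.Helper2.Inf
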