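import Vale.Agent.Lib.Helper2.P302.InfDefs

/-!
The fractional side of a level: a fractional family of triples of the old instance, a
fractional family of pairs in bins of the gadget, and filler triples which use up the unused
fractions of the old items, give a fractional family of triples of the new instance.
-/

namespace Vale.Agent.Lib.Helper2.Inf

open Finset

theorem ind_nonneg (a i : ℕ) : 0 ≤ ind a i := by
  unfold ind
  split_ifs <;> norm_num

theorem ind_self (a : ℕ) : ind a a = 1 := by simp [ind]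

theorem ind_ne {a i : ℕ} (h : a ≠ i) : ind a i = 0 := by simp [ind, h]

theorem ind_add_left (n a b : ℕ) : ind (n + a) (n + b) = ind a b := by
  unfold ind
  simp

theorem sum_ind_range (k a : ℕ) (h : a < k) : ∑ i ∈ range k, ind a i = 1 := by
  rw [Finset.sum_eq_single a]
  · exact ind_self a
  · intro b _ hb
    exact ind_ne (Ne.symm hb)
  · intro h'
    exact absurd (Finset.mem_range.2 h) h'

theorem sum_ind_mul (k i : ℕ) (f : ℕ → ℝ) :
    ∑ a ∈ range k, ind a i * f a = if i < k then f i else 0 := by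
  split_ifs with h
  · rw [Finset.sum_eq_single i]
    · rw [ind_self, one_mul]
    · intro b _ hb
      rw [ind_ne hb, zero_mul]
    · intro h'
      exact absurd (Finset.mem_range.2 h) h'
  · apply Finset.sum_eq_zero
    intro a ha
    have : a ≠ i := by
      have := Finset.mem_range.1 ha
      omega
    rw [ind_ne this, zero_mul]

theorem sum_ind_shift (k base i : ℕ) (f : ℕ → ℝ) :
    ∑ a ∈ range k, ind (base + a) i * f a =
      if base ≤ i ∧ i < base + k then f (i - base) else 0 := by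
  split_ifs with h
  · rw [Finset.sum_eq_single (i - base)]
    · have : base + (i - base) = i := by omega
      rw [this, ind_self, one_mul]
    · intro b _ hb
      have : base + b ≠ i := by omega
      rw [ind_ne this, zero_mul]
    · intro h'
      exact absurd (Finset.mem_range.2 (by omega)) h'
  · apply Finset.sum_eq_zero
    intro a ha
    have : base + a ≠ i := by
      have := Finset.mem_range.1 ha
      omega
    rw [ind_ne this, zero_mul]

/-- The unused fractions add up to `n - 3 v`. -/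
theorem FS_slack_sum (d : ℕ → ℤ) (n : ℕ) (ρ : ℕ → ℝ) (v : ℝ) (h : FS d n ρ v) :
    ∑ i ∈ range n, ρ i = n - 3 * v := by
  obtain ⟨J, _, x, y, z, wgt, hw, hval, hitem, hρ, htot⟩ := h
  have h1 : ∑ i ∈ range n, (∑ j, (ind (x j) i + ind (y j) i + ind (z j) i) * wgt j + ρ i) =
      ∑ i ∈ range n, (1 : ℝ) :=
    Finset.sum_congr rfl (fun i hi => hitem i (Finset.mem_range.1 hi))
  rw [Finset.sum_add_distrib, Finset.sum_comm] at h1
  have h2 : ∑ j, ∑ i ∈ range n, (ind (x j) i + ind (y j) i + ind (z j) i) * wgt j =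
      ∑ j, 3 * wgt j := by
    apply Finset.sum_congr rfl
    intro j _
    rw [← Finset.sum_mul, Finset.sum_add_distrib, Finset.sum_add_distrib,
      sum_ind_range n _ (hval j).1, sum_ind_range n _ (hval j).2.1,
      sum_ind_range n _ (hval j).2.2.1]
    norm_num
  rw [h2, ← Finset.mul_sum, htot] at h1
  simp only [Finset.sum_const, Finset.card_range, nsmul_eq_mul, mul_one] at h1
  linarith

/-- A fractional family of triples of the instance `(d, n)` with usage function `u` and total
weight `v`. -/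
def Usage (d : ℕ → ℤ) (n : ℕ) (u : ℕ → ℝ) (v : ℝ) : Prop :=
  ∃ (J : Type) (_ : Fintype J) (x y z : J → ℕ) (wgt : J → ℝ),
    (∀ j, 0 ≤ wgt j) ∧
    (∀ j, x j < n ∧ y j < n ∧ z j < n ∧ d (x j) + d (y j) + d (z j) ≤ 0) ∧
    (∀ i, ∑ j, (ind (x j) i + ind (y j) i + ind (z j) i) * wgt j = u i) ∧
    ∑ j, wgt j = v

theorem FS.usage {d : ℕ → ℤ} {n : ℕ} {ρ : ℕ → ℝ} {v : ℝ} (h : FS d n ρ v) :
    ∃ u, Usage d n u v ∧ (∀ i, i < n → u i + ρ i = 1) ∧ (∀ i, n ≤ i → u i = 0) := by
  obtain ⟨J, inst, x, y, z, wgt, hw, hval, hitem, hρ, htot⟩ := h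
  refine ⟨fun i => ∑ j, (ind (x j) i + ind (y j) i + ind (z j) i) * wgt j,
    ⟨J, inst, x, y, z, wgt, hw, hval, fun i => rfl, htot⟩, hitem, ?_⟩
  intro i hi
  apply Finset.sum_eq_zero
  intro j _
  obtain ⟨a, b, c, _⟩ := hval j
  rw [ind_ne (by omega), ind_ne (by omega), ind_ne (by omega)]
  ring

theorem Usage.toFS {d : ℕ → ℤ} {n : ℕ} {u : ℕ → ℝ} {v : ℝ} {ρ : ℕ → ℝ} (h : Usage d n u v)
    (h1 : ∀ i, i < n → u i + ρ i = 1) (hρ : ∀ i, 0 ≤ ρ i) : FS d n ρ v := by
  obtain ⟨J, inst, x, y, z, wgt, hw, hval, hu, htot⟩ := h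
  exact ⟨J, inst, x, y, z, wgt, hw, hval, fun i hi => by rw [hu i]; exact h1 i hi, hρ, htot⟩

theorem Usage.add {d : ℕ → ℤ} {n : ℕ} {u1 u2 : ℕ → ℝ} {v1 v2 : ℝ} (h1 : Usage d n u1 v1)
    (h2 : Usage d n u2 v2) : Usage d n (fun i => u1 i + u2 i) (v1 + v2) := by
  obtain ⟨J1, inst1, x1, y1, z1, w1, hw1, hval1, hu1, htot1⟩ := h1
  obtain ⟨J2, inst2, x2, y2, z2, w2, hw2, hval2, hu2, htot2⟩ := h2
  refine ⟨J1 ⊕ J2, inferInstance, Sum.elim x1 x2, Sum.elim y1 y2, Sum.elim z1 z2,
    Sum.elim w1 w2, ?_, ?_, ?_, ?_⟩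
  · rintro (j | j)
    · exact hw1 j
    · exact hw2 j
  · rintro (j | j)
    · exact hval1 j
    · exact hval2 j
  · intro i
    rw [Fintype.sum_sum_type]
    simp only [Sum.elim_inl, Sum.elim_inr]
    rw [hu1 i, hu2 i]
  · rw [Fintype.sum_sum_type]
    simp only [Sum.elim_inl, Sum.elim_inr]
    rw [htot1, htot2]

theorem Usage.mono {d d' : ℕ → ℤ} {n n' : ℕ} {u : ℕ → ℝ} {v : ℝ} (hn : n ≤ n')
    (hd : ∀ i, i < n → d' i = d i) (h : Usage d n u v) : Usage d' n' u v := by
  obtain ⟨J, inst, x, y, z, wgt, hw, hval, hu, htot⟩ := h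
  refine ⟨J, inst, x, y, z, wgt, hw, ?_, hu, htot⟩
  intro j
  obtain ⟨a, b, c, e⟩ := hval j
  refine ⟨by omega, by omega, by omega, ?_⟩
  rw [hd _ a, hd _ b, hd _ c]
  exact e

theorem prod3_tot {α β γ : Type} [Fintype α] [Fintype β] [Fintype γ] (f : α → ℝ)
    (g : β → ℝ) (h : γ → ℝ) :
    (∑ a, f a) * (∑ b, g b) * (∑ c, h c) = ∑ a, ∑ b, ∑ c, f a * g b * h c := by
  rw [Finset.sum_mul_sum, Finset.sum_mul]
  refine Finset.sum_congr rfl (fun a _ => ?_)
  rw [Finset.sum_mul]
  refine Finset.sum_congr rfl (fun b _ => ?_)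
  rw [Finset.mul_sum]

theorem prod3_alg {α β γ : Type} [Fintype α] [Fintype β] [Fintype γ] (xa ua : α → ℝ)
    (yb pb : β → ℝ) (zc rc : γ → ℝ) :
    ∑ a, ∑ b, ∑ c, (xa a + yb b + zc c) * (ua a * pb b * rc c) =
      (∑ a, xa a * ua a) * (∑ b, pb b) * (∑ c, rc c) +
        (∑ a, ua a) * (∑ b, yb b * pb b) * (∑ c, rc c) +
        (∑ a, ua a) * (∑ b, pb b) * (∑ c, zc c * rc c) := by
  have e1 := prod3_tot (fun a => xa a * ua a) pb rc
  have e2 := prod3_tot ua (fun b => yb b * pb b) rc
  have e3 := prod3_tot ua pb (fun c => zc c * rc c)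
  rw [e1, e2, e3]
  simp only [← Finset.sum_add_distrib (M := ℝ)]
  refine Finset.sum_congr rfl (fun a _ => Finset.sum_congr rfl (fun b _ =>
    Finset.sum_congr rfl (fun c _ => ?_)))
  ring

/-- A product family: the triples `(A a, Bf b, C c)` with the weights `U a * P b * R c`. -/
theorem Usage.prod3 (d : ℕ → ℤ) (n ka kb kc : ℕ) (A Bf C : ℕ → ℕ) (U P R : ℕ → ℝ)
    (hU : ∀ a, a < ka → 0 ≤ U a) (hP : ∀ b, b < kb → 0 ≤ P b) (hR : ∀ c, c < kc → 0 ≤ R c)
    (hv : ∀ a, a < ka → ∀ b, b < kb → ∀ c, c < kc →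
      A a < n ∧ Bf b < n ∧ C c < n ∧ d (A a) + d (Bf b) + d (C c) ≤ 0) :
    Usage d n
      (fun i =>
        (∑ a ∈ range ka, ind (A a) i * U a) * (∑ b ∈ range kb, P b) * (∑ c ∈ range kc, R c) +
        (∑ a ∈ range ka, U a) * (∑ b ∈ range kb, ind (Bf b) i * P b) * (∑ c ∈ range kc, R c) +
        (∑ a ∈ range ka, U a) * (∑ b ∈ range kb, P b) * (∑ c ∈ range kc, ind (C c) i * R c))
      ((∑ a ∈ range ka, U a) * (∑ b ∈ range kb, P b) * (∑ c ∈ range kc, R c)) := by
  refine ⟨Fin ka × Fin kb × Fin kc, inferInstance, fun j => A j.1, fun j => Bf j.2.1,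
    fun j => C j.2.2, fun j => U j.1 * P j.2.1 * R j.2.2, ?_, ?_, ?_, ?_⟩
  · rintro ⟨a, b, c⟩
    exact mul_nonneg (mul_nonneg (hU a a.2) (hP b b.2)) (hR c c.2)
  · rintro ⟨a, b, c⟩
    exact hv a a.2 b b.2 c c.2
  · intro i
    simp only [Fintype.sum_prod_type, Finset.sum_range]
    exact prod3_alg (fun a : Fin ka => ind (A a) i) (fun a : Fin ka => U a)
      (fun b : Fin kb => ind (Bf b) i) (fun b : Fin kb => P b)
      (fun c : Fin kc => ind (C c) i) (fun c : Fin kc => R c)
  · simp only [Fintype.sum_prod_type, Finset.sum_range]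
    exact (prod3_tot (fun a : Fin ka => U a) (fun b : Fin kb => P b)
      (fun c : Fin kc => R c)).symm

/-- Appending items of charge `s` keeps the fractional family; the new items are unused. -/
theorem FS_addOnes (d : ℕ → ℤ) (n q : ℕ) (s : ℤ) (ρ : ℕ → ℝ) (v : ℝ) (h : FS d n ρ v) :
    FS (addOnes d n s) (n + q) (fun i => if i < n then ρ i else 1) v := by
  obtain ⟨J, inst, x, y, z, wgt, hw, hval, hitem, hρ, htot⟩ := h
  refine ⟨J, inst, x, y, z, wgt, hw, ?_, ?_, ?_, htot⟩
  · intro j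
    obtain ⟨a, b, c, e⟩ := hval j
    refine ⟨by omega, by omega, by omega, ?_⟩
    unfold addOnes
    rw [if_pos a, if_pos b, if_pos c]
    exact e
  · intro i hi
    beta_reduce
    by_cases hin : i < n
    · rw [if_pos hin]
      exact hitem i hin
    · rw [if_neg hin]
      have : ∑ j, (ind (x j) i + ind (y j) i + ind (z j) i) * wgt j = 0 := by
        apply Finset.sum_eq_zero
        intro j _
        obtain ⟨a, b, c, _⟩ := hval j
        rw [ind_ne (by omega), ind_ne (by omega), ind_ne (by omega)]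
        ring
      rw [this, zero_add]
  · intro i
    beta_reduce
    split_ifs
    · exact hρ i
    · exact zero_le_one

/-- The fractional pairs in bins of the gadget as a fractional family of triples of the level
(a bin of capacity `c` is the item of charge `-8 s - c`, a gadget item of weight `w` is the
item of charge `4 s + w`). -/
theorem usage_of_fracPairs (d : ℕ → ℤ) (n : ℕ) (G : Gadget) (s : ℤ) (p5 : ℕ) (tstar r : ℝ)
    (jk : ℕ) (h : G.FracPairs tstar r jk) :
    ∃ u : ℕ → ℝ, Usage (addLevel d n G s) (n + G.m + 2 + G.N + p5) u tstar ∧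
      (∀ i, i < n → u i = 0) ∧
      (∀ b, b < G.m → 0 ≤ u (n + b) ∧ u (n + b) ≤ 1) ∧
      (∀ e, e < 2 → u (n + G.m + e) = 0) ∧
      (∀ i, i < G.N → u (n + G.m + 2 + i) = 1 - (if i = jk then r else 0)) ∧
      (∀ p, u (n + G.m + 2 + G.N + p) = 0) ∧
      ∑ b ∈ range G.m, u (n + b) = tstar := by
  obtain ⟨J, inst, bin, i1, i2, wgt, hw, hval, hbin, hitem, htot⟩ := h
  have hb : ∀ b, b < G.m → ∑ j, (ind (n + bin j) (n + b) + ind (n + G.m + 2 + i1 j) (n + b) +
      ind (n + G.m + 2 + i2 j) (n + b)) * wgt j = ∑ j, ind (bin j) b * wgt j := by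
    intro b hbm
    apply Finset.sum_congr rfl
    intro j _
    rw [ind_ne (a := n + G.m + 2 + i1 j) (by omega),
      ind_ne (a := n + G.m + 2 + i2 j) (by omega), ind_add_left]
    ring
  refine ⟨fun i => ∑ j, (ind (n + bin j) i + ind (n + G.m + 2 + i1 j) i +
      ind (n + G.m + 2 + i2 j) i) * wgt j,
    ⟨J, inst, fun j => n + bin j, fun j => n + G.m + 2 + i1 j, fun j => n + G.m + 2 + i2 j,
      wgt, hw, ?_, fun i => rfl, htot⟩, ?_, ?_, ?_, ?_, ?_, ?_⟩
  · intro j
    obtain ⟨h1, h2, h3, hfit⟩ := hval j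
    beta_reduce
    refine ⟨by omega, by omega, by omega, ?_⟩
    have e1 : addLevel d n G s (n + bin j) = -8 * s - (G.c (bin j) : ℤ) := by
      unfold addLevel
      rw [if_neg (by omega), if_pos (by omega), Nat.add_sub_cancel_left]
    have e2 : addLevel d n G s (n + G.m + 2 + i1 j) = 4 * s + (G.w (i1 j) : ℤ) := by
      unfold addLevel
      rw [if_neg (by omega), if_neg (by omega), if_neg (by omega), if_pos (by omega),
        Nat.add_sub_cancel_left]
    have e3 : addLevel d n G s (n + G.m + 2 + i2 j) = 4 * s + (G.w (i2 j) : ℤ) := by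
      unfold addLevel
      rw [if_neg (by omega), if_neg (by omega), if_neg (by omega), if_pos (by omega),
        Nat.add_sub_cancel_left]
    rw [e1, e2, e3]
    omega
  · intro i hi
    beta_reduce
    apply Finset.sum_eq_zero
    intro j _
    rw [ind_ne (by omega), ind_ne (by omega), ind_ne (by omega)]
    ring
  · intro b hbm
    beta_reduce
    rw [hb b hbm]
    exact ⟨Finset.sum_nonneg (fun j _ => mul_nonneg (ind_nonneg _ _) (hw j)), hbin b hbm⟩
  · intro e he
    beta_reduce
    apply Finset.sum_eq_zero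
    intro j _
    obtain ⟨h1, h2, h3, _⟩ := hval j
    rw [ind_ne (by omega), ind_ne (by omega), ind_ne (by omega)]
    ring
  · intro i hi
    beta_reduce
    rw [← hitem i hi]
    apply Finset.sum_congr rfl
    intro j _
    obtain ⟨h1, h2, h3, _⟩ := hval j
    rw [ind_ne (a := n + bin j) (by omega), ind_add_left, ind_add_left]
    ring
  · intro p
    beta_reduce
    apply Finset.sum_eq_zero
    intro j _
    obtain ⟨h1, h2, h3, _⟩ := hval j
    rw [ind_ne (by omega), ind_ne (by omega), ind_ne (by omega)]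
    ring
  · beta_reduce
    rw [Finset.sum_congr rfl (fun b hb' => hb b (Finset.mem_range.1 hb')), Finset.sum_comm,
      ← htot]
    apply Finset.sum_congr rfl
    intro j _
    rw [← Finset.sum_mul, sum_ind_range G.m _ (hval j).1, one_mul]

theorem Usage.congr {d : ℕ → ℤ} {n : ℕ} {u u' : ℕ → ℝ} {v v' : ℝ} (h : Usage d n u v)
    (hu : ∀ i, u i = u' i) (hv : v = v') : Usage d n u' v' := by
  obtain ⟨J, inst, x, y, z, wgt, hw, hval, hu0, htot⟩ := h
  exact ⟨J, inst, x, y, z, wgt, hw, hval, fun i => by rw [hu0 i, hu i], by rw [htot, hv]⟩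

/-- The fractional side of a level. -/
theorem level_FS (d : ℕ → ℤ) (n : ℕ) (G : Gadget) (s : ℤ) (p5 : ℕ) (ρ : ℕ → ℝ)
    (v tstar r β : ℝ) (jk : ℕ)
    (hhi : ∀ i, i < n → d i ≤ s) (hs : 0 ≤ s) (hr : 0 ≤ r)
    (hFP : G.FracPairs tstar r jk) (hFS : FS d n ρ v) (hβ0 : 0 ≤ β) (hβ1 : β ≤ 1)
    (hbal : (G.m : ℝ) - tstar + 4 - 4 * β = ∑ i ∈ range n, ρ i)
    (hsup : (G.m : ℝ) - tstar + β ≤ p5) (hp5 : 0 < p5) (hΦ : 0 < ∑ i ∈ range n, ρ i) :
    ∃ ρ' : ℕ → ℝ, FS (addLevel d n G s) (n + G.m + 2 + G.N + p5) ρ' (v + G.m + 2 - β) := by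
  have hρ : ∀ i, 0 ≤ ρ i := by
    obtain ⟨_, _, _, _, _, _, _, _, _, h, _⟩ := hFS
    exact h
  obtain ⟨u0, hu0, hu0a, hu0b⟩ := hFS.usage
  obtain ⟨u1, hu1, hu1a, hu1b, hu1c, hu1d, hu1e, hu1f⟩ :=
    usage_of_fracPairs d n G s p5 tstar r jk hFP
  have hp5' : (0 : ℝ) < (p5 : ℝ) := by exact_mod_cast hp5
  have dI : ∀ i, i < n → addLevel d n G s i = d i := by
    intro i hi
    unfold addLevel
    rw [if_pos hi]
  have d8 : ∀ b, b < G.m → addLevel d n G s (n + b) = -8 * s - (G.c b : ℤ) := by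
    intro b hb
    unfold addLevel
    rw [if_neg (by omega), if_pos (by omega), Nat.add_sub_cancel_left]
  have d3 : ∀ e, e < 2 → addLevel d n G s (n + G.m + e) = -3 * s := by
    intro e he
    unfold addLevel
    rw [if_neg (by omega), if_neg (by omega), if_pos (by omega)]
  have d5 : ∀ p, addLevel d n G s (n + G.m + 2 + G.N + p) = 5 * s := by
    intro p
    unfold addLevel
    rw [if_neg (by omega), if_neg (by omega), if_neg (by omega), if_neg (by omega)]
  have U0 : Usage (addLevel d n G s) (n + G.m + 2 + G.N + p5) u0 v :=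
    hu0.mono (by omega) dI
  have F1 := Usage.prod3 (addLevel d n G s) (n + G.m + 2 + G.N + p5) G.m p5 n
    (fun b => n + b) (fun p => n + G.m + 2 + G.N + p) (fun c => c)
    (fun b => 1 - u1 (n + b)) (fun _ => 1 / (p5 : ℝ)) (fun c => ρ c / ∑ i ∈ range n, ρ i)
    (fun b hb => by
      have := (hu1b b hb).2
      linarith)
    (fun _ _ => by
      positivity)
    (fun c _ => div_nonneg (hρ c) hΦ.le)
    (fun b hb p hp c hc => by
      refine ⟨by omega, by omega, by omega, ?_⟩
      rw [d8 b hb, d5 p, dI c hc]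
      have := hhi c hc
      omega)
  have F2 := Usage.prod3 (addLevel d n G s) (n + G.m + 2 + G.N + p5) 1 1 p5
    (fun _ => n + G.m) (fun _ => n + G.m + 1) (fun p => n + G.m + 2 + G.N + p)
    (fun _ => β) (fun _ => 1) (fun _ => 1 / (p5 : ℝ))
    (fun _ _ => hβ0)
    (fun _ _ => zero_le_one)
    (fun _ _ => by
      positivity)
    (fun a _ b _ p hp => by
      refine ⟨by omega, by omega, by omega, ?_⟩
      have e0 := d3 0 (by norm_num)
      have e1 := d3 1 (by norm_num)
      rw [add_zero] at e0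
      rw [e0, e1, d5 p]
      omega)
  have F3 := Usage.prod3 (addLevel d n G s) (n + G.m + 2 + G.N + p5) 2 n n
    (fun e => n + G.m + e) (fun c => c) (fun c => c)
    (fun _ => 1 - β) (fun c => ρ c / ∑ i ∈ range n, ρ i) (fun c => ρ c / ∑ i ∈ range n, ρ i)
    (fun _ _ => by
      linarith)
    (fun c _ => div_nonneg (hρ c) hΦ.le)
    (fun c _ => div_nonneg (hρ c) hΦ.le)
    (fun e he c hc c' hc' => by
      refine ⟨by omega, by omega, by omega, ?_⟩
      rw [d3 e he, dI c hc, dI c' hc']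
      have := hhi c hc
      have := hhi c' hc'
      omega)
  have hP1 : ∑ b ∈ range p5, (1 / (p5 : ℝ)) = 1 := by
    rw [Finset.sum_const, Finset.card_range, nsmul_eq_mul]
    field_simp
  have hR1 : ∑ c ∈ range n, ρ c / ∑ i ∈ range n, ρ i = 1 := by
    rw [← Finset.sum_div]
    exact div_self (ne_of_gt hΦ)
  have hU : ∑ b ∈ range G.m, (1 - u1 (n + b)) = (G.m : ℝ) - tstar := by
    rw [Finset.sum_sub_distrib, hu1f]
    simp
  have h2 : ∑ _a ∈ range 2, (1 - β) = 2 * (1 - β) := by
    rw [Finset.sum_const, Finset.card_range]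
    simp
  have tot := ((((U0.add hu1).add F1).add F2).add F3).congr
    (u' := fun i => u0 i + u1 i +
      ((if n ≤ i ∧ i < n + G.m then 1 - u1 (n + (i - n)) else 0) +
        ((G.m : ℝ) - tstar) *
          (if n + G.m + 2 + G.N ≤ i ∧ i < n + G.m + 2 + G.N + p5 then 1 / (p5 : ℝ) else 0) +
        ((G.m : ℝ) - tstar) * (if i < n then ρ i / ∑ i ∈ range n, ρ i else 0)) +
      (ind (n + G.m) i * β + β * ind (n + G.m + 1) i +
        β * (if n + G.m + 2 + G.N ≤ i ∧ i < n + G.m + 2 + G.N + p5 then 1 / (p5 : ℝ) else 0)) +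
      ((if n + G.m ≤ i ∧ i < n + G.m + 2 then 1 - β else 0) +
        2 * (1 - β) * (if i < n then ρ i / ∑ i ∈ range n, ρ i else 0) +
        2 * (1 - β) * (if i < n then ρ i / ∑ i ∈ range n, ρ i else 0)))
    (v' := v + G.m + 2 - β)
    (by
      intro i
      simp only [hP1, hR1, hU, h2, sum_ind_shift, sum_ind_mul, Finset.sum_range_one]
      ring)
    (by
      simp only [hP1, hR1, hU, h2, Finset.sum_range_one]
      ring)
  refine ⟨fun i => if i < n + G.m + 2 then 0
    else if i < n + G.m + 2 + G.N then (if i - (n + G.m + 2) = jk then r else 0)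
    else 1 - ((G.m : ℝ) - tstar + β) / p5, tot.toFS ?_ ?_⟩
  · intro i hi
    have hp5ne : (p5 : ℝ) ≠ 0 := ne_of_gt hp5'
    by_cases c1 : i < n
    · rw [if_neg (by omega : ¬ (n ≤ i ∧ i < n + G.m)),
        if_neg (by omega : ¬ (n + G.m + 2 + G.N ≤ i ∧ i < n + G.m + 2 + G.N + p5)),
        if_pos c1,
        if_neg (by omega : ¬ (n + G.m ≤ i ∧ i < n + G.m + 2)),
        if_pos (by omega : i < n + G.m + 2),
        ind_ne (a := n + G.m) (by omega), ind_ne (a := n + G.m + 1) (by omega), hu1a i c1]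
      have key : ρ i / (∑ i ∈ range n, ρ i) * ((G.m : ℝ) - tstar + 4 - 4 * β) = ρ i := by
        rw [hbal]
        field_simp
      have := hu0a i c1
      linarith
    · by_cases c2 : i < n + G.m
      · obtain ⟨b, rfl⟩ : ∃ b, i = n + b := ⟨i - n, by omega⟩
        rw [if_pos (by omega : n ≤ n + b ∧ n + b < n + G.m),
          if_neg (by omega : ¬ (n + G.m + 2 + G.N ≤ n + b ∧ n + b < n + G.m + 2 + G.N + p5)),
          if_neg c1,
          if_neg (by omega : ¬ (n + G.m ≤ n + b ∧ n + b < n + G.m + 2)),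
          if_pos (by omega : n + b < n + G.m + 2),
          ind_ne (a := n + G.m) (by omega), ind_ne (a := n + G.m + 1) (by omega),
          hu0b (n + b) (by omega), Nat.add_sub_cancel_left]
        ring
      · by_cases c3 : i < n + G.m + 2
        · obtain ⟨e, rfl⟩ : ∃ e, i = n + G.m + e := ⟨i - (n + G.m), by omega⟩
          have he : e < 2 := by omega
          rw [if_neg (by omega : ¬ (n ≤ n + G.m + e ∧ n + G.m + e < n + G.m)),
            if_neg (by omega : ¬ (n + G.m + 2 + G.N ≤ n + G.m + e ∧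
              n + G.m + e < n + G.m + 2 + G.N + p5)),
            if_neg c1,
            if_pos (by omega : n + G.m ≤ n + G.m + e ∧ n + G.m + e < n + G.m + 2),
            if_pos c3, hu0b _ (by omega), hu1c e he]
          have hind : ind (n + G.m) (n + G.m + e) + ind (n + G.m + 1) (n + G.m + e) = 1 := by
            interval_cases e
            · rw [add_zero, ind_self, ind_ne (by omega)]
              norm_num
            · rw [ind_self, ind_ne (by omega)]
              norm_num
          linear_combination β * hind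
        · by_cases c4 : i < n + G.m + 2 + G.N
          · obtain ⟨i', rfl⟩ : ∃ i', i = n + G.m + 2 + i' := ⟨i - (n + G.m + 2), by omega⟩
            have hi' : i' < G.N := by omega
            rw [if_neg (by omega : ¬ (n ≤ n + G.m + 2 + i' ∧ n + G.m + 2 + i' < n + G.m)),
              if_neg (by omega : ¬ (n + G.m + 2 + G.N ≤ n + G.m + 2 + i' ∧
                n + G.m + 2 + i' < n + G.m + 2 + G.N + p5)),
              if_neg c1,
              if_neg (by omega : ¬ (n + G.m ≤ n + G.m + 2 + i' ∧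
                n + G.m + 2 + i' < n + G.m + 2)),
              if_neg c3, if_pos c4,
              ind_ne (a := n + G.m) (by omega), ind_ne (a := n + G.m + 1) (by omega),
              hu0b _ (by omega), hu1d i' hi', Nat.add_sub_cancel_left]
            ring
          · obtain ⟨p, rfl⟩ : ∃ p, i = n + G.m + 2 + G.N + p :=
              ⟨i - (n + G.m + 2 + G.N), by omega⟩
            rw [if_neg (by omega : ¬ (n ≤ n + G.m + 2 + G.N + p ∧
                n + G.m + 2 + G.N + p < n + G.m)),
              if_pos (by omega : n + G.m + 2 + G.N ≤ n + G.m + 2 + G.N + p ∧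
                n + G.m + 2 + G.N + p < n + G.m + 2 + G.N + p5),
              if_neg c1,
              if_neg (by omega : ¬ (n + G.m ≤ n + G.m + 2 + G.N + p ∧
                n + G.m + 2 + G.N + p < n + G.m + 2)),
              if_neg c3, if_neg c4,
              ind_ne (a := n + G.m) (by omega), ind_ne (a := n + G.m + 1) (by omega),
              hu0b _ (by omega), hu1e p]
            field_simp
            ring
  · intro i
    split_ifs
    · exact le_refl _
    · exact hr
    · exact le_refl _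
    · have : ((G.m : ℝ) - tstar + β) / p5 ≤ 1 := (div_le_one hp5').2 hsup
      linarith

end Vale.Agent.Lib.Helper2.Inf
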