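import Vale.Agent.Lib.Helper2.P302.InfTB
import Vale.Agent.Lib.Helper2.P302.InfFS
import Vale.Agent.Lib.Helper9.P302.InfGap
import Vale.Agent.Lib.Helper6.P302InfFrac
import Vale.Agent.Lib.Helper7.P302InfInt

/-!
Assembly of the family of instances: the induction over the levels and the limit.
-/

namespace Vale.Agent.Lib.Helper2.Inf

open Finset Vale.Agent.Lib.Helper3.BinPacking

/-- There is an instance with `n = 3 ν + 5` items and bounded charges which has at most `ν`
pairwise disjoint triples and a fractional family of triples of total weight `ν + D`. -/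
def Good (D : ℝ) : Prop :=
  ∃ (d : ℕ → ℤ) (n ν : ℕ) (ρ : ℕ → ℝ) (v : ℝ) (B : ℤ),
    n = 3 * ν + 5 ∧ TB d n ν ∧ FS d n ρ v ∧ (∀ i, i < n → -B ≤ d i ∧ d i ≤ B) ∧ 0 ≤ B ∧
      v - ν = D

/-- The start: five items with charges `0, 1, 1, 1, 1`. -/
theorem good_base : Good (1 / 3) := by
  refine ⟨fun i => if i = 0 then 0 else 1, 5, 0, fun i => if i = 0 then 0 else 1, 1 / 3, 1,
    rfl, ?_, ?_, ?_, by norm_num, by norm_num⟩
  · intro P hP hdisj
    by_contra hcon
    have hne : P.Nonempty := by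
      rw [Finset.nonempty_iff_ne_empty]
      intro h
      rw [h] at hcon
      simp at hcon
    obtain ⟨T, hT⟩ := hne
    obtain ⟨hc, hsub, hsum⟩ := hP T hT
    obtain ⟨x, y, z, hxy, hxz, hyz, rfl⟩ := Finset.card_eq_three.1 hc
    rw [Finset.sum_insert (by simp [hxy, hxz]), Finset.sum_pair hyz] at hsum
    split_ifs at hsum <;> omega
  · refine ⟨Fin 1, inferInstance, fun _ => 0, fun _ => 0, fun _ => 0, fun _ => 1 / 3,
      ?_, ?_, ?_, ?_, ?_⟩
    · intro j
      norm_num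
    · intro j
      simp
    · intro i hi
      simp only [Fin.sum_univ_one]
      by_cases h0 : i = 0
      · subst h0
        simp [ind]
        norm_num
      · have h0' : ¬ (0 = i) := fun h => h0 h.symm
        simp [ind, h0, h0']
    · intro i
      beta_reduce
      split_ifs <;> norm_num
    · simp
  · intro i hi
    beta_reduce
    split_ifs <;> constructor <;> norm_num

/-- One level: from `D` to `(D + 3 + g) / 4`, where the gadget of the level has fractional
value `4 k + 2 + g`. -/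
theorem good_step (k : ℕ) (hk : 1 ≤ k) (g r : ℝ)
    (hFP : (gdata k).G.FracPairs (4 * k + 2 + g) r (gdata k).jk) (hr : 0 ≤ r)
    (hg1 : 1 ≤ g) (hg2 : g ≤ 3 / 2) (D : ℝ) (h : Good D) (h1 : 1 / 3 ≤ D)
    (h2 : 3 * D ≤ 3 + g) : Good ((D + 3 + g) / 4) := by
  obtain ⟨d, n, ν, ρ, v, B, hn, hTB, hFS, hB, hB0, hD⟩ := h
  have hm := gdata_m k
  have hN := gdata_N k
  obtain ⟨B1, hB1⟩ : ∃ B1 : ℤ, B1 = max B ((gdata k).H : ℤ) := ⟨_, rfl⟩
  have hB1a : B ≤ B1 := by
    rw [hB1]
    exact le_max_left _ _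
  have hB1b : ((gdata k).H : ℤ) ≤ B1 := by
    rw [hB1]
    exact le_max_right _ _
  have hB10 : 0 ≤ B1 := le_trans hB0 hB1a
  obtain ⟨s, hs⟩ : ∃ s : ℤ, s = 2 * B1 + 1 := ⟨_, rfl⟩
  have TB1 := TB_addOnes d n ν (k - 1) B s (fun i hi => (hB i hi).1) hB0 (by omega) hTB
  have FS1 := FS_addOnes d n (k - 1) s ρ v hFS
  have hd1 : ∀ i, i < n + (k - 1) → -B1 ≤ addOnes d n s i ∧ addOnes d n s i ≤ s := by
    intro i hi
    unfold addOnes
    split_ifs with hin
    · have := hB i hin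
      constructor <;> omega
    · constructor <;> omega
  have TB2 := level_TB (addOnes d n s) (n + (k - 1)) ν (ν + 5 * k + 4) (4 * k + 2) (k + 1)
    (gdata k).G B1 s (fun i hi => (hd1 i hi).1) hB10
    (fun b hb => by
      have := gdata_c_le k b hb
      omega)
    (by omega) (gdata_int k) TB1 (by omega)
  have hslack := FS_slack_sum _ _ _ _ FS1
  obtain ⟨β, hβ⟩ : ∃ β : ℝ, β = (1 + 3 * D - g) / 4 := ⟨_, rfl⟩
  have hn1 : ((n + (k - 1) : ℕ) : ℝ) = 3 * ν + 4 + k := by
    have : n + (k - 1) = 3 * ν + 4 + k := by omega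
    rw [this]
    push_cast
    ring
  have hkR : (1 : ℝ) ≤ k := by exact_mod_cast hk
  have hmR : (((gdata k).G.m : ℕ) : ℝ) = 5 * k + 3 := by
    rw [hm]
    push_cast
    ring
  obtain ⟨ρ2, FS2⟩ := level_FS (addOnes d n s) (n + (k - 1)) (gdata k).G s (k + 1)
    (fun i => if i < n then ρ i else 1) v (4 * k + 2 + g) r β (gdata k).jk
    (fun i hi => (hd1 i hi).2) (by omega) hr hFP FS1
    (by rw [hβ]; linarith) (by rw [hβ]; linarith)
    (by rw [hslack, hn1, hmR, hβ]; linarith)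
    (by rw [hmR, hβ]; push_cast; linarith)
    (by omega)
    (by rw [hslack, hn1]; linarith)
  refine ⟨addLevel (addOnes d n s) (n + (k - 1)) (gdata k).G s,
    n + (k - 1) + (gdata k).G.m + 2 + (gdata k).G.N + (k + 1), ν + 5 * k + 4, ρ2,
    v + (gdata k).G.m + 2 - β, 9 * s, ?_, TB2, FS2, ?_, by omega, ?_⟩
  · omega
  · intro i hi
    unfold addLevel
    split_ifs with c1 c2 c3 c4
    · have := hd1 i c1
      constructor <;> omega
    · have := gdata_c_le k (i - (n + (k - 1))) (by omega)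
      constructor <;> omega
    · constructor <;> omega
    · have := gdata_w_le k (i - (n + (k - 1) + (gdata k).G.m + 2)) (by omega)
      constructor <;> omega
    · constructor <;> omega
  · rw [hmR, hβ]
    push_cast
    linarith

/-- The sequence of levels. -/
theorem good_seq (j : ℕ) : ∃ D a b : ℝ, Good D ∧ a = 1 / 3 ^ j ∧ b = 1 / 2 ^ j ∧ 0 < a ∧
    a ≤ b ∧ b ≤ 1 ∧ 1 / 3 ≤ D ∧ D ≤ 3 / 2 - a / 2 ∧ 3 / 2 - D ≤ 2 * b := by
  induction j with
  | zero =>
    exact ⟨1 / 3, 1, 1, good_base, by norm_num, by norm_num, by norm_num, le_refl _, le_refl _,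
      by norm_num, by norm_num, by norm_num⟩
  | succ j ih =>
    obtain ⟨D, a, b, hG, ha, hb, ha0, hab, hb1, hD1, hD2, hD3⟩ := ih
    have hfrac := gdata_frac (j + 1)
    have e1 : (1 : ℝ) / (2 * 3 ^ (j + 1)) = a / 6 := by
      rw [ha, pow_succ]
      field_simp
      ring
    have e2 : (1 : ℝ) / 3 ^ (j + 1) = a / 3 := by
      rw [ha, pow_succ]
      field_simp
    have e3 : (1 : ℝ) / 2 ^ (j + 1) = b / 2 := by
      rw [hb, pow_succ]
      field_simp
    have e4 : ((4 : ℝ) * ((j + 1 : ℕ) : ℝ) + 2 + 3 / 2 - 1 / (2 * 3 ^ (j + 1))) =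
        4 * ((j + 1 : ℕ) : ℝ) + 2 + (3 / 2 - a / 6) := by
      rw [e1]
      ring
    rw [e4] at hfrac
    have hstep := good_step (j + 1) (by omega) (3 / 2 - a / 6) (1 / 3 ^ (j + 1)) hfrac
      (by positivity) (by linarith) (by linarith) D hG hD1 (by linarith)
    exact ⟨(D + 3 + (3 / 2 - a / 6)) / 4, a / 3, b / 2, hstep, e2.symm, e3.symm, by linarith,
      by linarith, by linarith, by linarith, by linarith, by linarith⟩

/-- Instances with all sizes in `(1/4, 1/2]` whose gap between the optimum and the value of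
the configuration linear program comes arbitrarily close to `5/4`. -/
theorem gap_limit : ∀ ε : ℝ, 0 < ε → ∃ (n : ℕ) (a : Fin n → ℚ),
    (∀ i, 1 / 4 < a i ∧ a i ≤ 1 / 2) ∧ 5 / 4 - ε ≤ (opt a : ℝ) - lp a := by
  intro ε hε
  obtain ⟨j, hj⟩ := exists_pow_lt_of_lt_one hε (by norm_num : (1 / 2 : ℝ) < 1)
  obtain ⟨D, a, b, hG, ha, hb, ha0, hab, hb1, hD1, hD2, hD3⟩ := good_seq j
  obtain ⟨d, n, ν, ρ, v, B, hn, hTB, hFS, hB, hB0, hD⟩ := hG
  obtain ⟨x, hx, hgap⟩ :=
    Vale.Agent.Lib.Helper9.P302Inf.gap_of_thirds d n ν ρ v hn hTB hFS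
  refine ⟨n, x, hx, ?_⟩
  have hb' : b < ε := by
    rw [hb, ← one_div_pow]
    exact hj
  linarith

end Vale.Agent.Lib.Helper2.Inf
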