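import Vale.Agent.Lib.Helper2.P302.InfMain

/-!
The family of instances with the number of items of every level made explicit: level `j` has
`(15 j ^ 2 + 39 j + 10) / 2` items and its gap is at least `5/4 - 1/3 ^ j`.
-/

namespace Vale.Agent.Lib.Helper2.Inf

open Finset Vale.Agent.Lib.Helper3.BinPacking

/-- There is an instance with exactly `n = 3 ν + 5` items and bounded charges which has at
most `ν` pairwise disjoint triples and a fractional family of triples of total weight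
`ν + D`. -/
def GoodN (n : ℕ) (D : ℝ) : Prop :=
  ∃ (d : ℕ → ℤ) (ν : ℕ) (ρ : ℕ → ℝ) (v : ℝ) (B : ℤ),
    n = 3 * ν + 5 ∧ TB d n ν ∧ FS d n ρ v ∧ (∀ i, i < n → -B ≤ d i ∧ d i ≤ B) ∧ 0 ≤ B ∧
      v - ν = D

theorem goodN_base : GoodN 5 (1 / 3) := by
  refine ⟨fun i => if i = 0 then 0 else 1, 0, fun i => if i = 0 then 0 else 1, 1 / 3, 1,
    rfl, ?_, ?_, ?_, by norm_num, by norm_num⟩
  · intro P hP hdisj
    by_contra hcon
    have hne : P.Nonempty := by
      rw [Finset.nonempty_iff_ne_empty]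
      intro h
      rw [h] at hcon
      simp at hcon
    obtain ⟨T, hT⟩ := hne
    obtain ⟨hc, hsub, hsum⟩ := hP T hT
    obtain ⟨x, y, z, hxy, hxz, hyz, rfl⟩ := Finset.card_eq_three.1 hc
    rw [Finset.sum_insert (by simp [hxy, hxz]), Finset.sum_pair hyz] at hsum
    split_ifs at hsum <;> omega
  · refine ⟨Fin 1, inferInstance, fun _ => 0, fun _ => 0, fun _ => 0, fun _ => 1 / 3,
      ?_, ?_, ?_, ?_, ?_⟩
    · intro j
      norm_num
    · intro j
      simp
    · intro i hi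
      simp only [Fin.sum_univ_one]
      by_cases h0 : i = 0
      · subst h0
        simp [ind]
        norm_num
      · have h0' : ¬ (0 = i) := fun h => h0 h.symm
        simp [ind, h0, h0']
    · intro i
      beta_reduce
      split_ifs <;> norm_num
    · simp
  · intro i hi
    beta_reduce
    split_ifs <;> constructor <;> norm_num

/-- One level adds `15 k + 12` items. -/
theorem goodN_step (k : ℕ) (hk : 1 ≤ k) (g r : ℝ)
    (hFP : (gdata k).G.FracPairs (4 * k + 2 + g) r (gdata k).jk) (hr : 0 ≤ r)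
    (hg1 : 1 ≤ g) (hg2 : g ≤ 3 / 2) (n : ℕ) (D : ℝ) (h : GoodN n D) (h1 : 1 / 3 ≤ D)
    (h2 : 3 * D ≤ 3 + g) : GoodN (n + 15 * k + 12) ((D + 3 + g) / 4) := by
  obtain ⟨d, ν, ρ, v, B, hn, hTB, hFS, hB, hB0, hD⟩ := h
  have hm := gdata_m k
  have hN := gdata_N k
  obtain ⟨B1, hB1⟩ : ∃ B1 : ℤ, B1 = max B ((gdata k).H : ℤ) := ⟨_, rfl⟩
  have hB1a : B ≤ B1 := by
    rw [hB1]
    exact le_max_left _ _
  have hB1b : ((gdata k).H : ℤ) ≤ B1 := by
    rw [hB1]
    exact le_max_right _ _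
  have hB10 : 0 ≤ B1 := le_trans hB0 hB1a
  obtain ⟨s, hs⟩ : ∃ s : ℤ, s = 2 * B1 + 1 := ⟨_, rfl⟩
  have TB1 := TB_addOnes d n ν (k - 1) B s (fun i hi => (hB i hi).1) hB0 (by omega) hTB
  have FS1 := FS_addOnes d n (k - 1) s ρ v hFS
  have hd1 : ∀ i, i < n + (k - 1) → -B1 ≤ addOnes d n s i ∧ addOnes d n s i ≤ s := by
    intro i hi
    unfold addOnes
    split_ifs with hin
    · have := hB i hin
      constructor <;> omega
    · constructor <;> omega
  have TB2 := level_TB (addOnes d n s) (n + (k - 1)) ν (ν + 5 * k + 4) (4 * k + 2) (k + 1)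
    (gdata k).G B1 s (fun i hi => (hd1 i hi).1) hB10
    (fun b hb => by
      have := gdata_c_le k b hb
      omega)
    (by omega) (gdata_int k) TB1 (by omega)
  have hslack := FS_slack_sum _ _ _ _ FS1
  obtain ⟨β, hβ⟩ : ∃ β : ℝ, β = (1 + 3 * D - g) / 4 := ⟨_, rfl⟩
  have hn1 : ((n + (k - 1) : ℕ) : ℝ) = 3 * ν + 4 + k := by
    have : n + (k - 1) = 3 * ν + 4 + k := by omega
    rw [this]
    push_cast
    ring
  have hkR : (1 : ℝ) ≤ k := by exact_mod_cast hk
  have hmR : (((gdata k).G.m : ℕ) : ℝ) = 5 * k + 3 := by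
    rw [hm]
    push_cast
    ring
  obtain ⟨ρ2, FS2⟩ := level_FS (addOnes d n s) (n + (k - 1)) (gdata k).G s (k + 1)
    (fun i => if i < n then ρ i else 1) v (4 * k + 2 + g) r β (gdata k).jk
    (fun i hi => (hd1 i hi).2) (by omega) hr hFP FS1
    (by rw [hβ]; linarith) (by rw [hβ]; linarith)
    (by rw [hslack, hn1, hmR, hβ]; linarith)
    (by rw [hmR, hβ]; push_cast; linarith)
    (by omega)
    (by rw [hslack, hn1]; linarith)
  have e : n + (k - 1) + (gdata k).G.m + 2 + (gdata k).G.N + (k + 1) = n + 15 * k + 12 := by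
    omega
  rw [e] at TB2 FS2
  refine ⟨addLevel (addOnes d n s) (n + (k - 1)) (gdata k).G s, ν + 5 * k + 4, ρ2,
    v + (gdata k).G.m + 2 - β, 9 * s, ?_, TB2, FS2, ?_, by omega, ?_⟩
  · omega
  · intro i hi
    unfold addLevel
    split_ifs with c1 c2 c3 c4
    · have := hd1 i c1
      constructor <;> omega
    · have := gdata_c_le k (i - (n + (k - 1))) (by omega)
      constructor <;> omega
    · constructor <;> omega
    · have := gdata_w_le k (i - (n + (k - 1) + (gdata k).G.m + 2)) (by omega)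
      constructor <;> omega
    · constructor <;> omega
  · rw [hmR, hβ]
    push_cast
    linarith

/-- The sequence of levels with the number of items. -/
theorem goodN_seq (j : ℕ) : ∃ (n : ℕ) (D a : ℝ), GoodN n D ∧
    2 * n = 15 * j ^ 2 + 39 * j + 10 ∧ a = 1 / 3 ^ j ∧ 0 < a ∧ a ≤ 1 ∧ 1 / 3 ≤ D ∧
    D ≤ 3 / 2 - a / 2 ∧ 3 / 2 - D ≤ 7 / 6 * a := by
  induction j with
  | zero =>
    exact ⟨5, 1 / 3, 1, goodN_base, by norm_num, by norm_num, by norm_num, le_refl _,
      le_refl _, by norm_num, by norm_num⟩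
  | succ j ih =>
    obtain ⟨n, D, a, hG, hn, ha, ha0, ha1, hD1, hD2, hD3⟩ := ih
    have hfrac := gdata_frac (j + 1)
    have e1 : (1 : ℝ) / (2 * 3 ^ (j + 1)) = a / 6 := by
      rw [ha, pow_succ]
      field_simp
      ring
    have e2 : (1 : ℝ) / 3 ^ (j + 1) = a / 3 := by
      rw [ha, pow_succ]
      field_simp
    have e4 : ((4 : ℝ) * ((j + 1 : ℕ) : ℝ) + 2 + 3 / 2 - 1 / (2 * 3 ^ (j + 1))) =
        4 * ((j + 1 : ℕ) : ℝ) + 2 + (3 / 2 - a / 6) := by
      rw [e1]
      ring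
    rw [e4] at hfrac
    have hstep := goodN_step (j + 1) (by omega) (3 / 2 - a / 6) (1 / 3 ^ (j + 1)) hfrac
      (by positivity) (by linarith) (by linarith) n D hG hD1 (by linarith)
    have hsq : (j + 1) ^ 2 = j ^ 2 + 2 * j + 1 := by ring
    exact ⟨n + 15 * (j + 1) + 12, (D + 3 + (3 / 2 - a / 6)) / 4, a / 3, hstep, by omega,
      e2.symm, by linarith, by linarith, by linarith, by linarith, by linarith⟩

/-- Every instance with sizes at most `1` can be packed with one bin per item. -/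
theorem opt_le_card {n : ℕ} (a : Fin n → ℚ) (h : ∀ i, a i ≤ 1) : opt a ≤ n := by
  unfold opt
  apply Nat.sInf_le
  refine ⟨fun i => i, ?_⟩
  intro b
  have : univ.filter (fun i : Fin n => i = b) = {b} := by
    ext i
    simp
  rw [this]
  simpa using h b

/-- Level `j`: an instance with `(15 j ^ 2 + 39 j + 10) / 2` items, all sizes in `(1/4, 1/2]`,
and gap at least `5/4 - 1/3 ^ j`. -/
theorem gap_rate (j : ℕ) : ∃ (n : ℕ) (a : Fin n → ℚ), 2 * n = 15 * j ^ 2 + 39 * j + 10 ∧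
    (∀ i, 1 / 4 < a i ∧ a i ≤ 1 / 2) ∧ opt a ≤ n ∧
    5 / 4 - 1 / 3 ^ j ≤ (opt a : ℝ) - lp a := by
  obtain ⟨n, D, a, hG, hn, ha, ha0, ha1, hD1, hD2, hD3⟩ := goodN_seq j
  obtain ⟨d, ν, ρ, v, B, hn', hTB, hFS, hB, hB0, hD⟩ := hG
  obtain ⟨x, hx, hgap⟩ :=
    Vale.Agent.Lib.Helper9.P302Inf.gap_of_thirds d n ν ρ v hn' hTB hFS
  refine ⟨n, x, hn, hx, opt_le_card x (fun i => by
    have := (hx i).2
    linarith), ?_⟩
  rw [← ha]
  linarith

end Vale.Agent.Lib.Helper2.Inf
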