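import Vale.Agent.Lib.Helper2.P302.InfDefs
import Vale.Agent.Lib.Helper2.P302.Bridge

/-!
The integral side of a level: adding items of charge `s` does not create new triples, and
a level built from a gadget with at most `t` pairs in bins admits at most
`(n + 3 m + 4 + t + ν) / 4` pairwise disjoint triples.
-/

namespace Vale.Agent.Lib.Helper2.Inf

open Finset

/-- Pairwise disjoint subsets of `U`: the weights of their elements add up to at most the
total weight of `U`. -/
theorem sum_weights_le (P : Finset (Finset ℕ)) (U : Finset ℕ) (κ : ℕ → ℕ)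
    (hsub : ∀ T ∈ P, T ⊆ U)
    (hdisj : ∀ T ∈ P, ∀ T' ∈ P, T ≠ T' → Disjoint T T') :
    ∑ T ∈ P, ∑ i ∈ T, κ i ≤ ∑ i ∈ U, κ i := by
  classical
  have h : ∑ T ∈ P, ∑ i ∈ T, κ i = ∑ i ∈ P.biUnion id, κ i := by
    rw [Finset.sum_biUnion]
    · rfl
    · intro T hT T' hT' hne
      exact hdisj T hT T' hT' hne
  rw [h]
  apply Finset.sum_le_sum_of_subset
  intro i hi
  rw [Finset.mem_biUnion] at hi
  obtain ⟨T, hT, hi⟩ := hi
  exact hsub T hT hi

/-- The sum over a three element set containing three different given elements. -/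
theorem sum_three {α : Type*} [AddCommMonoid α] (T : Finset ℕ) (hc : T.card = 3) (f : ℕ → α)
    (x y z : ℕ) (hx : x ∈ T) (hy : y ∈ T) (hz : z ∈ T) (hxy : x ≠ y) (hxz : x ≠ z)
    (hyz : y ≠ z) : ∑ i ∈ T, f i = f x + f y + f z := by
  classical
  have hsub : ({x, y, z} : Finset ℕ) ⊆ T := by
    intro i hi
    simp only [Finset.mem_insert, Finset.mem_singleton] at hi
    rcases hi with rfl | rfl | rfl
    · exact hx
    · exact hy
    · exact hz
  have hcard : ({x, y, z} : Finset ℕ).card = 3 := Finset.card_eq_three.2 ⟨x, y, z, hxy, hxz, hyz, rfl⟩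
  have hT : ({x, y, z} : Finset ℕ) = T := Finset.eq_of_subset_of_card_le hsub (by omega)
  rw [← hT, Finset.sum_insert (by simp [hxy, hxz]), Finset.sum_pair hyz, add_assoc]

/-- Items of charge `s` (large compared with the other charges) lie in no triple. -/
theorem TB_addOnes (d : ℕ → ℤ) (n ν q : ℕ) (B s : ℤ) (hlo : ∀ i, i < n → -B ≤ d i)
    (hB : 0 ≤ B) (hs : 2 * B < s) (h : TB d n ν) : TB (addOnes d n s) (n + q) ν := by
  classical
  intro P hP hdisj
  apply h P _ hdisj
  intro T hT
  obtain ⟨hc, hsub, hsum⟩ := hP T hT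
  have hlow : ∀ i, -B ≤ addOnes d n s i := by
    intro i
    unfold addOnes
    split_ifs with hi
    · exact hlo i hi
    · omega
  have hall : ∀ i ∈ T, i < n := by
    intro i hi
    by_contra hin
    obtain ⟨x, y, z, hxy, hxz, hyz, rfl⟩ := Finset.card_eq_three.1 hc
    rw [Finset.sum_insert (by simp [hxy, hxz]), Finset.sum_pair hyz] at hsum
    have hx := hlow x
    have hy := hlow y
    have hz := hlow z
    have hi' : addOnes d n s i = s := by
      unfold addOnes
      rw [if_neg hin]
    simp only [Finset.mem_insert, Finset.mem_singleton] at hi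
    rcases hi with rfl | rfl | rfl <;> omega
  refine ⟨hc, ?_, ?_⟩
  · intro i hi
    exact Finset.mem_range.2 (hall i hi)
  · have : ∑ i ∈ T, d i = ∑ i ∈ T, addOnes d n s i := by
      apply Finset.sum_congr rfl
      intro i hi
      unfold addOnes
      rw [if_pos (hall i hi)]
    rw [this]
    exact hsum

/-- The inequality for one triple, from the classes of its three items. -/
theorem triple_ineq (n : ℕ) (B s : ℤ) (hB : 0 ≤ B) (hs : 2 * B < s) (κ q : ℕ → ℕ) (D : ℕ → ℤ)
    (cls : ∀ i, (i < n ∧ κ i = 1 ∧ q i = 5 ∧ -B ≤ D i) ∨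
      (¬ i < n ∧ κ i = 3 ∧ q i = 1 ∧ -8 * s - B ≤ D i) ∨
      (¬ i < n ∧ κ i = 2 ∧ q i = 5 ∧ D i = -3 * s) ∨
      (¬ i < n ∧ κ i = 0 ∧ q i = 0 ∧ 4 * s ≤ D i) ∨
      (¬ i < n ∧ κ i = 0 ∧ q i = 5 ∧ D i = 5 * s))
    (x y z : ℕ) (hsum : D x + D y + D z ≤ 0) :
    4 ≤ κ x + κ y + κ z + (if q x + q y + q z = 1 then 1 else 0) +
      (if x < n ∧ y < n ∧ z < n then 1 else 0) := by
  rcases cls x with ⟨a1, a2, a3, a4⟩ | ⟨a1, a2, a3, a4⟩ | ⟨a1, a2, a3, a4⟩ | ⟨a1, a2, a3, a4⟩ |
    ⟨a1, a2, a3, a4⟩ <;>
  rcases cls y with ⟨b1, b2, b3, b4⟩ | ⟨b1, b2, b3, b4⟩ | ⟨b1, b2, b3, b4⟩ | ⟨b1, b2, b3, b4⟩ |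
    ⟨b1, b2, b3, b4⟩ <;>
  rcases cls z with ⟨c1, c2, c3, c4⟩ | ⟨c1, c2, c3, c4⟩ | ⟨c1, c2, c3, c4⟩ | ⟨c1, c2, c3, c4⟩ |
    ⟨c1, c2, c3, c4⟩ <;>
  split_ifs <;> omega

/-- The weight of an item of a level in the counting argument: `1` for the old items, `3` for
the items of charge about `-8 s`, `2` for the two items of charge `-3 s`, `0` otherwise. -/
def kap (n m : ℕ) (i : ℕ) : ℕ :=
  if i < n then 1 else if i < n + m then 3 else if i < n + m + 2 then 2 else 0

/-- A marker: `1` for the items of charge about `-8 s`, `0` for the items of charge about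
`4 s`, and `5` for all other items. -/
def qcl (n m N : ℕ) (i : ℕ) : ℕ :=
  if i < n then 5 else if i < n + m then 1 else if i < n + m + 2 then 5
  else if i < n + m + 2 + N then 0 else 5

theorem qcl_le_one (n m N i : ℕ) (h : qcl n m N i ≤ 1) :
    (n ≤ i ∧ i < n + m ∧ qcl n m N i = 1) ∨
      (n + m + 2 ≤ i ∧ i < n + m + 2 + N ∧ qcl n m N i = 0) := by
  unfold qcl at h ⊢
  split_ifs at h ⊢ <;> omega

theorem sum_kap (n m r : ℕ) : ∑ i ∈ range (n + m + 2 + r), kap n m i = n + 3 * m + 4 := by
  rw [Finset.sum_range_add, Finset.sum_range_add, Finset.sum_range_add]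
  have e1 : ∑ x ∈ range n, kap n m x = ∑ x ∈ range n, 1 :=
    Finset.sum_congr rfl (fun x hx => by
      have := Finset.mem_range.1 hx
      unfold kap
      rw [if_pos this])
  have e2 : ∑ x ∈ range m, kap n m (n + x) = ∑ x ∈ range m, 3 :=
    Finset.sum_congr rfl (fun x hx => by
      have := Finset.mem_range.1 hx
      unfold kap
      rw [if_neg (by omega), if_pos (by omega)])
  have e3 : ∑ x ∈ range 2, kap n m (n + m + x) = ∑ x ∈ range 2, 2 :=
    Finset.sum_congr rfl (fun x hx => by
      have := Finset.mem_range.1 hx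
      unfold kap
      rw [if_neg (by omega), if_neg (by omega), if_pos (by omega)])
  have e4 : ∑ x ∈ range r, kap n m (n + m + 2 + x) = ∑ x ∈ range r, 0 :=
    Finset.sum_congr rfl (fun x _ => by
      unfold kap
      rw [if_neg (by omega), if_neg (by omega), if_neg (by omega)])
  rw [e1, e2, e3, e4]
  simp only [Finset.sum_const, Finset.card_range, smul_eq_mul]
  omega

/-- The classes of the items of a level. -/
theorem addLevel_cls (d : ℕ → ℤ) (n : ℕ) (G : Gadget) (B s : ℤ)
    (hlo : ∀ i, i < n → -B ≤ d i) (hc : ∀ b, b < G.m → (G.c b : ℤ) ≤ B) (i : ℕ) :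
    (i < n ∧ kap n G.m i = 1 ∧ qcl n G.m G.N i = 5 ∧ -B ≤ addLevel d n G s i) ∨
      (¬ i < n ∧ kap n G.m i = 3 ∧ qcl n G.m G.N i = 1 ∧ -8 * s - B ≤ addLevel d n G s i) ∨
      (¬ i < n ∧ kap n G.m i = 2 ∧ qcl n G.m G.N i = 5 ∧ addLevel d n G s i = -3 * s) ∨
      (¬ i < n ∧ kap n G.m i = 0 ∧ qcl n G.m G.N i = 0 ∧ 4 * s ≤ addLevel d n G s i) ∨
      (¬ i < n ∧ kap n G.m i = 0 ∧ qcl n G.m G.N i = 5 ∧ addLevel d n G s i = 5 * s) := by
  by_cases h1 : i < n
  · left
    refine ⟨h1, ?_, ?_, ?_⟩
    · unfold kap; rw [if_pos h1]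
    · unfold qcl; rw [if_pos h1]
    · unfold addLevel; rw [if_pos h1]; exact hlo i h1
  · by_cases h2 : i < n + G.m
    · right; left
      refine ⟨h1, ?_, ?_, ?_⟩
      · unfold kap; rw [if_neg h1, if_pos h2]
      · unfold qcl; rw [if_neg h1, if_pos h2]
      · unfold addLevel; rw [if_neg h1, if_pos h2]
        have := hc (i - n) (by omega)
        omega
    · by_cases h3 : i < n + G.m + 2
      · right; right; left
        refine ⟨h1, ?_, ?_, ?_⟩
        · unfold kap; rw [if_neg h1, if_neg h2, if_pos h3]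
        · unfold qcl; rw [if_neg h1, if_neg h2, if_pos h3]
        · unfold addLevel; rw [if_neg h1, if_neg h2, if_pos h3]
      · by_cases h4 : i < n + G.m + 2 + G.N
        · right; right; right; left
          refine ⟨h1, ?_, ?_, ?_⟩
          · unfold kap; rw [if_neg h1, if_neg h2, if_neg h3]
          · unfold qcl; rw [if_neg h1, if_neg h2, if_neg h3, if_pos h4]
          · unfold addLevel; rw [if_neg h1, if_neg h2, if_neg h3, if_pos h4]
            omega
        · right; right; right; right
          refine ⟨h1, ?_, ?_, ?_⟩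
          · unfold kap; rw [if_neg h1, if_neg h2, if_neg h3]
          · unfold qcl; rw [if_neg h1, if_neg h2, if_neg h3, if_neg h4]
          · unfold addLevel; rw [if_neg h1, if_neg h2, if_neg h3, if_neg h4]

/-- The integral side of a level: if the old instance has at most `ν` disjoint triples and the
gadget admits at most `t` pairs in bins, then the new instance has at most
`(n + 3 m + 4 + t + ν) / 4` disjoint triples. -/
theorem level_TB (d : ℕ → ℤ) (n ν ν' t p5 : ℕ) (G : Gadget) (B s : ℤ)
    (hlo : ∀ i, i < n → -B ≤ d i) (hB : 0 ≤ B) (hc : ∀ b, b < G.m → (G.c b : ℤ) ≤ B)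
    (hs : 2 * B < s) (hG : G.IntBound t) (h : TB d n ν)
    (hν : n + 3 * G.m + 4 + t + ν < 4 * (ν' + 1)) :
    TB (addLevel d n G s) (n + G.m + 2 + G.N + p5) ν' := by
  classical
  intro P hP hdisj
  have cls := addLevel_cls d n G B s hlo hc
  -- the inequality for every triple
  have key : ∀ T ∈ P, 4 ≤ ∑ i ∈ T, kap n G.m i +
      (if ∑ i ∈ T, qcl n G.m G.N i = 1 then 1 else 0) + (if T ⊆ range n then 1 else 0) := by
    intro T hT
    obtain ⟨hc3, hsub, hsum⟩ := hP T hT
    obtain ⟨x, y, z, hxy, hxz, hyz, rfl⟩ := Finset.card_eq_three.1 hc3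
    rw [Finset.sum_insert (by simp [hxy, hxz]), Finset.sum_pair hyz] at hsum
    rw [Finset.sum_insert (by simp [hxy, hxz]), Finset.sum_pair hyz,
      Finset.sum_insert (by simp [hxy, hxz]), Finset.sum_pair hyz]
    have h3 := triple_ineq n B s hB hs (kap n G.m) (qcl n G.m G.N) (addLevel d n G s) cls x y z
      (by omega)
    have hiff : (({x, y, z} : Finset ℕ) ⊆ range n) ↔ (x < n ∧ y < n ∧ z < n) := by
      simp [Finset.insert_subset_iff]
    have e : qcl n G.m G.N x + (qcl n G.m G.N y + qcl n G.m G.N z) =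
        qcl n G.m G.N x + qcl n G.m G.N y + qcl n G.m G.N z := by omega
    simp only [hiff, e]
    omega
  have h1 : 4 * P.card ≤ ∑ T ∈ P, (∑ i ∈ T, kap n G.m i +
      (if ∑ i ∈ T, qcl n G.m G.N i = 1 then 1 else 0) + (if T ⊆ range n then 1 else 0)) := by
    calc 4 * P.card = ∑ _T ∈ P, 4 := by simp [mul_comm]
      _ ≤ _ := Finset.sum_le_sum key
  rw [Finset.sum_add_distrib, Finset.sum_add_distrib] at h1
  -- the weights
  have h2 : ∑ T ∈ P, ∑ i ∈ T, kap n G.m i ≤ n + 3 * G.m + 4 := by
    have := sum_weights_le P (range (n + G.m + 2 + G.N + p5)) (kap n G.m)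
      (fun T hT => (hP T hT).2.1) hdisj
    have e : n + G.m + 2 + G.N + p5 = n + G.m + 2 + (G.N + p5) := by omega
    rw [e, sum_kap] at this
    exact this
  -- the triples inside the old instance
  have h4 : ∑ T ∈ P, (if T ⊆ range n then 1 else 0) ≤ ν := by
    rw [← Finset.card_filter]
    apply h
    · intro T hT
      rw [Finset.mem_filter] at hT
      obtain ⟨hc3, _, hsum⟩ := hP T hT.1
      refine ⟨hc3, hT.2, ?_⟩
      have : ∑ i ∈ T, d i = ∑ i ∈ T, addLevel d n G s i := by
        apply Finset.sum_congr rfl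
        intro i hi
        unfold addLevel
        rw [if_pos (Finset.mem_range.1 (hT.2 hi))]
      rw [this]
      exact hsum
    · intro T hT T' hT' hne
      exact hdisj T (Finset.mem_filter.1 hT).1 T' (Finset.mem_filter.1 hT').1 hne
  -- the triples made of a bin and two gadget items
  have h3 : ∑ T ∈ P, (if ∑ i ∈ T, qcl n G.m G.N i = 1 then 1 else 0) ≤ t := by
    rw [← Finset.card_filter]
    have hq1 : ∀ T ∈ P.filter (fun T => ∑ i ∈ T, qcl n G.m G.N i = 1), ∀ i ∈ T,
        (n ≤ i ∧ i < n + G.m ∧ qcl n G.m G.N i = 1) ∨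
          (n + G.m + 2 ≤ i ∧ i < n + G.m + 2 + G.N ∧ qcl n G.m G.N i = 0) := by
      intro T hT i hi
      rw [Finset.mem_filter] at hT
      apply qcl_le_one
      calc qcl n G.m G.N i ≤ ∑ j ∈ T, qcl n G.m G.N j :=
            Finset.single_le_sum (fun _ _ => Nat.zero_le _) hi
        _ = 1 := hT.2
    refine Vale.Agent.Lib.Helper2.PiB.sets_le G.w G.c (range G.N) (range G.m) t hG
      (P.filter (fun T => ∑ i ∈ T, qcl n G.m G.N i = 1)) id (fun x => x < n + G.m)
      (fun x => x - n) (fun x => x - (n + G.m + 2)) ?_ ?_ ?_ ?_ ?_ ?_ ?_ ?_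
    · intro T hT
      exact (hP T (Finset.mem_filter.1 hT).1).1
    · intro T hT
      have hTq := (Finset.mem_filter.1 hT).2
      have hex : ∃ x ∈ T, x < n + G.m := by
        by_contra hno
        have : ∑ i ∈ T, qcl n G.m G.N i = ∑ i ∈ T, 0 := by
          apply Finset.sum_congr rfl
          intro i hi
          rcases hq1 T hT i hi with h' | h'
          · exact absurd ⟨i, hi, h'.2.1⟩ hno
          · exact h'.2.2
        rw [this] at hTq
        simp at hTq
      obtain ⟨x, hx, hxb⟩ := hex
      refine ⟨x, hx, hxb, ?_⟩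
      intro y hy hyb
      by_contra hne
      have hqx : qcl n G.m G.N x = 1 := by
        rcases hq1 T hT x hx with h' | h'
        · exact h'.2.2
        · omega
      have hqy : qcl n G.m G.N y = 1 := by
        rcases hq1 T hT y hy with h' | h'
        · exact h'.2.2
        · omega
      have hsub : ({x, y} : Finset ℕ) ⊆ T := by
        intro i hi
        simp only [Finset.mem_insert, Finset.mem_singleton] at hi
        rcases hi with rfl | rfl
        · exact hx
        · exact hy
      have := Finset.sum_le_sum_of_subset (f := qcl n G.m G.N) hsub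
      rw [Finset.sum_pair (Ne.symm hne), hTq, hqx, hqy] at this
      omega
    · intro T hT x hx hxb
      rcases hq1 T hT x hx with h' | h'
      · exact Finset.mem_range.2 (by omega)
      · omega
    · intro T hT x hx hxb
      rcases hq1 T hT x hx with h' | h'
      · exact absurd h'.2.1 hxb
      · exact Finset.mem_range.2 (by omega)
    · intro T hT T' hT' x hx y hy hxb hyb hxy
      rcases hq1 T hT x hx with h' | h'
      · rcases hq1 T' hT' y hy with h'' | h''
        · omega
        · omega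
      · omega
    · intro T hT T' hT' x hx y hy hxb hyb hxy
      rcases hq1 T hT x hx with h' | h'
      · exact absurd h'.2.1 hxb
      · rcases hq1 T' hT' y hy with h'' | h''
        · exact absurd h''.2.1 hyb
        · omega
    · intro T hT x hx y hy z hz hxb hyb hzb hyz
      have hTP := hP T (Finset.mem_filter.1 hT).1
      have hxy : x ≠ y := by
        rintro rfl
        exact hyb hxb
      have hxz : x ≠ z := by
        rintro rfl
        exact hzb hxb
      have hsum := hTP.2.2
      simp only [id] at hx hy hz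
      rw [sum_three T hTP.1 (addLevel d n G s) x y z hx hy hz hxy hxz hyz] at hsum
      have ex : addLevel d n G s x = -8 * s - (G.c (x - n) : ℤ) := by
        rcases hq1 T hT x hx with h' | h'
        · unfold addLevel
          rw [if_neg (by omega), if_pos (by omega)]
        · omega
      have ey : addLevel d n G s y = 4 * s + (G.w (y - (n + G.m + 2)) : ℤ) := by
        rcases hq1 T hT y hy with h' | h'
        · exact absurd h'.2.1 hyb
        · unfold addLevel
          rw [if_neg (by omega), if_neg (by omega), if_neg (by omega), if_pos (by omega)]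
      have ez : addLevel d n G s z = 4 * s + (G.w (z - (n + G.m + 2)) : ℤ) := by
        rcases hq1 T hT z hz with h' | h'
        · exact absurd h'.2.1 hzb
        · unfold addLevel
          rw [if_neg (by omega), if_neg (by omega), if_neg (by omega), if_pos (by omega)]
      rw [ex, ey, ez] at hsum
      omega
    · intro T hT T' hT' hne
      exact hdisj T (Finset.mem_filter.1 hT).1 T' (Finset.mem_filter.1 hT').1 hne
  omega

end Vale.Agent.Lib.Helper2.Inf
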