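import Vale.Agent.Lib.Helper2.P302.PUsage
import Vale.Agent.Lib.Helper4.P302.Join

/-!
The fractional side of the join of two pairs in bins gadgets: the two given fractional families,
together with product families for the new pairs, form a fractional family of the join in which
only the last further item is not used up.
-/

namespace Vale.Agent.Lib.Helper2.Inf

open Finset
open Vale.Agent.Lib.Helper4.P302

/-- The weight `v` at the index `a` and `0` elsewhere. -/
def ptw (a : ℕ) (v : ℝ) : ℕ → ℝ := fun i => if i = a then v else 0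

/-- The weight `f (i - lo)` at the indices `lo ≤ i < lo + k` and `0` elsewhere. -/
def winw (lo k : ℕ) (f : ℕ → ℝ) : ℕ → ℝ :=
  fun i => if lo ≤ i ∧ i < lo + k then f (i - lo) else 0

theorem ptw_self (a : ℕ) (v : ℝ) : ptw a v a = v := by simp [ptw]

theorem ptw_ne (a : ℕ) (v : ℝ) {i : ℕ} (h : i ≠ a) : ptw a v i = 0 := by simp [ptw, h]

theorem ptw_nonneg (a : ℕ) {v : ℝ} (hv : 0 ≤ v) (i : ℕ) : 0 ≤ ptw a v i := by
  unfold ptw
  split_ifs
  · exact hv
  · exact le_refl 0

theorem ptw_ne_zero {a : ℕ} {v : ℝ} {i : ℕ} (h : ptw a v i ≠ 0) : i = a := by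
  by_contra hne
  exact h (ptw_ne a v hne)

theorem sum_ptw (n a : ℕ) (h : a < n) (v : ℝ) : ∑ i ∈ range n, ptw a v i = v := by
  unfold ptw
  rw [Finset.sum_ite_eq' (range n) a (fun _ => v), if_pos (Finset.mem_range.2 h)]

theorem winw_in (lo k : ℕ) (f : ℕ → ℝ) {i : ℕ} (h1 : lo ≤ i) (h2 : i < lo + k) :
    winw lo k f i = f (i - lo) := by
  unfold winw
  rw [if_pos ⟨h1, h2⟩]

theorem winw_out (lo k : ℕ) (f : ℕ → ℝ) {i : ℕ} (h : ¬ (lo ≤ i ∧ i < lo + k)) :
    winw lo k f i = 0 := by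
  unfold winw
  rw [if_neg h]

theorem winw_nonneg (lo k : ℕ) {f : ℕ → ℝ} (hf : ∀ j, j < k → 0 ≤ f j) (i : ℕ) :
    0 ≤ winw lo k f i := by
  unfold winw
  split_ifs with h
  · exact hf _ (by omega)
  · exact le_refl 0

theorem winw_ne_zero {lo k : ℕ} {f : ℕ → ℝ} {i : ℕ} (h : winw lo k f i ≠ 0) :
    lo ≤ i ∧ i < lo + k := by
  by_contra hne
  exact h (winw_out lo k f hne)

theorem sum_winw (n lo k : ℕ) (h : lo + k ≤ n) (f : ℕ → ℝ) :
    ∑ i ∈ range n, winw lo k f i = ∑ j ∈ range k, f j := by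
  unfold winw
  rw [← Finset.sum_filter]
  have e : (range n).filter (fun i => lo ≤ i ∧ i < lo + k) = Finset.Ico lo (lo + k) := by
    ext i
    simp only [Finset.mem_filter, Finset.mem_range, Finset.mem_Ico]
    omega
  rw [e, Finset.sum_Ico_eq_sum_range]
  simp

theorem join_old_w (Gb Gc : Gadget) (H eb ec jkb : ℕ) (hwb : ∀ i, i < Gb.N → Gb.w i ≤ H)
    (hjb : jkb < Gb.N) (rb : ℝ) (a : ℕ)
    (h : ptw jkb rb a + winw Gb.N eb (fun _ => 1) a ≠ 0) :
    (join Gb Gc H eb ec).w a ≤ 3 * (H + 1) := by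
  by_cases h1 : a = jkb
  · subst h1
    rw [join_w_b _ _ _ _ _ _ hjb]
    have := hwb a hjb
    omega
  · rw [ptw_ne _ _ h1, zero_add] at h
    obtain ⟨h2, h3⟩ := winw_ne_zero h
    rw [join_w_eb _ _ _ _ _ _ h2 h3]
    omega

theorem join_heavy_w (Gb Gc : Gadget) (H eb ec jkc : ℕ) (hwc : ∀ i, i < Gc.N → Gc.w i ≤ H)
    (hjc : jkc < Gc.N) (hec : 1 ≤ ec) (rc r' : ℝ) (a : ℕ)
    (h : ptw (Gb.N + eb + jkc) rc a + winw (Gb.N + eb + Gc.N) (ec - 1) (fun _ => 1) a +
      ptw (Gb.N + eb + Gc.N + (ec - 1)) (1 - r') a ≠ 0) :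
    (join Gb Gc H eb ec).w a ≤ 7 * (H + 1) := by
  by_cases h1 : a = Gb.N + eb + jkc
  · subst h1
    rw [join_w_c _ _ _ _ _ _ hjc]
    have := hwc jkc hjc
    omega
  · by_cases h2 : Gb.N + eb + Gc.N ≤ a ∧ a < Gb.N + eb + Gc.N + ec
    · rw [join_w_ec _ _ _ _ _ _ h2.1 h2.2]
      omega
    · exfalso
      apply h
      rw [ptw_ne _ _ h1, winw_out _ _ _ (by omega), ptw_ne _ _ (by omega)]
      ring

/-- The fractional family of the join. -/
theorem join_frac (Gb Gc : Gadget) (H eb ec jkb jkc : ℕ) (tsb rb tsc rc y r' : ℝ)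
    (hwb : ∀ i, i < Gb.N → Gb.w i ≤ H) (hcb : ∀ b, b < Gb.m → Gb.c b ≤ H)
    (hwc : ∀ i, i < Gc.N → Gc.w i ≤ H) (hcc : ∀ b, b < Gc.m → Gc.c b ≤ H)
    (hjb : jkb < Gb.N) (hjc : jkc < Gc.N)
    (hFb : Gb.FracPairs tsb rb jkb) (hFc : Gc.FracPairs tsc rc jkc)
    (hrb : 0 ≤ rb) (hrc : 0 ≤ rc) (hec : 1 ≤ ec)
    (hy0 : 0 ≤ y) (hy1 : y ≤ 1)
    (hbal : 3 * y + ((Gc.m : ℝ) - tsc) = rb + eb) (hpos : 0 < rb + eb)
    (hU : 0 < 1 - y + ((Gc.m : ℝ) - tsc))
    (hr' : r' = rc + ec - (1 - y) - ((Gc.m : ℝ) - tsc)) (hr0 : 0 ≤ r') (hr1 : r' ≤ 1) :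
    (join Gb Gc H eb ec).FracPairs (tsb + Gc.m + 1 + y) r' (Gb.N + eb + Gc.N + ec - 1) := by
  obtain ⟨ubb, uib, hPb, hubb0, hubb1, hubbz, huib, huibz, hsumb⟩ := PUsage.ofFrac hFb
  obtain ⟨ubc, uic, hPc, hubc0, hubc1, hubcz, huic, huicz, hsumc⟩ := PUsage.ofFrac hFc
  obtain ⟨Z, hZ⟩ : ∃ Z : ℕ → ℝ, Z = ptw (Gb.N + eb + Gc.N + ec) 1 := ⟨_, rfl⟩
  obtain ⟨Ab, hAb⟩ : ∃ Ab : ℕ → ℝ,
      Ab = fun i => ptw jkb rb i + winw Gb.N eb (fun _ => 1) i := ⟨_, rfl⟩
  obtain ⟨Ac, hAc⟩ : ∃ Ac : ℕ → ℝ,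
      Ac = fun i => ptw (Gb.N + eb + jkc) rc i + winw (Gb.N + eb + Gc.N) (ec - 1) (fun _ => 1) i +
        ptw (Gb.N + eb + Gc.N + (ec - 1)) (1 - r') i := ⟨_, rfl⟩
  obtain ⟨SM, hSM⟩ : ∃ SM : ℕ → ℝ, SM = ptw (Gb.m + Gc.m) 1 := ⟨_, rfl⟩
  obtain ⟨TP, hTP⟩ : ∃ TP : ℕ → ℝ, TP = ptw (Gb.m + Gc.m + 1) 1 := ⟨_, rfl⟩
  obtain ⟨SP, hSP⟩ : ∃ SP : ℕ → ℝ, SP = winw Gb.m Gc.m (fun b => 1 - ubc b) := ⟨_, rfl⟩
  obtain ⟨sc, hsc⟩ : ∃ sc : ℝ, sc = (Gc.m : ℝ) - tsc := ⟨_, rfl⟩
  obtain ⟨Wb, hWb⟩ : ∃ Wb : ℝ, Wb = rb + eb := ⟨_, rfl⟩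
  obtain ⟨Wc, hWc⟩ : ∃ Wc : ℝ, Wc = 1 - y + sc := ⟨_, rfl⟩
  have hWbpos : 0 < Wb := by rw [hWb]; exact hpos
  have hWcpos : 0 < Wc := by rw [hWc, hsc]; exact hU
  have hbal' : 3 * y + sc = Wb := by rw [hsc, hWb]; exact hbal
  -- nonnegativity
  have Z0 : ∀ i, 0 ≤ Z i := fun i => by rw [hZ]; exact ptw_nonneg _ zero_le_one i
  have Ab0 : ∀ i, 0 ≤ Ab i := fun i => by
    rw [hAb]
    exact add_nonneg (ptw_nonneg _ hrb i) (winw_nonneg _ _ (fun _ _ => zero_le_one) i)
  have Ac0 : ∀ i, 0 ≤ Ac i := fun i => by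
    rw [hAc]
    exact add_nonneg (add_nonneg (ptw_nonneg _ hrc i)
      (winw_nonneg _ _ (fun _ _ => zero_le_one) i)) (ptw_nonneg _ (by linarith) i)
  have SM0 : ∀ i, 0 ≤ SM i := fun i => by rw [hSM]; exact ptw_nonneg _ zero_le_one i
  have TP0 : ∀ i, 0 ≤ TP i := fun i => by rw [hTP]; exact ptw_nonneg _ zero_le_one i
  have SP0 : ∀ i, 0 ≤ SP i := fun i => by
    rw [hSP]
    exact winw_nonneg _ _ (fun j hj => by have := hubc1 j hj; linarith) i
  -- sums
  have hJN : (join Gb Gc H eb ec).N = Gb.N + eb + Gc.N + ec + 1 := rfl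
  have hJm : (join Gb Gc H eb ec).m = Gb.m + Gc.m + 2 := rfl
  have sZ : ∑ i ∈ range (join Gb Gc H eb ec).N, Z i = 1 := by
    rw [hZ, hJN]
    exact sum_ptw _ _ (by omega) 1
  have sAb : ∑ i ∈ range (join Gb Gc H eb ec).N, Ab i = Wb := by
    rw [hAb, hJN, Finset.sum_add_distrib, sum_ptw _ _ (by omega), sum_winw _ _ _ (by omega)]
    simp [hWb]
  have sAc : ∑ i ∈ range (join Gb Gc H eb ec).N, Ac i = Wc := by
    rw [hAc, hJN, Finset.sum_add_distrib, Finset.sum_add_distrib, sum_ptw _ _ (by omega),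
      sum_winw _ _ _ (by omega), sum_ptw _ _ (by omega)]
    simp only [Finset.sum_const, Finset.card_range, nsmul_eq_mul, mul_one]
    have e : ((ec - 1 : ℕ) : ℝ) = (ec : ℝ) - 1 := by
      rw [Nat.cast_sub hec]
      simp
    rw [e, hWc, hsc, hr']
    ring
  have sSM : ∑ b ∈ range (join Gb Gc H eb ec).m, SM b = 1 := by
    rw [hSM, hJm]
    exact sum_ptw _ _ (by omega) 1
  have sTP : ∑ b ∈ range (join Gb Gc H eb ec).m, TP b = 1 := by
    rw [hTP, hJm]
    exact sum_ptw _ _ (by omega) 1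
  have sSP : ∑ b ∈ range (join Gb Gc H eb ec).m, SP b = sc := by
    rw [hSP, hJm, sum_winw _ _ _ (by omega), Finset.sum_sub_distrib, hsumc, hsc]
    simp
  have sPb : ∑ i ∈ range (join Gb Gc H eb ec).N, Ab i / Wb = 1 := by
    rw [← Finset.sum_div, sAb]
    exact div_self (ne_of_gt hWbpos)
  have sPc : ∑ i ∈ range (join Gb Gc H eb ec).N, Ac i / Wc = 1 := by
    rw [← Finset.sum_div, sAc]
    exact div_self (ne_of_gt hWcpos)
  have syZ : ∑ i ∈ range (join Gb Gc H eb ec).N, y * Z i = y := by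
    rw [← Finset.mul_sum, sZ, mul_one]
  have s1yZ : ∑ i ∈ range (join Gb Gc H eb ec).N, (1 - y) * Z i = 1 - y := by
    rw [← Finset.mul_sum, sZ, mul_one]
  have syPb : ∑ i ∈ range (join Gb Gc H eb ec).N, y * (Ab i / Wb) = y := by
    rw [← Finset.mul_sum, sPb, mul_one]
  -- which pairs fit
  have wZ : ∀ a, Z a ≠ 0 → (join Gb Gc H eb ec).w a = 0 := fun a h => by
    rw [hZ] at h
    rw [ptw_ne_zero h]
    exact join_w_z _ _ _ _ _
  have wAb : ∀ a, Ab a ≠ 0 → (join Gb Gc H eb ec).w a ≤ 3 * (H + 1) := fun a h => by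
    rw [hAb] at h
    exact join_old_w Gb Gc H eb ec jkb hwb hjb rb a h
  have wAc : ∀ a, Ac a ≠ 0 → (join Gb Gc H eb ec).w a ≤ 7 * (H + 1) := fun a h => by
    rw [hAc] at h
    exact join_heavy_w Gb Gc H eb ec jkc hwc hjc hec rc r' a h
  have cSM : ∀ b, SM b ≠ 0 → (join Gb Gc H eb ec).c b = 3 * (H + 1) := fun b h => by
    rw [hSM] at h
    rw [ptw_ne_zero h, join_c_sm]
    omega
  have cTP : ∀ b, TP b ≠ 0 → (join Gb Gc H eb ec).c b = 7 * (H + 1) := fun b h => by
    rw [hTP] at h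
    rw [ptw_ne_zero h, join_c_tp]
    omega
  have cSP : ∀ b, SP b ≠ 0 → 12 * (H + 1) ≤ (join Gb Gc H eb ec).c b := fun b h => by
    rw [hSP] at h
    obtain ⟨h1, h2⟩ := winw_ne_zero h
    have e : b = Gb.m + (b - Gb.m) := by omega
    rw [e, join_c_c _ _ _ _ _ _ (by omega)]
    omega
  -- the six families
  have F1 := PUsage.shift (G' := join Gb Gc H eb ec) 0 0
    (fun b hb => by rw [hJm]; omega) (fun i hi => by rw [hJN]; omega)
    (fun b i1 i2 hb h1 h2 hfit => by
      simp only [zero_add]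
      rw [join_w_b _ _ _ _ _ _ h1, join_w_b _ _ _ _ _ _ h2, join_c_b _ _ _ _ _ _ hb]
      omega) hPb
  have F2 := PUsage.shift (G' := join Gb Gc H eb ec) Gb.m (Gb.N + eb)
    (fun b hb => by rw [hJm]; omega) (fun i hi => by rw [hJN]; omega)
    (fun b i1 i2 hb h1 h2 hfit => by
      rw [join_w_c _ _ _ _ _ _ h1, join_w_c _ _ _ _ _ _ h2, join_c_c _ _ _ _ _ _ hb]
      omega) hPc
  have F3 := PUsage.prod (join Gb Gc H eb ec) (fun i => y * Z i) SM (fun i => Ab i / Wb)
    (fun a => mul_nonneg hy0 (Z0 a)) SM0 (fun c => div_nonneg (Ab0 c) (le_of_lt hWbpos))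
    (fun a b c _ _ _ ha hb hc => by
      have h1 := wZ a (fun h0 => ha (by rw [h0, mul_zero]))
      have h2 := cSM b hb
      have h3 := wAb c (fun h0 => hc (by rw [h0, zero_div]))
      omega)
  have F4a := PUsage.prod (join Gb Gc H eb ec) (fun i => (1 - y) * Z i) TP (fun i => Ac i / Wc)
    (fun a => mul_nonneg (by linarith) (Z0 a)) TP0
    (fun c => div_nonneg (Ac0 c) (le_of_lt hWcpos))
    (fun a b c _ _ _ ha hb hc => by
      have h1 := wZ a (fun h0 => ha (by rw [h0, mul_zero]))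
      have h2 := cTP b hb
      have h3 := wAc c (fun h0 => hc (by rw [h0, zero_div]))
      omega)
  have F4b := PUsage.prod (join Gb Gc H eb ec) (fun i => y * (Ab i / Wb)) TP
    (fun i => Ab i / Wb)
    (fun a => mul_nonneg hy0 (div_nonneg (Ab0 a) (le_of_lt hWbpos))) TP0
    (fun c => div_nonneg (Ab0 c) (le_of_lt hWbpos))
    (fun a b c _ _ _ ha hb hc => by
      have h1 := wAb a (fun h0 => ha (by rw [h0, zero_div, mul_zero]))
      have h2 := cTP b hb
      have h3 := wAb c (fun h0 => hc (by rw [h0, zero_div]))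
      omega)
  have F5 := PUsage.prod (join Gb Gc H eb ec) (fun i => Ab i / Wb) SP (fun i => Ac i / Wc)
    (fun a => div_nonneg (Ab0 a) (le_of_lt hWbpos)) SP0
    (fun c => div_nonneg (Ac0 c) (le_of_lt hWcpos))
    (fun a b c _ _ _ ha hb hc => by
      have h1 := wAb a (fun h0 => ha (by rw [h0, zero_div]))
      have h2 := cSP b hb
      have h3 := wAc c (fun h0 => hc (by rw [h0, zero_div]))
      omega)
  simp only [syZ, s1yZ, syPb, sPb, sPc, sSM, sTP, sSP] at F3 F4a F4b F5
  have Ftot := ((((F1.add F2).add F3).add F4a).add F4b).add F5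
  refine PUsage.toFrac (Ftot.congr (fun b => rfl) (fun i => rfl) ?_) ?_ ?_
  · rw [hsc]
    ring
  · intro x hx
    have hx' : x < Gb.m + Gc.m + 2 := hx
    simp only [if_pos hx, Nat.zero_le, if_true, Nat.sub_zero, mul_one, one_mul]
    by_cases c1 : x < Gb.m
    · have e1 : SM x = 0 := by rw [hSM]; exact ptw_ne _ _ (by omega)
      have e2 : TP x = 0 := by rw [hTP]; exact ptw_ne _ _ (by omega)
      have e3 : SP x = 0 := by rw [hSP]; exact winw_out _ _ _ (by omega)
      rw [if_neg (by omega : ¬ Gb.m ≤ x), e1, e2, e3]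
      have := hubb1 x c1
      linarith
    · have e0 : ubb x = 0 := hubbz x (by omega)
      rw [if_pos (by omega : Gb.m ≤ x), e0]
      by_cases c2 : x < Gb.m + Gc.m
      · have e1 : SM x = 0 := by rw [hSM]; exact ptw_ne _ _ (by omega)
        have e2 : TP x = 0 := by rw [hTP]; exact ptw_ne _ _ (by omega)
        have e3 : SP x = 1 - ubc (x - Gb.m) := by
          rw [hSP]
          exact winw_in _ _ _ (by omega) (by omega)
        rw [e1, e2, e3]
        linarith
      · have e4 : ubc (x - Gb.m) = 0 := hubcz _ (by omega)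
        have e3 : SP x = 0 := by rw [hSP]; exact winw_out _ _ _ (by omega)
        rw [e4, e3]
        by_cases c3 : x = Gb.m + Gc.m
        · have e1 : SM x = 1 := by rw [hSM, c3]; exact ptw_self _ _
          have e2 : TP x = 0 := by rw [hTP]; exact ptw_ne _ _ (by omega)
          rw [e1, e2]
          linarith
        · have e1 : SM x = 0 := by rw [hSM]; exact ptw_ne _ _ c3
          have e2 : TP x = 1 := by
            have : x = Gb.m + Gc.m + 1 := by omega
            rw [hTP, this]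
            exact ptw_self _ _
          rw [e1, e2]
          linarith
  · intro x hx
    have hx' : x < Gb.N + eb + Gc.N + ec + 1 := hx
    simp only [if_pos hx, Nat.zero_le, if_true, Nat.sub_zero, mul_one, one_mul]
    have eAb : (3 * y + sc) * (Ab x / Wb) = Ab x := by
      rw [hbal']
      field_simp
    have eAc : (1 - y + sc) * (Ac x / Wc) = Ac x := by
      rw [← hWc]
      field_simp
    have key : uib x + (if Gb.N + eb ≤ x then uic (x - (Gb.N + eb)) else 0) +
        (y * Z x + y * (Ab x / Wb)) + ((1 - y) * Z x + (1 - y) * (Ac x / Wc)) +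
        (y * (Ab x / Wb) + y * (Ab x / Wb)) + (Ab x / Wb * sc + sc * (Ac x / Wc)) =
        uib x + (if Gb.N + eb ≤ x then uic (x - (Gb.N + eb)) else 0) + Z x + Ab x + Ac x := by
      linear_combination eAb + eAc
    rw [key]
    by_cases c1 : x < Gb.N
    · have e1 : Z x = 0 := by rw [hZ]; exact ptw_ne _ _ (by omega)
      have e2 : Ab x = (if x = jkb then rb else 0) := by
        rw [hAb]
        show ptw jkb rb x + winw Gb.N eb (fun _ => 1) x = _
        rw [winw_out _ _ _ (by omega), add_zero]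
        rfl
      have e3 : Ac x = 0 := by
        rw [hAc]
        show ptw (Gb.N + eb + jkc) rc x + winw (Gb.N + eb + Gc.N) (ec - 1) (fun _ => 1) x +
          ptw (Gb.N + eb + Gc.N + (ec - 1)) (1 - r') x = 0
        rw [ptw_ne _ _ (by omega), winw_out _ _ _ (by omega), ptw_ne _ _ (by omega)]
        ring
      rw [if_neg (by omega : ¬ Gb.N + eb ≤ x), if_neg (by omega : ¬ x = Gb.N + eb + Gc.N + ec - 1),
        e1, e2, e3, huib x c1]
      ring
    · have e0 : uib x = 0 := huibz x (by omega)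
      rw [e0]
      by_cases c2 : x < Gb.N + eb
      · have e1 : Z x = 0 := by rw [hZ]; exact ptw_ne _ _ (by omega)
        have e2 : Ab x = 1 := by
          rw [hAb]
          show ptw jkb rb x + winw Gb.N eb (fun _ => 1) x = _
          rw [ptw_ne _ _ (by omega), winw_in _ _ _ (by omega) (by omega)]
          ring
        have e3 : Ac x = 0 := by
          rw [hAc]
          show ptw (Gb.N + eb + jkc) rc x + winw (Gb.N + eb + Gc.N) (ec - 1) (fun _ => 1) x +
            ptw (Gb.N + eb + Gc.N + (ec - 1)) (1 - r') x = 0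
          rw [ptw_ne _ _ (by omega), winw_out _ _ _ (by omega), ptw_ne _ _ (by omega)]
          ring
        rw [if_neg (by omega : ¬ Gb.N + eb ≤ x),
          if_neg (by omega : ¬ x = Gb.N + eb + Gc.N + ec - 1), e1, e2, e3]
        ring
      · have e2 : Ab x = 0 := by
          rw [hAb]
          show ptw jkb rb x + winw Gb.N eb (fun _ => 1) x = _
          rw [ptw_ne _ _ (by omega), winw_out _ _ _ (by omega)]
          ring
        rw [if_pos (by omega : Gb.N + eb ≤ x), e2]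
        by_cases c3 : x < Gb.N + eb + Gc.N
        · have e1 : Z x = 0 := by rw [hZ]; exact ptw_ne _ _ (by omega)
          have e4 := huic (x - (Gb.N + eb)) (by omega)
          rw [if_neg (by omega : ¬ x = Gb.N + eb + Gc.N + ec - 1), e1, e4]
          by_cases c4 : x = Gb.N + eb + jkc
          · have e3 : Ac x = rc := by
              rw [hAc, c4]
              show ptw (Gb.N + eb + jkc) rc (Gb.N + eb + jkc) +
                winw (Gb.N + eb + Gc.N) (ec - 1) (fun _ => 1) (Gb.N + eb + jkc) +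
                ptw (Gb.N + eb + Gc.N + (ec - 1)) (1 - r') (Gb.N + eb + jkc) = rc
              rw [ptw_self, winw_out _ _ _ (by omega), ptw_ne _ _ (by omega)]
              ring
            rw [e3, if_pos (by omega : x - (Gb.N + eb) = jkc)]
            ring
          · have e3 : Ac x = 0 := by
              rw [hAc]
              show ptw (Gb.N + eb + jkc) rc x +
                winw (Gb.N + eb + Gc.N) (ec - 1) (fun _ => 1) x +
                ptw (Gb.N + eb + Gc.N + (ec - 1)) (1 - r') x = 0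
              rw [ptw_ne _ _ c4, winw_out _ _ _ (by omega), ptw_ne _ _ (by omega)]
              ring
            rw [e3, if_neg (by omega : ¬ x - (Gb.N + eb) = jkc)]
            ring
        · have e4 : uic (x - (Gb.N + eb)) = 0 := huicz _ (by omega)
          rw [e4]
          by_cases c4 : x < Gb.N + eb + Gc.N + (ec - 1)
          · have e1 : Z x = 0 := by rw [hZ]; exact ptw_ne _ _ (by omega)
            have e3 : Ac x = 1 := by
              rw [hAc]
              show ptw (Gb.N + eb + jkc) rc x +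
                winw (Gb.N + eb + Gc.N) (ec - 1) (fun _ => 1) x +
                ptw (Gb.N + eb + Gc.N + (ec - 1)) (1 - r') x = 1
              rw [ptw_ne _ _ (by omega), winw_in _ _ _ (by omega) (by omega),
                ptw_ne _ _ (by omega)]
              ring
            rw [if_neg (by omega : ¬ x = Gb.N + eb + Gc.N + ec - 1), e1, e3]
            ring
          · by_cases c5 : x = Gb.N + eb + Gc.N + (ec - 1)
            · have e1 : Z x = 0 := by rw [hZ]; exact ptw_ne _ _ (by omega)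
              have e3 : Ac x = 1 - r' := by
                rw [hAc, c5]
                show ptw (Gb.N + eb + jkc) rc (Gb.N + eb + Gc.N + (ec - 1)) +
                  winw (Gb.N + eb + Gc.N) (ec - 1) (fun _ => 1) (Gb.N + eb + Gc.N + (ec - 1)) +
                  ptw (Gb.N + eb + Gc.N + (ec - 1)) (1 - r') (Gb.N + eb + Gc.N + (ec - 1)) =
                  1 - r'
                rw [ptw_ne _ _ (by omega), winw_out _ _ _ (by omega), ptw_self]
                ring
              rw [if_pos (by omega : x = Gb.N + eb + Gc.N + ec - 1), e1, e3]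
              ring
            · have e1 : Z x = 1 := by
                have : x = Gb.N + eb + Gc.N + ec := by omega
                rw [hZ, this]
                exact ptw_self _ _
              have e3 : Ac x = 0 := by
                rw [hAc]
                show ptw (Gb.N + eb + jkc) rc x +
                  winw (Gb.N + eb + Gc.N) (ec - 1) (fun _ => 1) x +
                  ptw (Gb.N + eb + Gc.N + (ec - 1)) (1 - r') x = 0
                rw [ptw_ne _ _ (by omega), winw_out _ _ _ (by omega), ptw_ne _ _ (by omega)]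
                ring
              rw [if_neg (by omega : ¬ x = Gb.N + eb + Gc.N + ec - 1), e1, e3]
              ring

end Vale.Agent.Lib.Helper2.Inf
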