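import Vale.Agent.Lib.Helper9.P302.PiBGen
import Vale.Agent.Lib.Helper4.P302.Join

/-!
The integral side of the join of two pairs in bins gadgets: if at most `tb` bins of `Gb` and at
most `tc` bins of `Gc` can receive pairs at the same time, and `Gb` together with its further
items has at most `2 tb + 2 + (Gc.m - tc)` items, then at most `tb + Gc.m + 1` bins of the join
can receive pairs at the same time.
-/

namespace Vale.Agent.Lib.Helper2.Inf

open Finset
open Vale.Agent.Lib.Helper2.PiB
open Vale.Agent.Lib.Helper4.P302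

theorem join_w_old (Gb Gc : Gadget) (H eb ec : ℕ) (hwb : ∀ i, i < Gb.N → Gb.w i ≤ H) (i : ℕ)
    (hi : i < Gb.N + eb) :
    2 * (H + 1) ≤ (join Gb Gc H eb ec).w i ∧ (join Gb Gc H eb ec).w i ≤ 3 * (H + 1) := by
  by_cases h : i < Gb.N
  · rw [join_w_b _ _ _ _ _ _ h]
    have := hwb i h
    omega
  · rw [join_w_eb _ _ _ _ _ _ (by omega) hi]
    omega

theorem join_w_heavy (Gb Gc : Gadget) (H eb ec : ℕ) (i : ℕ)
    (h1 : Gb.N + eb ≤ i) (h2 : i < Gb.N + eb + Gc.N + ec) :
    6 * (H + 1) ≤ (join Gb Gc H eb ec).w i := by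
  by_cases h : i < Gb.N + eb + Gc.N
  · have e : i = Gb.N + eb + (i - (Gb.N + eb)) := by omega
    rw [e, join_w_c _ _ _ _ _ _ (by omega)]
    omega
  · rw [join_w_ec _ _ _ _ _ _ (by omega) h2]
    omega

/-- The integral bound of the join. -/
theorem join_int (Gb Gc : Gadget) (H eb ec tb tc : ℕ)
    (hwb : ∀ i, i < Gb.N → Gb.w i ≤ H) (hcb : ∀ b, b < Gb.m → Gb.c b ≤ H)
    (hwc : ∀ i, i < Gc.N → Gc.w i ≤ H) (hcc : ∀ b, b < Gc.m → Gc.c b ≤ H)
    (hb : Gb.IntBound tb) (hc : Gc.IntBound tc) (htc : tc ≤ Gc.m)
    (hN : Gb.N + eb + tc ≤ 2 * tb + 2 + Gc.m) :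
    (join Gb Gc H eb ec).IntBound (tb + Gc.m + 1) := by
  intro S f g hP
  have hJN : (join Gb Gc H eb ec).N = Gb.N + eb + Gc.N + ec + 1 := rfl
  have hJm : (join Gb Gc H eb ec).m = Gb.m + Gc.m + 2 := rfl
  have wold := join_w_old Gb Gc H eb ec hwb
  have wheavy := join_w_heavy Gb Gc H eb ec
  have csm : (join Gb Gc H eb ec).c (Gb.m + Gc.m) = 3 * (H + 1) := by
    rw [join_c_sm]
    omega
  have ctp : (join Gb Gc H eb ec).c (Gb.m + Gc.m + 1) = 7 * (H + 1) := by
    rw [join_c_tp]
    omega
  have hAcard : (Finset.Ico Gb.m (Gb.m + Gc.m)).card = Gc.m := by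
    rw [Nat.card_Ico]
    omega
  have key := Vale.Agent.Lib.Helper9.PiBGen.level_step_gen (join Gb Gc H eb ec).w
    (join Gb Gc H eb ec).c (range (Gb.N + eb)) (range Gb.m)
    (Finset.Ico (Gb.N + eb) (Gb.N + eb + Gc.N + ec)) (Finset.Ico Gb.m (Gb.m + Gc.m))
    (range (join Gb Gc H eb ec).N) (range (join Gb Gc H eb ec).m)
    (Gb.N + eb + Gc.N + ec) (Gb.m + Gc.m) (Gb.m + Gc.m + 1) (tb + 1) (Gc.m - tc)
    (by
      rw [hJN]
      ext i
      simp only [Finset.mem_range, Finset.mem_union, Finset.mem_insert, Finset.mem_Ico]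
      omega)
    (by
      rw [hJm]
      ext i
      simp only [Finset.mem_range, Finset.mem_union, Finset.mem_insert, Finset.mem_Ico]
      omega)
    (by
      rw [Finset.card_range]
      omega)
    (by
      rw [Finset.mem_range]
      omega)
    (by omega)
    (by
      intro l hl i _ b hb
      rw [Finset.mem_Ico] at hl
      have h1 := wheavy l hl.1 hl.2
      rw [Finset.mem_insert, Finset.mem_range] at hb
      rcases hb with rfl | hb
      · rw [csm]
        omega
      · rw [join_c_b _ _ _ _ _ _ hb]
        have := hcb b hb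
        omega)
    (by
      intro l hl i hi
      rw [Finset.mem_Ico] at hl
      have h1 := wheavy l hl.1 hl.2
      rw [ctp]
      rw [Finset.mem_union, Finset.mem_range, Finset.mem_Ico] at hi
      rcases hi with hi | hi
      · have := (wold i hi).1
        omega
      · have := wheavy i hi.1 hi.2
        omega)
    (by
      intro i hi j hj _
      rw [Finset.mem_range] at hi hj
      have h1 := (wold i hi).1
      have h2 := (wold j hj).1
      rw [csm]
      omega)
    (by
      -- pairs of heavy items in the bins of `Gc`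
      intro S' f' g' hP'
      rw [hAcard]
      have hbin : ∀ b ∈ S', Gb.m ≤ b ∧ b < Gb.m + Gc.m := fun b hb' =>
        Finset.mem_Ico.1 (hP'.sub hb')
      have hcap : ∀ b ∈ S', (join Gb Gc H eb ec).c b = 12 * (H + 1) + Gc.c (b - Gb.m) := by
        intro b hb'
        have h1 := hbin b hb'
        have e : b = Gb.m + (b - Gb.m) := by omega
        rw [e, join_c_c _ _ _ _ _ _ (by omega)]
        simp
      have hitem : ∀ b ∈ S', ∀ x, Gb.N + eb ≤ x → x < Gb.N + eb + Gc.N + ec →
          ∀ x', Gb.N + eb ≤ x' → x' < Gb.N + eb + Gc.N + ec →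
          (join Gb Gc H eb ec).w x + (join Gb Gc H eb ec).w x' ≤ (join Gb Gc H eb ec).c b →
          x < Gb.N + eb + Gc.N := by
        intro b hb' x hx1 hx2 x' hx1' hx2' hfit
        by_contra hcon
        rw [hcap b hb', join_w_ec _ _ _ _ _ _ (by omega) hx2] at hfit
        have h1 := wheavy x' hx1' hx2'
        have h2 := hcc (b - Gb.m) (by have := hbin b hb'; omega)
        omega
      have hwc' : ∀ x, Gb.N + eb ≤ x → x < Gb.N + eb + Gc.N →
          (join Gb Gc H eb ec).w x = 6 * (H + 1) + Gc.w (x - (Gb.N + eb)) := by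
        intro x hx1 hx2
        have e : x = Gb.N + eb + (x - (Gb.N + eb)) := by omega
        rw [e, join_w_c _ _ _ _ _ _ (by omega)]
        simp
      have hf : ∀ b ∈ S', Gb.N + eb ≤ f' b ∧ f' b < Gb.N + eb + Gc.N := by
        intro b hb'
        have h1 := Finset.mem_Ico.1 (hP'.memf b hb')
        have h2 := Finset.mem_Ico.1 (hP'.memg b hb')
        exact ⟨h1.1, hitem b hb' _ h1.1 h1.2 _ h2.1 h2.2 (hP'.fit b hb')⟩
      have hg : ∀ b ∈ S', Gb.N + eb ≤ g' b ∧ g' b < Gb.N + eb + Gc.N := by
        intro b hb'
        have h1 := Finset.mem_Ico.1 (hP'.memf b hb')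
        have h2 := Finset.mem_Ico.1 (hP'.memg b hb')
        exact ⟨h2.1, hitem b hb' _ h2.1 h2.2 _ h1.1 h1.2 (by have := hP'.fit b hb'; omega)⟩
      have hplaced : Placed Gc.w Gc.c (range Gc.N) (range Gc.m) (S'.image (fun b => b - Gb.m))
          (fun b => f' (Gb.m + b) - (Gb.N + eb)) (fun b => g' (Gb.m + b) - (Gb.N + eb)) := by
        have back : ∀ b ∈ S'.image (fun b => b - Gb.m), Gb.m + b ∈ S' := by
          intro b hb'
          rw [Finset.mem_image] at hb'
          obtain ⟨b0, hb0, rfl⟩ := hb'
          have := hbin b0 hb0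
          have e : Gb.m + (b0 - Gb.m) = b0 := by omega
          rw [e]
          exact hb0
        refine ⟨?_, ?_, ?_, ?_, ?_, ?_⟩
        · intro b hb'
          have := hbin _ (back b hb')
          rw [Finset.mem_range]
          omega
        · intro b hb'
          have := hf _ (back b hb')
          rw [Finset.mem_range]
          omega
        · intro b hb'
          have := hg _ (back b hb')
          rw [Finset.mem_range]
          omega
        · intro b hb'
          have h1 := hf _ (back b hb')
          have h2 := hg _ (back b hb')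
          have h3 := hP'.ne _ (back b hb')
          omega
        · intro b hb'
          have h1 := hf _ (back b hb')
          have h2 := hg _ (back b hb')
          have h3 := hP'.fit _ (back b hb')
          rw [hcap _ (back b hb'), hwc' _ h1.1 h1.2, hwc' _ h2.1 h2.2] at h3
          have e : Gb.m + b - Gb.m = b := by omega
          rw [e] at h3
          omega
        · intro b hb' b2 hb2 hne
          have h1 := hf _ (back b hb')
          have h2 := hg _ (back b hb')
          have h1' := hf _ (back b2 hb2)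
          have h2' := hg _ (back b2 hb2)
          have h3 := hP'.disj _ (back b hb') _ (back b2 hb2) (by omega)
          refine ⟨?_, ?_, ?_, ?_⟩ <;> omega
      have hle := hc _ _ _ hplaced
      rw [Finset.card_image_of_injOn] at hle
      · omega
      · intro b1 hb1 b2 hb2 h12
        have h1 := hbin b1 hb1
        have h2 := hbin b2 hb2
        simp only at h12
        omega)
    (by
      -- pairs of old items in the bins of `Gb`
      intro S' f' g' hP'
      have hbin : ∀ b ∈ S', b < Gb.m := fun b hb' => Finset.mem_range.1 (hP'.sub hb')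
      have hitem : ∀ b ∈ S', ∀ x, x < Gb.N + eb → ∀ x', x' < Gb.N + eb →
          (join Gb Gc H eb ec).w x + (join Gb Gc H eb ec).w x' ≤ (join Gb Gc H eb ec).c b →
          x < Gb.N := by
        intro b hb' x hx x' hx' hfit
        by_contra hcon
        rw [join_c_b _ _ _ _ _ _ (hbin b hb'), join_w_eb _ _ _ _ _ _ (by omega) hx] at hfit
        have h1 := (wold x' hx').1
        have h2 := hcb b (hbin b hb')
        omega
      have hf : ∀ b ∈ S', f' b < Gb.N := by
        intro b hb'
        have h1 := Finset.mem_range.1 (hP'.memf b hb')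
        have h2 := Finset.mem_range.1 (hP'.memg b hb')
        exact hitem b hb' _ h1 _ h2 (hP'.fit b hb')
      have hg : ∀ b ∈ S', g' b < Gb.N := by
        intro b hb'
        have h1 := Finset.mem_range.1 (hP'.memf b hb')
        have h2 := Finset.mem_range.1 (hP'.memg b hb')
        exact hitem b hb' _ h2 _ h1 (by have := hP'.fit b hb'; omega)
      have hplaced : Placed Gb.w Gb.c (range Gb.N) (range Gb.m) S' f' g' := by
        refine ⟨hP'.sub, ?_, ?_, hP'.ne, ?_, hP'.disj⟩
        · intro b hb'
          exact Finset.mem_range.2 (hf b hb')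
        · intro b hb'
          exact Finset.mem_range.2 (hg b hb')
        · intro b hb'
          have h3 := hP'.fit b hb'
          rw [join_c_b _ _ _ _ _ _ (hbin b hb'), join_w_b _ _ _ _ _ _ (hf b hb'),
            join_w_b _ _ _ _ _ _ (hg b hb')] at h3
          omega
      have := hb _ _ _ hplaced
      omega)
    S f g hP
  rw [hAcard] at key
  omega

end Vale.Agent.Lib.Helper2.Inf
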