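import Vale.Agent.Lib.Helper2.P302.InfFS

/-!
Fractional families of pairs in bins with explicit loads.

`PUsage G ub ui v` says that there is a finite family of fitting pairs in bins of the gadget
`G` with nonnegative weights whose bin loads are `ub`, whose item loads are `ui` and whose total
weight is `v`.  Such families can be added, moved to a larger gadget along shifts of the
indices, and built as products of three weight functions.
-/

namespace Vale.Agent.Lib.Helper2.Inf

open Finset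

/-- A fractional family of pairs in bins of `G` with bin loads `ub`, item loads `ui` and total
weight `v`. -/
def PUsage (G : Gadget) (ub ui : ℕ → ℝ) (v : ℝ) : Prop :=
  ∃ (J : Type) (_ : Fintype J) (bin i1 i2 : J → ℕ) (wgt : J → ℝ),
    (∀ j, 0 ≤ wgt j) ∧
    (∀ j, bin j < G.m ∧ i1 j < G.N ∧ i2 j < G.N ∧ G.w (i1 j) + G.w (i2 j) ≤ G.c (bin j)) ∧
    (∀ b, ∑ j, ind (bin j) b * wgt j = ub b) ∧
    (∀ i, ∑ j, (ind (i1 j) i + ind (i2 j) i) * wgt j = ui i) ∧
    ∑ j, wgt j = v

theorem ind_add_of_le (bo a b : ℕ) (h : bo ≤ b) : ind (bo + a) b = ind a (b - bo) := by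
  unfold ind
  by_cases h1 : bo + a = b
  · rw [if_pos h1, if_pos (by omega)]
  · rw [if_neg h1, if_neg (by omega)]

theorem ind_add_of_lt (bo a b : ℕ) (h : b < bo) : ind (bo + a) b = 0 :=
  ind_ne (by omega)

/-- The loads of a fractional family of pairs in bins. -/
theorem PUsage.ofFrac {G : Gadget} {ts r : ℝ} {jk : ℕ} (h : G.FracPairs ts r jk) :
    ∃ ub ui, PUsage G ub ui ts ∧ (∀ b, 0 ≤ ub b) ∧ (∀ b, b < G.m → ub b ≤ 1) ∧
      (∀ b, G.m ≤ b → ub b = 0) ∧
      (∀ i, i < G.N → ui i = 1 - (if i = jk then r else 0)) ∧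
      (∀ i, G.N ≤ i → ui i = 0) ∧ ∑ b ∈ range G.m, ub b = ts := by
  obtain ⟨J, inst, bin, i1, i2, wgt, hw, hval, hbin, hitem, htot⟩ := h
  refine ⟨fun b => ∑ j, ind (bin j) b * wgt j,
    fun i => ∑ j, (ind (i1 j) i + ind (i2 j) i) * wgt j,
    ⟨J, inst, bin, i1, i2, wgt, hw, hval, fun b => rfl, fun i => rfl, htot⟩,
    ?_, hbin, ?_, hitem, ?_, ?_⟩
  · intro b
    exact Finset.sum_nonneg (fun j _ => mul_nonneg (ind_nonneg _ _) (hw j))
  · intro b hb
    apply Finset.sum_eq_zero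
    intro j _
    have := (hval j).1
    rw [ind_ne (by omega), zero_mul]
  · intro i hi
    apply Finset.sum_eq_zero
    intro j _
    obtain ⟨_, a, b, _⟩ := hval j
    rw [ind_ne (by omega), ind_ne (by omega)]
    ring
  · show ∑ b ∈ range G.m, ∑ j, ind (bin j) b * wgt j = ts
    rw [Finset.sum_comm, ← htot]
    refine Finset.sum_congr rfl (fun j _ => ?_)
    rw [← Finset.sum_mul, sum_ind_range _ _ (hval j).1, one_mul]

theorem PUsage.toFrac {G : Gadget} {ub ui : ℕ → ℝ} {v r : ℝ} {jk : ℕ} (h : PUsage G ub ui v)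
    (hb : ∀ b, b < G.m → ub b ≤ 1)
    (hi : ∀ i, i < G.N → ui i = 1 - (if i = jk then r else 0)) : G.FracPairs v r jk := by
  obtain ⟨J, inst, bin, i1, i2, wgt, hw, hval, hbin, hitem, htot⟩ := h
  exact ⟨J, inst, bin, i1, i2, wgt, hw, hval, fun b hb' => by rw [hbin b]; exact hb b hb',
    fun i hi' => by rw [hitem i]; exact hi i hi', htot⟩

theorem PUsage.add {G : Gadget} {ub1 ui1 ub2 ui2 : ℕ → ℝ} {v1 v2 : ℝ}
    (h1 : PUsage G ub1 ui1 v1) (h2 : PUsage G ub2 ui2 v2) :
    PUsage G (fun b => ub1 b + ub2 b) (fun i => ui1 i + ui2 i) (v1 + v2) := by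
  obtain ⟨J1, inst1, b1, x1, y1, w1, hw1, hval1, hb1, hu1, htot1⟩ := h1
  obtain ⟨J2, inst2, b2, x2, y2, w2, hw2, hval2, hb2, hu2, htot2⟩ := h2
  refine ⟨J1 ⊕ J2, inferInstance, Sum.elim b1 b2, Sum.elim x1 x2, Sum.elim y1 y2,
    Sum.elim w1 w2, ?_, ?_, ?_, ?_, ?_⟩
  · rintro (j | j)
    · exact hw1 j
    · exact hw2 j
  · rintro (j | j)
    · exact hval1 j
    · exact hval2 j
  · intro b
    rw [Fintype.sum_sum_type]
    simp only [Sum.elim_inl, Sum.elim_inr]
    rw [hb1 b, hb2 b]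
  · intro i
    rw [Fintype.sum_sum_type]
    simp only [Sum.elim_inl, Sum.elim_inr]
    rw [hu1 i, hu2 i]
  · rw [Fintype.sum_sum_type]
    simp only [Sum.elim_inl, Sum.elim_inr]
    rw [htot1, htot2]

theorem PUsage.congr {G : Gadget} {ub ui ub' ui' : ℕ → ℝ} {v v' : ℝ} (h : PUsage G ub ui v)
    (hb : ∀ b, ub b = ub' b) (hi : ∀ i, ui i = ui' i) (hv : v = v') : PUsage G ub' ui' v' := by
  obtain ⟨J, inst, bin, i1, i2, wgt, hw, hval, hbin, hitem, htot⟩ := h
  exact ⟨J, inst, bin, i1, i2, wgt, hw, hval, fun b => by rw [hbin b, hb b],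
    fun i => by rw [hitem i, hi i], by rw [htot, hv]⟩

/-- Moving a family to another gadget along shifts of the bin and item indices. -/
theorem PUsage.shift {G G' : Gadget} {ub ui : ℕ → ℝ} {v : ℝ} (bo io : ℕ)
    (hb : ∀ b, b < G.m → bo + b < G'.m) (hi : ∀ i, i < G.N → io + i < G'.N)
    (hfit : ∀ b i1 i2, b < G.m → i1 < G.N → i2 < G.N → G.w i1 + G.w i2 ≤ G.c b →
      G'.w (io + i1) + G'.w (io + i2) ≤ G'.c (bo + b))
    (h : PUsage G ub ui v) :
    PUsage G' (fun b => if bo ≤ b then ub (b - bo) else 0)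
      (fun i => if io ≤ i then ui (i - io) else 0) v := by
  obtain ⟨J, inst, bin, i1, i2, wgt, hw, hval, hbin, hitem, htot⟩ := h
  refine ⟨J, inst, fun j => bo + bin j, fun j => io + i1 j, fun j => io + i2 j, wgt, hw,
    ?_, ?_, ?_, htot⟩
  · intro j
    obtain ⟨a, b, c, d⟩ := hval j
    exact ⟨hb _ a, hi _ b, hi _ c, hfit _ _ _ a b c d⟩
  · intro b
    beta_reduce
    split_ifs with hbo
    · rw [← hbin (b - bo)]
      refine Finset.sum_congr rfl (fun j _ => ?_)
      rw [ind_add_of_le _ _ _ hbo]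
    · apply Finset.sum_eq_zero
      intro j _
      rw [ind_add_of_lt _ _ _ (by omega), zero_mul]
  · intro i
    beta_reduce
    split_ifs with hio
    · rw [← hitem (i - io)]
      refine Finset.sum_congr rfl (fun j _ => ?_)
      rw [ind_add_of_le _ _ _ hio, ind_add_of_le _ _ _ hio]
    · apply Finset.sum_eq_zero
      intro j _
      rw [ind_add_of_lt _ _ _ (by omega), ind_add_of_lt _ _ _ (by omega)]
      ring

/-- A family given by arbitrary data: a pair only has to fit when its weight is not zero. -/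
theorem PUsage.ofFamily (G : Gadget) (J : Type) [Fintype J] (bin i1 i2 : J → ℕ) (wgt : J → ℝ)
    (hw : ∀ j, 0 ≤ wgt j)
    (hv : ∀ j, wgt j ≠ 0 →
      bin j < G.m ∧ i1 j < G.N ∧ i2 j < G.N ∧ G.w (i1 j) + G.w (i2 j) ≤ G.c (bin j)) :
    PUsage G (fun b => ∑ j, ind (bin j) b * wgt j)
      (fun i => ∑ j, (ind (i1 j) i + ind (i2 j) i) * wgt j) (∑ j, wgt j) := by
  classical
  have key : ∀ f : J → ℝ, (∀ j, wgt j = 0 → f j = 0) →
      ∑ j : {j : J // wgt j ≠ 0}, f j.1 = ∑ j, f j := by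
    intro f hf
    rw [← Finset.sum_subtype (Finset.univ.filter (fun j => wgt j ≠ 0)) (by simp) f]
    apply Finset.sum_filter_of_ne
    intro j _ hj h0
    exact hj (hf j h0)
  refine ⟨{j : J // wgt j ≠ 0}, inferInstance, fun j => bin j.1, fun j => i1 j.1,
    fun j => i2 j.1, fun j => wgt j.1, fun j => hw j.1, fun j => hv j.1 j.2, ?_, ?_, ?_⟩
  · intro b
    exact key (fun j => ind (bin j) b * wgt j) (fun j h0 => by rw [h0, mul_zero])
  · intro i
    exact key (fun j => (ind (i1 j) i + ind (i2 j) i) * wgt j)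
      (fun j h0 => by rw [h0, mul_zero])
  · exact key wgt (fun j h0 => h0)

/-- A product family: the pair `(a, c)` in the bin `b` gets the weight `U a * P b * R c`; a pair
only has to fit when the three factors are not zero. -/
theorem PUsage.prod (G : Gadget) (U P R : ℕ → ℝ) (hU : ∀ a, 0 ≤ U a) (hP : ∀ b, 0 ≤ P b)
    (hR : ∀ c, 0 ≤ R c)
    (hv : ∀ a b c, a < G.N → b < G.m → c < G.N → U a ≠ 0 → P b ≠ 0 → R c ≠ 0 →
      G.w a + G.w c ≤ G.c b) :
    PUsage G
      (fun x => if x < G.m then (∑ a ∈ range G.N, U a) * P x * (∑ c ∈ range G.N, R c) else 0)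
      (fun x => if x < G.N then U x * (∑ b ∈ range G.m, P b) * (∑ c ∈ range G.N, R c) +
          (∑ a ∈ range G.N, U a) * (∑ b ∈ range G.m, P b) * R x else 0)
      ((∑ a ∈ range G.N, U a) * (∑ b ∈ range G.m, P b) * (∑ c ∈ range G.N, R c)) := by
  have h := PUsage.ofFamily G (Fin G.N × Fin G.m × Fin G.N) (fun j => j.2.1) (fun j => j.1)
    (fun j => j.2.2) (fun j => U j.1 * P j.2.1 * R j.2.2)
    (fun j => mul_nonneg (mul_nonneg (hU _) (hP _)) (hR _))
    (fun j hj => by
      have h1 : U j.1 ≠ 0 := fun h0 => hj (by rw [h0]; ring)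
      have h2 : P j.2.1 ≠ 0 := fun h0 => hj (by rw [h0]; ring)
      have h3 : R j.2.2 ≠ 0 := fun h0 => hj (by rw [h0]; ring)
      exact ⟨j.2.1.2, j.1.2, j.2.2.2, hv _ _ _ j.1.2 j.2.1.2 j.2.2.2 h1 h2 h3⟩)
  refine h.congr ?_ ?_ ?_
  · intro x
    simp only [Fintype.sum_prod_type, Finset.sum_range]
    have e := prod3_tot (fun a : Fin G.N => U a) (fun b : Fin G.m => ind (b : ℕ) x * P b)
      (fun c : Fin G.N => R c)
    have e2 : ∑ b : Fin G.m, ind (b : ℕ) x * P b = if x < G.m then P x else 0 := by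
      rw [← Finset.sum_range (fun b => ind b x * P b)]
      exact sum_ind_mul G.m x P
    rw [e2] at e
    have e3 : ∑ a : Fin G.N, ∑ b : Fin G.m, ∑ c : Fin G.N,
        ind (b : ℕ) x * (U a * P b * R c) =
        ∑ a : Fin G.N, ∑ b : Fin G.m, ∑ c : Fin G.N, U a * (ind (b : ℕ) x * P b) * R c := by
      refine Finset.sum_congr rfl (fun a _ => Finset.sum_congr rfl (fun b _ =>
        Finset.sum_congr rfl (fun c _ => ?_)))
      ring
    rw [e3, ← e]
    split_ifs <;> ring
  · intro x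
    simp only [Fintype.sum_prod_type, Finset.sum_range]
    have e := prod3_alg (fun a : Fin G.N => ind (a : ℕ) x) (fun a : Fin G.N => U a)
      (fun _ : Fin G.m => (0 : ℝ)) (fun b : Fin G.m => P b)
      (fun c : Fin G.N => ind (c : ℕ) x) (fun c : Fin G.N => R c)
    have e1 : ∑ a : Fin G.N, ind (a : ℕ) x * U a = if x < G.N then U x else 0 := by
      rw [← Finset.sum_range (fun a => ind a x * U a)]
      exact sum_ind_mul G.N x U
    have e2 : ∑ c : Fin G.N, ind (c : ℕ) x * R c = if x < G.N then R x else 0 := by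
      rw [← Finset.sum_range (fun c => ind c x * R c)]
      exact sum_ind_mul G.N x R
    rw [e1, e2] at e
    simp only [add_zero, zero_mul, Finset.sum_const_zero, mul_zero] at e
    rw [e]
    split_ifs <;> ring
  · simp only [Fintype.sum_prod_type, Finset.sum_range]
    exact (prod3_tot (fun a : Fin G.N => U a) (fun b : Fin G.m => P b)
      (fun c : Fin G.N => R c)).symm

end Vale.Agent.Lib.Helper2.Inf
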