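import Vale.Agent.Lib.Helper2.P302.OptHalf

/-!
Padding a bin packing instance with two items of size `1/2`: the optimum grows by exactly one
and the value of the configuration linear program grows by at most one.
-/

namespace Vale.Agent.Lib.Helper2.PadHalf

open Finset
open Vale.Agent.Lib.Helper3.BinPacking

/-- The instance `a` followed by two items of size `1/2`. -/
def padHalf {n : ℕ} (a : Fin n → ℚ) : Fin (n + 2) → ℚ := Fin.append a (fun _ : Fin 2 => 1 / 2)

theorem padHalf_left {n : ℕ} (a : Fin n → ℚ) (i : Fin n) : padHalf a (Fin.castAdd 2 i) = a i := by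
  unfold padHalf
  exact Fin.append_left a _ i

theorem padHalf_right {n : ℕ} (a : Fin n → ℚ) (i : Fin 2) :
    padHalf a (Fin.natAdd n i) = 1 / 2 := by
  unfold padHalf
  exact Fin.append_right a _ i

theorem padHalf_bounds {n : ℕ} (a : Fin n → ℚ) (ha : ∀ i, 1 / 4 < a i ∧ a i ≤ 1 / 2) :
    ∀ i, 1 / 4 < padHalf a i ∧ padHalf a i ≤ 1 / 2 := by
  intro i
  induction i using Fin.addCases with
  | left i => rw [padHalf_left]; exact ha i
  | right i => rw [padHalf_right]; norm_num

theorem mult_padHalf {n : ℕ} (a : Fin n → ℚ) (σ : ℚ) :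
    mult (padHalf a) σ = mult a σ + (if σ = 1 / 2 then 2 else 0) := by
  unfold mult
  rw [Finset.card_filter, Finset.card_filter, Fin.sum_univ_add, Fin.sum_univ_two]
  simp only [padHalf_left, padHalf_right]
  by_cases h : σ = 1 / 2
  · subst h
    simp
  · have h' : ¬ ((1 / 2 : ℚ) = σ) := fun e => h e.symm
    rw [if_neg h, if_neg h']

theorem mem_sizes_iff {n : ℕ} (a : Fin n → ℚ) (σ : ℚ) : σ ∈ sizes a ↔ ∃ i, a i = σ := by
  unfold sizes
  simp

theorem sizes_subset {n : ℕ} (a : Fin n → ℚ) : sizes a ⊆ sizes (padHalf a) := by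
  intro σ hσ
  rw [mem_sizes_iff] at hσ ⊢
  obtain ⟨i, hi⟩ := hσ
  exact ⟨Fin.castAdd 2 i, by rw [padHalf_left]; exact hi⟩

theorem half_mem {n : ℕ} (a : Fin n → ℚ) : (1 / 2 : ℚ) ∈ sizes (padHalf a) := by
  rw [mem_sizes_iff]
  exact ⟨Fin.natAdd n 0, padHalf_right a 0⟩

theorem mem_sizes_padHalf {n : ℕ} (a : Fin n → ℚ) (σ : ℚ) (h : σ ∈ sizes (padHalf a)) :
    σ ∈ sizes a ∨ σ = 1 / 2 := by
  rw [mem_sizes_iff] at h
  obtain ⟨i, hi⟩ := h
  induction i using Fin.addCases with
  | left i =>
    rw [padHalf_left] at hi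
    exact Or.inl ((mem_sizes_iff a σ).2 ⟨i, hi⟩)
  | right i =>
    rw [padHalf_right] at hi
    exact Or.inr hi.symm

theorem mult_eq_zero {n : ℕ} (a : Fin n → ℚ) (σ : ℚ) (h : σ ∉ sizes a) : mult a σ = 0 := by
  unfold mult
  rw [Finset.card_eq_zero, Finset.filter_eq_empty_iff]
  intro i _ hi
  exact h ((mem_sizes_iff a σ).2 ⟨i, hi⟩)

/-- A configuration of `a` is a configuration of the padded instance. -/
theorem isConfig_padHalf {n : ℕ} (a : Fin n → ℚ) (c : ℚ → ℕ) (h : IsConfig a c) :
    IsConfig (padHalf a) c := by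
  refine ⟨fun σ hσ => h.1 σ (fun h' => hσ (sizes_subset a h')), ?_⟩
  have e : ∑ σ ∈ sizes (padHalf a), σ * (c σ : ℚ) = ∑ σ ∈ sizes a, σ * (c σ : ℚ) := by
    symm
    apply Finset.sum_subset (sizes_subset a)
    intro σ _ hσ
    rw [h.1 σ hσ]
    simp
  rw [e]
  exact h.2

/-- The configuration with two items of size `1/2`. -/
def cfgTwo : ℚ → ℕ := fun σ => if σ = 1 / 2 then 2 else 0

theorem isConfig_cfgTwo {n : ℕ} (a : Fin n → ℚ) : IsConfig (padHalf a) cfgTwo := by
  refine ⟨fun σ hσ => ?_, ?_⟩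
  · have : σ ≠ 1 / 2 := fun e => hσ (e ▸ half_mem a)
    show (if σ = 1 / 2 then 2 else 0) = 0
    rw [if_neg this]
  · rw [Finset.sum_eq_single (1 / 2 : ℚ)]
    · simp [cfgTwo]
    · intro σ _ hσ
      show σ * (((if σ = 1 / 2 then 2 else 0 : ℕ) : ℕ) : ℚ) = 0
      rw [if_neg hσ]
      simp
    · intro h
      exact absurd (half_mem a) h

/-- A fractional cover of `a` extends to a fractional cover of the padded instance. -/
theorem cover_padHalf {n : ℕ} (a : Fin n → ℚ) (m : ℕ) (cfg : Fin m → ℚ → ℕ) (w : Fin m → ℝ)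
    (h : IsFracCover a m cfg w) :
    IsFracCover (padHalf a) (m + 1) (Fin.snoc (α := fun _ => ℚ → ℕ) cfg cfgTwo)
      (Fin.snoc (α := fun _ => ℝ) w 1) := by
  obtain ⟨hw, hc, hcov⟩ := h
  refine ⟨?_, ?_, ?_⟩
  · intro j
    induction j using Fin.lastCases with
    | last => simp
    | cast j => simp [hw j]
  · intro j
    induction j using Fin.lastCases with
    | last => simp only [Fin.snoc_last]; exact isConfig_cfgTwo a
    | cast j => simp only [Fin.snoc_castSucc]; exact isConfig_padHalf a _ (hc j)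
  · intro σ hσ
    rw [Fin.sum_univ_castSucc]
    simp only [Fin.snoc_castSucc, Fin.snoc_last, mul_one]
    rw [mult_padHalf]
    have hnn : (0 : ℝ) ≤ ∑ j, (cfg j σ : ℝ) * w j :=
      Finset.sum_nonneg (fun j _ => mul_nonneg (Nat.cast_nonneg _) (hw j))
    by_cases hs : σ ∈ sizes a
    · have h1 := hcov σ hs
      have h2 : (((if σ = 1 / 2 then 2 else 0 : ℕ) : ℕ) : ℝ) = (cfgTwo σ : ℝ) := by
        simp [cfgTwo]
      push_cast at h2 ⊢
      rw [← h2]
      linarith
    · have h0 : mult a σ = 0 := mult_eq_zero a σ hs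
      have h2 : (((if σ = 1 / 2 then 2 else 0 : ℕ) : ℕ) : ℝ) = (cfgTwo σ : ℝ) := by
        simp [cfgTwo]
      rw [h0]
      push_cast at h2 ⊢
      rw [← h2]
      linarith

/-- Every instance with sizes at most `1` has a fractional cover. -/
theorem cover_exists {n : ℕ} (a : Fin n → ℚ) (ha : ∀ i, a i ≤ 1) :
    ∃ (m : ℕ) (cfg : Fin m → ℚ → ℕ) (w : Fin m → ℝ), IsFracCover a m cfg w := by
  refine ⟨n, fun i σ => if σ = a i then 1 else 0, fun _ => 1, fun _ => zero_le_one, ?_, ?_⟩
  · intro i
    refine ⟨fun σ hσ => ?_, ?_⟩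
    · have : σ ≠ a i := fun e => hσ ((mem_sizes_iff a σ).2 ⟨i, e.symm⟩)
      simp [this]
    · rw [Finset.sum_eq_single (a i)]
      · simpa using ha i
      · intro σ _ hσ
        simp [hσ]
      · intro h
        exact absurd ((mem_sizes_iff a (a i)).2 ⟨i, rfl⟩) h
  · intro σ _
    unfold mult
    rw [Finset.card_filter]
    push_cast
    apply le_of_eq
    apply Finset.sum_congr rfl
    intro i _
    by_cases h : a i = σ
    · simp [h]
    · have h' : ¬ (σ = a i) := fun e => h e.symm
      simp [h, h']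

/-- Padding raises the value of the linear program by at most one. -/
theorem lp_padHalf_le {n : ℕ} (a : Fin n → ℚ) (ha : ∀ i, a i ≤ 1) :
    lp (padHalf a) ≤ lp a + 1 := by
  have key : lp (padHalf a) - 1 ≤ lp a := by
    have hne : {v : ℝ | ∃ (m : ℕ) (cfg : Fin m → ℚ → ℕ) (w : Fin m → ℝ),
        IsFracCover a m cfg w ∧ v = ∑ j, w j}.Nonempty := by
      obtain ⟨m, cfg, w, h⟩ := cover_exists a ha
      exact ⟨_, m, cfg, w, h, rfl⟩
    apply le_csInf hne
    rintro v ⟨m, cfg, w, h, rfl⟩
    have h1 := lp_le_of_cover (padHalf a) (m + 1) _ _ (cover_padHalf a m cfg w h)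
    rw [Fin.sum_univ_castSucc] at h1
    simp only [Fin.snoc_castSucc, Fin.snoc_last] at h1
    linarith
  linarith

/-- A packing into `opt a` bins exists (sizes at most `1/2`). -/
theorem packing_opt {n : ℕ} (a : Fin n → ℚ) (ha : ∀ i, a i ≤ 1 / 2) :
    ∃ f : Fin n → Fin (opt a), IsPacking a (opt a) f :=
  Nat.sInf_mem (s := {k : ℕ | ∃ f : Fin n → Fin k, IsPacking a k f})
    ⟨_, Vale.Agent.Lib.Helper2.OptHalf.packing_half a ha⟩

/-- The load of a bin of the padded instance: old items plus the two new ones. -/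
theorem bin_sum {n k : ℕ} (a : Fin n → ℚ) (f : Fin (n + 2) → Fin k) (b : Fin k) :
    ∑ i ∈ univ.filter (fun i => f i = b), padHalf a i =
      (∑ i : Fin n, if f (Fin.castAdd 2 i) = b then a i else 0) +
        ((if f (Fin.natAdd n 0) = b then 1 / 2 else 0) +
          (if f (Fin.natAdd n 1) = b then 1 / 2 else 0)) := by
  rw [Finset.sum_filter, Fin.sum_univ_add, Fin.sum_univ_two]
  simp only [padHalf_left, padHalf_right]

/-- Padding raises the optimum by at most one: the two new items share a new bin. -/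
theorem opt_padHalf_le {n : ℕ} (a : Fin n → ℚ) (ha : ∀ i, a i ≤ 1 / 2) :
    opt (padHalf a) ≤ opt a + 1 := by
  obtain ⟨f, hf⟩ := packing_opt a ha
  have key : ∃ f' : Fin (n + 2) → Fin (opt a + 1), IsPacking (padHalf a) (opt a + 1) f' := by
    refine ⟨Fin.append (fun i => (f i).castSucc) (fun _ : Fin 2 => Fin.last (opt a)), ?_⟩
    intro b
    rw [bin_sum]
    simp only [Fin.append_left, Fin.append_right]
    induction b using Fin.lastCases with
    | last =>
      have h0 : ∀ i : Fin n, (if (f i).castSucc = Fin.last (opt a) then a i else 0) = 0 :=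
        fun i => if_neg (Fin.castSucc_lt_last _).ne
      rw [Finset.sum_congr rfl (fun i _ => h0 i), if_pos rfl]
      norm_num
    | cast b =>
      have h1 := hf b
      rw [Finset.sum_filter] at h1
      have h2 : ¬ (Fin.last (opt a) = b.castSucc) := fun e => (Fin.castSucc_lt_last b).ne e.symm
      have h3 : ∀ i : Fin n, (if (f i).castSucc = b.castSucc then a i else 0) =
          (if f i = b then a i else 0) := by
        intro i
        by_cases h : f i = b
        · rw [if_pos h, if_pos (by rw [h])]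
        · rw [if_neg h, if_neg (fun e => h (Fin.castSucc_injective _ e))]
      rw [Finset.sum_congr rfl (fun i _ => h3 i), if_neg h2]
      linarith
  exact Nat.sInf_le key

/-- From a packing of the padded instance into `k + 1` bins one gets a packing of the
original instance into `k` bins: the two bins of the new items (or the one bin, which
then holds no old item) are merged. -/
theorem packing_drop {n k : ℕ} (a : Fin n → ℚ) (ha : ∀ i, 0 < a i)
    (f : Fin (n + 2) → Fin (k + 1)) (hf : IsPacking (padHalf a) (k + 1) f) :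
    ∃ g : Fin n → Fin k, IsPacking a k g := by
  obtain ⟨p, hp⟩ : ∃ p, p = f (Fin.natAdd n 0) := ⟨_, rfl⟩
  obtain ⟨q, hq⟩ : ∃ q, q = f (Fin.natAdd n 1) := ⟨_, rfl⟩
  have hL : ∀ b : Fin (k + 1), (∑ i : Fin n, if f (Fin.castAdd 2 i) = b then a i else 0) +
      ((if p = b then (1 / 2 : ℚ) else 0) + (if q = b then 1 / 2 else 0)) ≤ 1 := by
    intro b
    have h1 := hf b
    rw [bin_sum, ← hp, ← hq] at h1
    exact h1
  have hpq : p = q → ∀ i : Fin n, f (Fin.castAdd 2 i) ≠ p := by
    intro e i hi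
    have h1 := hL p
    rw [if_pos rfl, if_pos e.symm] at h1
    have h2 : a i ≤ ∑ i : Fin n, if f (Fin.castAdd 2 i) = p then a i else 0 := by
      have h3 := Finset.single_le_sum
        (f := fun i : Fin n => if f (Fin.castAdd 2 i) = p then a i else 0)
        (fun j _ => by
          show (0 : ℚ) ≤ if f (Fin.castAdd 2 j) = p then a j else 0
          split_ifs
          · exact (ha j).le
          · exact le_rfl) (Finset.mem_univ i)
      have h4 : (if f (Fin.castAdd 2 i) = p then a i else 0) = a i := if_pos hi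
      rw [← h4]
      exact h3
    have h5 := ha i
    linarith
  obtain ⟨h, hh⟩ : ∃ h : Fin n → Fin (k + 1),
      ∀ i, h i = if f (Fin.castAdd 2 i) = p then q else f (Fin.castAdd 2 i) := ⟨_, fun _ => rfl⟩
  have hne : ∀ i, h i ≠ p := by
    intro i
    by_cases hi : f (Fin.castAdd 2 i) = p
    · rw [hh i, if_pos hi]
      intro e
      exact hpq e.symm i hi
    · rw [hh i, if_neg hi]
      exact hi
  have hex : ∀ i : Fin n, ∃ y : Fin k, p.succAbove y = h i :=
    fun i => Fin.exists_succAbove_eq (hne i)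
  choose g hg using hex
  refine ⟨g, ?_⟩
  intro y
  rw [Finset.sum_filter]
  have hc : p.succAbove y ≠ p := Fin.succAbove_ne p y
  have e1 : ∀ i : Fin n, (if g i = y then a i else 0) =
      (if h i = p.succAbove y then a i else 0) := by
    intro i
    by_cases e : g i = y
    · rw [if_pos e, if_pos (by rw [← hg i, e])]
    · rw [if_neg e, if_neg (fun e' => e (Fin.succAbove_right_injective (by rw [hg i, e'])))]
  rw [Finset.sum_congr rfl (fun i _ => e1 i)]
  obtain ⟨c, hcdef⟩ : ∃ c, c = p.succAbove y := ⟨_, rfl⟩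
  rw [← hcdef] at hc ⊢
  by_cases hcq : c = q
  · have hpq' : p ≠ q := fun e => hc (hcq.trans e.symm)
    have e3 : ∀ i : Fin n, (if h i = c then a i else 0) =
        (if f (Fin.castAdd 2 i) = p then a i else 0) +
          (if f (Fin.castAdd 2 i) = q then a i else 0) := by
      intro i
      by_cases hi : f (Fin.castAdd 2 i) = p
      · rw [hh i, if_pos hi, if_pos hcq.symm, if_pos hi, if_neg (by rw [hi]; exact hpq'),
          add_zero]
      · rw [hh i, if_neg hi, if_neg hi, zero_add, hcq]
    rw [Finset.sum_congr rfl (fun i _ => e3 i), Finset.sum_add_distrib]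
    have h1 := hL p
    have h2 := hL q
    rw [if_pos rfl, if_neg (fun e => hpq' e.symm)] at h1
    rw [if_neg hpq', if_pos rfl] at h2
    linarith
  · have e3 : ∀ i : Fin n, (if h i = c then a i else 0) =
        (if f (Fin.castAdd 2 i) = c then a i else 0) := by
      intro i
      by_cases hi : f (Fin.castAdd 2 i) = p
      · rw [hh i, if_pos hi, if_neg (fun e => hcq e.symm),
          if_neg (by rw [hi]; exact fun e => hc e.symm)]
      · rw [hh i, if_neg hi]
    rw [Finset.sum_congr rfl (fun i _ => e3 i)]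
    have h1 := hL c
    have h2 : (0 : ℚ) ≤ (if p = c then (1 / 2 : ℚ) else 0) + (if q = c then 1 / 2 else 0) := by
      split_ifs <;> norm_num
    linarith

/-- Any packing of the padded instance uses at least `opt a + 1` bins. -/
theorem opt_ge_aux {n : ℕ} (a : Fin n → ℚ) (ha : ∀ i, 0 < a i) (K : ℕ)
    (f : Fin (n + 2) → Fin K) (hf : IsPacking (padHalf a) K f) : opt a + 1 ≤ K := by
  cases K with
  | zero => exact (f (Fin.natAdd n 0)).elim0
  | succ k =>
    obtain ⟨g, hg⟩ := packing_drop a ha f hf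
    have h1 : opt a ≤ k := Nat.sInf_le ⟨g, hg⟩
    omega

/-- Padding with two items of size `1/2` raises the optimum by exactly one. -/
theorem opt_padHalf {n : ℕ} (a : Fin n → ℚ) (ha : ∀ i, 1 / 4 < a i ∧ a i ≤ 1 / 2) :
    opt (padHalf a) = opt a + 1 := by
  apply le_antisymm (opt_padHalf_le a (fun i => (ha i).2))
  obtain ⟨f, hf⟩ := packing_opt (padHalf a) (fun i => (padHalf_bounds a ha i).2)
  exact opt_ge_aux a (fun i => by have := (ha i).1; linarith) _ f hf

/-- The padding step: two more items of size `1/2`, the optimum grows by exactly one and the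
linear program by at most one. -/
theorem pad (n : ℕ) (a : Fin n → ℚ) (ha : ∀ i, 1 / 4 < a i ∧ a i ≤ 1 / 2) :
    ∃ (n' : ℕ) (a' : Fin n' → ℚ), (∀ i, 1 / 4 < a' i ∧ a' i ≤ 1 / 2) ∧
      opt a' = opt a + 1 ∧ lp a' ≤ lp a + 1 :=
  ⟨n + 2, padHalf a, padHalf_bounds a ha, opt_padHalf a ha,
    lp_padHalf_le a (fun i => by have := (ha i).2; linarith)⟩

end Vale.Agent.Lib.Helper2.PadHalf
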