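import Mathlib

/-!
Pairs in bins: bins with capacities, items with weights, every used bin receives two distinct
items of total weight at most its capacity, and distinct bins receive disjoint pairs.

This file proves a general step: around a given instance (items `I`, bins `B`) one adds a light
item `z`, a set `L` of heavy items, a small bin, a top bin and three further bins; if the old
instance leaves room for fewer than `n` pairs (where `I` has at most `2 n + 1` items), then the
new instance leaves room for fewer than `n + 4` pairs.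
-/

namespace Vale.Agent.Lib.Helper2.PiB

open Finset

/-- A placement of pairs of items into bins: every bin `b ∈ S` receives the two distinct items
`f b` and `g b` from `I`, of total weight at most the capacity of `b`, and distinct bins receive
disjoint pairs. -/
structure Placed (w c : ℕ → ℕ) (I B S : Finset ℕ) (f g : ℕ → ℕ) : Prop where
  sub : S ⊆ B
  memf : ∀ b ∈ S, f b ∈ I
  memg : ∀ b ∈ S, g b ∈ I
  ne : ∀ b ∈ S, f b ≠ g b
  fit : ∀ b ∈ S, w (f b) + w (g b) ≤ c b
  disj : ∀ b ∈ S, ∀ b' ∈ S, b ≠ b' →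
    f b ≠ f b' ∧ f b ≠ g b' ∧ g b ≠ f b' ∧ g b ≠ g b'

/-- No pair of items of `L` different from `x1`, `x2`, `y1`, `y2` fits into the bin `a3`. -/
def NoThird (w c : ℕ → ℕ) (L : Finset ℕ) (a3 x1 x2 y1 y2 : ℕ) : Prop :=
  ∀ z1 ∈ L, ∀ z2 ∈ L, ¬ (z1 ≠ z2 ∧ z1 ≠ x1 ∧ z1 ≠ x2 ∧ z2 ≠ x1 ∧ z2 ≠ x2 ∧
    z1 ≠ y1 ∧ z1 ≠ y2 ∧ z2 ≠ y1 ∧ z2 ≠ y2 ∧ w z1 + w z2 ≤ c a3)

instance (w c : ℕ → ℕ) (L : Finset ℕ) (a3 x1 x2 y1 y2 : ℕ) :
    Decidable (NoThird w c L a3 x1 x2 y1 y2) := by
  unfold NoThird
  infer_instance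

/-- Whenever a pair of items of `L` different from `x1`, `x2` fits into the bin `a2`, no
further pair fits into the bin `a3`. -/
def NoSecond (w c : ℕ → ℕ) (L : Finset ℕ) (a2 a3 x1 x2 : ℕ) : Prop :=
  ∀ y1 ∈ L, ∀ y2 ∈ L, (y1 ≠ y2 ∧ y1 ≠ x1 ∧ y1 ≠ x2 ∧ y2 ≠ x1 ∧ y2 ≠ x2 ∧
    w y1 + w y2 ≤ c a2) → NoThird w c L a3 x1 x2 y1 y2

instance (w c : ℕ → ℕ) (L : Finset ℕ) (a2 a3 x1 x2 : ℕ) :
    Decidable (NoSecond w c L a2 a3 x1 x2) := by
  unfold NoSecond
  infer_instance

/-- The three bins `a1`, `a2`, `a3` cannot all receive pairs of items of `L` at the same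
time. -/
def NoTriple (w c : ℕ → ℕ) (L : Finset ℕ) (a1 a2 a3 : ℕ) : Prop :=
  ∀ x1 ∈ L, ∀ x2 ∈ L, (x1 ≠ x2 ∧ w x1 + w x2 ≤ c a1) → NoSecond w c L a2 a3 x1 x2

instance (w c : ℕ → ℕ) (L : Finset ℕ) (a1 a2 a3 : ℕ) : Decidable (NoTriple w c L a1 a2 a3) := by
  unfold NoTriple
  infer_instance

theorem Placed.card_used {w c : ℕ → ℕ} {I B S : Finset ℕ} {f g : ℕ → ℕ}
    (h : Placed w c I B S f g) : (S.image f ∪ S.image g).card = 2 * S.card := by
  have hf : Set.InjOn f S := by
    intro b hb b' hb' hbb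
    by_contra hne
    exact (h.disj b hb b' hb' hne).1 hbb
  have hg : Set.InjOn g S := by
    intro b hb b' hb' hbb
    by_contra hne
    exact (h.disj b hb b' hb' hne).2.2.2 hbb
  have hd : Disjoint (S.image f) (S.image g) := by
    rw [Finset.disjoint_left]
    intro x hx hx'
    rw [Finset.mem_image] at hx hx'
    obtain ⟨b, hb, rfl⟩ := hx
    obtain ⟨b', hb', hbb⟩ := hx'
    by_cases hne : b = b'
    · subst hne
      exact h.ne b hb hbb.symm
    · exact (h.disj b hb b' hb' hne).2.1 hbb.symm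
  rw [Finset.card_union_of_disjoint hd, Finset.card_image_of_injOn hf,
    Finset.card_image_of_injOn hg]
  ring

/-- Three bins which cannot all be filled leave room for at most two pairs. -/
theorem base_step (w c : ℕ → ℕ) (I B : Finset ℕ) (a1 a2 a3 : ℕ) (hB : B = {a1, a2, a3})
    (ha12 : a1 ≠ a2) (ha13 : a1 ≠ a3) (ha23 : a2 ≠ a3)
    (h4 : NoTriple w c I a1 a2 a3) (S : Finset ℕ) (f g : ℕ → ℕ)
    (hP : Placed w c I B S f g) : S.card + 1 ≤ 3 := by
  subst hB
  by_contra hcon
  have h3 : ({a1, a2, a3} : Finset ℕ).card ≤ S.card :=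
    le_trans Finset.card_le_three (by omega)
  have hS : S = {a1, a2, a3} := Finset.eq_of_subset_of_card_le hP.sub h3
  have m1 : a1 ∈ S := by rw [hS]; simp
  have m2 : a2 ∈ S := by rw [hS]; simp
  have m3 : a3 ∈ S := by rw [hS]; simp
  have d12 := hP.disj a1 m1 a2 m2 ha12
  have d13 := hP.disj a1 m1 a3 m3 ha13
  have d23 := hP.disj a2 m2 a3 m3 ha23
  exact h4 (f a1) (hP.memf a1 m1) (g a1) (hP.memg a1 m1) ⟨hP.ne a1 m1, hP.fit a1 m1⟩
    (f a2) (hP.memf a2 m2) (g a2) (hP.memg a2 m2)
    ⟨hP.ne a2 m2, Ne.symm d12.1, Ne.symm d12.2.2.1, Ne.symm d12.2.1, Ne.symm d12.2.2.2,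
      hP.fit a2 m2⟩
    (f a3) (hP.memf a3 m3) (g a3) (hP.memg a3 m3)
    ⟨hP.ne a3 m3, Ne.symm d13.1, Ne.symm d13.2.2.1, Ne.symm d13.2.1, Ne.symm d13.2.2.2,
      Ne.symm d23.1, Ne.symm d23.2.2.1, Ne.symm d23.2.1, Ne.symm d23.2.2.2, hP.fit a3 m3⟩

/-- The level step: around an instance with items `I` (at most `2 n + 1` of them) and bins `B`
which leaves room for fewer than `n` pairs, add a light item `z`, heavy items `L`, a small bin
`sm`, a top bin `tp` and three bins `a1`, `a2`, `a3`.  If heavy items fit only into the three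
new bins or, together with `z`, into the top bin, if the small bin takes no pair of old items,
and if the three new bins cannot all receive pairs of heavy items, then the new instance leaves
room for fewer than `n + 4` pairs. -/
theorem level_step (w c : ℕ → ℕ) (I B L I' B' : Finset ℕ) (z sm tp a1 a2 a3 n : ℕ)
    (hI' : I' = insert z I ∪ L) (hB' : B' = insert sm (insert tp B) ∪ {a1, a2, a3})
    (hIcard : I.card ≤ 2 * n + 1)
    (htpB : tp ∉ B) (hsmtp : sm ≠ tp)
    (ha12 : a1 ≠ a2) (ha13 : a1 ≠ a3) (ha23 : a2 ≠ a3)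
    (h1 : ∀ l ∈ L, ∀ i ∈ I', ∀ b ∈ insert sm B, c b < w l + w i)
    (h2 : ∀ l ∈ L, ∀ i ∈ I ∪ L, c tp < w l + w i)
    (h3 : ∀ i ∈ I, ∀ j ∈ I, i ≠ j → c sm < w i + w j)
    (h4 : NoTriple w c L a1 a2 a3)
    (IH : ∀ (S : Finset ℕ) (f g : ℕ → ℕ), Placed w c I B S f g → S.card + 1 ≤ n)
    (S : Finset ℕ) (f g : ℕ → ℕ) (hP : Placed w c I' B' S f g) :
    S.card + 1 ≤ n + 4 := by
  classical
  subst hI' hB'
  by_contra hcon
  have hScard : n + 4 ≤ S.card := by omega
  set U := S.image f ∪ S.image g with hU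
  have hUcard : U.card = 2 * S.card := hP.card_used
  set F := S.filter (fun b => f b ∈ L) with hF
  set G := S.filter (fun b => g b ∈ L) with hG
  have hUL : (U.filter (fun x => x ∈ L)).card ≤ F.card + G.card := by
    have hsub : U.filter (fun x => x ∈ L) ⊆ F.image f ∪ G.image g := by
      intro x hx
      rw [Finset.mem_filter, hU, Finset.mem_union, Finset.mem_image, Finset.mem_image] at hx
      obtain ⟨hx1, hxL⟩ := hx
      rw [Finset.mem_union, Finset.mem_image, Finset.mem_image]
      rcases hx1 with ⟨b, hb, rfl⟩ | ⟨b, hb, rfl⟩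
      · left; exact ⟨b, Finset.mem_filter.2 ⟨hb, hxL⟩, rfl⟩
      · right; exact ⟨b, Finset.mem_filter.2 ⟨hb, hxL⟩, rfl⟩
    calc (U.filter (fun x => x ∈ L)).card ≤ (F.image f ∪ G.image g).card :=
          Finset.card_le_card hsub
      _ ≤ (F.image f).card + (G.image g).card := Finset.card_union_le _ _
      _ ≤ F.card + G.card := Nat.add_le_add Finset.card_image_le Finset.card_image_le
  have hUnL : (U.filter (fun x => ¬ x ∈ L)).card ≤ 2 * n + 2 := by
    have hsub : U.filter (fun x => ¬ x ∈ L) ⊆ insert z I := by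
      intro x hx
      rw [Finset.mem_filter] at hx
      obtain ⟨hx1, hxL⟩ := hx
      have hxI : x ∈ insert z I ∪ L := by
        rw [hU, Finset.mem_union, Finset.mem_image, Finset.mem_image] at hx1
        rcases hx1 with ⟨b, hb, rfl⟩ | ⟨b, hb, rfl⟩
        · exact hP.memf b hb
        · exact hP.memg b hb
      rcases Finset.mem_union.1 hxI with h | h
      · exact h
      · exact absurd h hxL
    calc (U.filter (fun x => ¬ x ∈ L)).card ≤ (insert z I).card := Finset.card_le_card hsub
      _ ≤ I.card + 1 := Finset.card_insert_le z I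
      _ ≤ 2 * n + 2 := by omega
  have hsplit : (U.filter (fun x => x ∈ L)).card + (U.filter (fun x => ¬ x ∈ L)).card
      = U.card := Finset.card_filter_add_card_filter_not _
  have hFG6 : 6 ≤ F.card + G.card := by omega
  -- a bin with a heavy item is the top bin or one of the three new bins
  have hbin : ∀ b ∈ S, (f b ∈ L ∨ g b ∈ L) → b = tp ∨ b ∈ ({a1, a2, a3} : Finset ℕ) := by
    intro b hb hl
    have hbB := hP.sub hb
    have hfit := hP.fit b hb
    rw [Finset.mem_union, Finset.mem_insert, Finset.mem_insert] at hbB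
    have hno : b ∉ insert sm B := by
      intro hbm
      rcases hl with hl | hl
      · have := h1 _ hl _ (hP.memg b hb) b hbm
        omega
      · have := h1 _ hl _ (hP.memf b hb) b hbm
        omega
    rcases hbB with (h | h | h) | h
    · exact absurd (h ▸ Finset.mem_insert_self sm B) hno
    · left; exact h
    · exact absurd (Finset.mem_insert_of_mem h) hno
    · right; exact h
  have hboth : ∀ b ∈ S, f b ∈ L → g b ∈ L → b ≠ tp := by
    intro b hb hfl hgl hbt
    have h := h2 _ hfl (g b) (Finset.mem_union_right _ hgl)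
    have hfit := hP.fit b hb
    have hc : c b = c tp := by rw [hbt]
    omega
  have hFGsub : F ∩ G ⊆ ({a1, a2, a3} : Finset ℕ) := by
    intro b hb
    rw [Finset.mem_inter, hF, hG, Finset.mem_filter, Finset.mem_filter] at hb
    rcases hbin b hb.1.1 (Or.inl hb.1.2) with h | h
    · exact absurd h (hboth b hb.1.1 hb.1.2 hb.2.2)
    · exact h
  have hnot : ¬ (a1 ∈ F ∩ G ∧ a2 ∈ F ∩ G ∧ a3 ∈ F ∩ G) := by
    rintro ⟨m1, m2, m3⟩
    rw [Finset.mem_inter, hF, hG, Finset.mem_filter, Finset.mem_filter] at m1 m2 m3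
    have d12 := hP.disj a1 m1.1.1 a2 m2.1.1 ha12
    have d13 := hP.disj a1 m1.1.1 a3 m3.1.1 ha13
    have d23 := hP.disj a2 m2.1.1 a3 m3.1.1 ha23
    exact h4 (f a1) m1.1.2 (g a1) m1.2.2 ⟨hP.ne a1 m1.1.1, hP.fit a1 m1.1.1⟩
      (f a2) m2.1.2 (g a2) m2.2.2
      ⟨hP.ne a2 m2.1.1, Ne.symm d12.1, Ne.symm d12.2.2.1, Ne.symm d12.2.1, Ne.symm d12.2.2.2,
        hP.fit a2 m2.1.1⟩
      (f a3) m3.1.2 (g a3) m3.2.2
      ⟨hP.ne a3 m3.1.1, Ne.symm d13.1, Ne.symm d13.2.2.1, Ne.symm d13.2.1, Ne.symm d13.2.2.2,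
        Ne.symm d23.1, Ne.symm d23.2.2.1, Ne.symm d23.2.1, Ne.symm d23.2.2.2, hP.fit a3 m3.1.1⟩
  have hFG2 : (F ∩ G).card ≤ 2 := by
    by_contra h
    have h3 : ({a1, a2, a3} : Finset ℕ).card ≤ (F ∩ G).card :=
      le_trans Finset.card_le_three (by omega)
    have heq := Finset.eq_of_subset_of_card_le hFGsub h3
    apply hnot
    rw [heq]
    simp
  have hFUsub : F ∪ G ⊆ insert tp ({a1, a2, a3} : Finset ℕ) := by
    intro b hb
    rw [Finset.mem_union, hF, hG, Finset.mem_filter, Finset.mem_filter] at hb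
    rw [Finset.mem_insert]
    rcases hb with hb | hb
    · exact hbin b hb.1 (Or.inl hb.2)
    · exact hbin b hb.1 (Or.inr hb.2)
  have hsum : (F ∪ G).card + (F ∩ G).card = F.card + G.card :=
    Finset.card_union_add_card_inter F G
  have hthree : ({a1, a2, a3} : Finset ℕ).card ≤ 3 := Finset.card_le_three
  have htp : tp ∈ F ∪ G := by
    by_contra hno
    have hsub3 : F ∪ G ⊆ ({a1, a2, a3} : Finset ℕ) := by
      intro b hb
      have h := hFUsub hb
      rw [Finset.mem_insert] at h
      rcases h with h | h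
      · exact absurd (h ▸ hb) hno
      · exact h
    have := Finset.card_le_card hsub3
    omega
  rw [Finset.mem_union, hF, hG, Finset.mem_filter, Finset.mem_filter] at htp
  have htpS : tp ∈ S := by
    rcases htp with h | h
    · exact h.1
    · exact h.1
  -- the light item sits in the top bin
  have hz : f tp = z ∨ g tp = z := by
    have hfit := hP.fit tp htpS
    rcases htp with h | h
    · right
      have hg := hP.memg tp htpS
      rw [Finset.mem_union, Finset.mem_insert] at hg
      rcases hg with (hg | hg) | hg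
      · exact hg
      · have := h2 _ h.2 (g tp) (Finset.mem_union_left _ hg)
        omega
      · have := h2 _ h.2 (g tp) (Finset.mem_union_right _ hg)
        omega
    · left
      have hf := hP.memf tp htpS
      rw [Finset.mem_union, Finset.mem_insert] at hf
      rcases hf with (hf | hf) | hf
      · exact hf
      · have := h2 _ h.2 (f tp) (Finset.mem_union_left _ hf)
        omega
      · have := h2 _ h.2 (f tp) (Finset.mem_union_right _ hf)
        omega
  have hzne : ∀ b ∈ S, b ≠ tp → f b ≠ z ∧ g b ≠ z := by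
    intro b hb hbt
    have d := hP.disj b hb tp htpS hbt
    rcases hz with h | h
    · rw [← h]
      exact ⟨d.1, d.2.2.1⟩
    · rw [← h]
      exact ⟨d.2.1, d.2.2.2⟩
  -- items in the old bins and in the small bin are old items
  have hold : ∀ b ∈ S, b ∈ insert sm B → f b ∈ I ∧ g b ∈ I := by
    intro b hb hbm
    have hbt : b ≠ tp := by
      intro hbt
      rw [hbt, Finset.mem_insert] at hbm
      rcases hbm with h | h
      · exact hsmtp h.symm
      · exact htpB h
    have hzb := hzne b hb hbt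
    have hfit := hP.fit b hb
    have hf := hP.memf b hb
    have hg := hP.memg b hb
    have hf' := hf
    have hg' := hg
    rw [Finset.mem_union, Finset.mem_insert] at hf hg
    constructor
    · rcases hf with (hf | hf) | hf
      · exact absurd hf hzb.1
      · exact hf
      · have := h1 _ hf _ hg' b hbm
        omega
    · rcases hg with (hg | hg) | hg
      · exact absurd hg hzb.2
      · exact hg
      · have := h1 _ hg _ hf' b hbm
        omega
  have hsm : sm ∉ S := by
    intro hs
    have hI := hold sm hs (Finset.mem_insert_self _ _)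
    have := h3 _ hI.1 _ hI.2 (hP.ne sm hs)
    have hfit := hP.fit sm hs
    omega
  -- the old bins
  have hPold : Placed w c I B (S.filter (fun b => b ∈ B)) f g := by
    refine ⟨?_, ?_, ?_, ?_, ?_, ?_⟩
    · intro b hb
      exact (Finset.mem_filter.1 hb).2
    · intro b hb
      rw [Finset.mem_filter] at hb
      exact (hold b hb.1 (Finset.mem_insert_of_mem hb.2)).1
    · intro b hb
      rw [Finset.mem_filter] at hb
      exact (hold b hb.1 (Finset.mem_insert_of_mem hb.2)).2
    · intro b hb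
      exact hP.ne b (Finset.mem_filter.1 hb).1
    · intro b hb
      exact hP.fit b (Finset.mem_filter.1 hb).1
    · intro b hb b' hb' hne
      exact hP.disj b (Finset.mem_filter.1 hb).1 b' (Finset.mem_filter.1 hb').1 hne
  have hold_card := IH _ f g hPold
  have hSsub : S ⊆ S.filter (fun b => b ∈ B) ∪ insert tp ({a1, a2, a3} : Finset ℕ) := by
    intro b hb
    have hbB := hP.sub hb
    rw [Finset.mem_union, Finset.mem_insert, Finset.mem_insert] at hbB
    rw [Finset.mem_union, Finset.mem_filter, Finset.mem_insert]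
    rcases hbB with (h | h | h) | h
    · exact absurd (h ▸ hb) hsm
    · right; left; exact h
    · left; exact ⟨hb, h⟩
    · right; right; exact h
  have h4c : (insert tp ({a1, a2, a3} : Finset ℕ)).card ≤ 4 :=
    le_trans (Finset.card_insert_le _ _) (by omega)
  have h5 := Finset.card_le_card hSsub
  have h6 := Finset.card_union_le (S.filter (fun b => b ∈ B))
    (insert tp ({a1, a2, a3} : Finset ℕ))
  omega

end Vale.Agent.Lib.Helper2.PiB
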